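import Vale.Agent.P354BF.Defs

open scoped ContDiff InnerProductSpace ComplexConjugate
open Complex (I)

namespace Vale.Agent.P354BF

variable {S : Type} [NormedAddCommGroup S] [InnerProductSpace ℂ S] {A : Ang S}

theorem ip_self (u : S) : ⟪u, u⟫_ℂ = ((‖u‖ ^ 2 : ℝ) : ℂ) := by
  rw [inner_self_eq_norm_sq_to_K]; simp

theorem Ang.cas_apply (A : Ang S) (u : S) : A.cas u = -∑ i, A.L i (A.L i u) := by
  simp [Ang.cas, LinearMap.sum_apply]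

theorem Ang.lop_apply (A : Ang S) (k a : ℝ) (om : ℂ) (m : ℝ) (u : S) : A.lop k a om m u =
    A.cas u + ((a : ℂ) ^ 2 * om ^ 2 - 2 * a * om * m) • u -
      ((a : ℂ) ^ 2 * om ^ 2) • A.w 2 (A.w 2 u) + (2 * k * a * om) • A.w 2 u := by
  simp [Ang.lop]

namespace Ang.Is

theorem skew' (h : A.Is) (i : Fin 3) (u v : S) : ⟪u, A.L i v⟫_ℂ = -⟪A.L i u, v⟫_ℂ := by
  rw [h.skew]; ring

theorem cas_ip (h : A.Is) (u v : S) : ⟪u, A.cas v⟫_ℂ = ∑ i, ⟪A.L i u, A.L i v⟫_ℂ := by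
  rw [A.cas_apply, inner_neg_right, inner_sum, ← Finset.sum_neg_distrib]
  exact Finset.sum_congr rfl fun i _ => by rw [h.skew' i u]; ring

theorem cas_symm (h : A.Is) (u v : S) : ⟪A.cas u, v⟫_ℂ = ⟪u, A.cas v⟫_ℂ := by
  rw [h.cas_ip, ← inner_conj_symm, h.cas_ip, map_sum]
  exact Finset.sum_congr rfl fun i _ => inner_conj_symm _ _

theorem cas_form (h : A.Is) (u : S) : ⟪u, A.cas u⟫_ℂ = ((∑ i, ‖A.L i u‖ ^ 2 : ℝ) : ℂ) := by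
  rw [h.cas_ip]; push_cast
  exact Finset.sum_congr rfl fun i _ => by rw [ip_self]; push_cast; rfl

theorem w_ip (h : A.Is) (u v : S) : ∑ i, ⟪A.w i u, A.w i v⟫_ℂ = ⟪u, v⟫_ℂ := by
  conv_rhs => rw [← h.one v, inner_sum]
  exact Finset.sum_congr rfl fun i _ => h.symm i u _

theorem w_sq (h : A.Is) (u : S) : ∑ i, ‖A.w i u‖ ^ 2 = ‖u‖ ^ 2 := by
  have := h.w_ip u u
  simp only [ip_self] at this
  exact_mod_cast this

theorem w_le (h : A.Is) (i : Fin 3) (u : S) : ‖A.w i u‖ ≤ ‖u‖ := by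
  have : ‖A.w i u‖ ^ 2 ≤ ‖u‖ ^ 2 := by
    rw [← h.w_sq u]
    exact Finset.single_le_sum (f := fun i => ‖A.w i u‖ ^ 2) (fun _ _ => sq_nonneg _)
      (Finset.mem_univ i)
  exact (pow_le_pow_iff_left₀ (norm_nonneg _) (norm_nonneg _) two_ne_zero).1 this

theorem w_real (h : A.Is) (i : Fin 3) (u : S) :
    ⟪u, A.w i u⟫_ℂ = ((⟪u, A.w i u⟫_ℂ).re : ℂ) := by
  rw [eq_comm, ← Complex.conj_eq_iff_re, inner_conj_symm, h.symm]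

theorem w_re_le (h : A.Is) (i : Fin 3) (u : S) : |(⟪u, A.w i u⟫_ℂ).re| ≤ ‖u‖ ^ 2 :=
  (Complex.abs_re_le_norm _).trans ((norm_inner_le_norm _ _).trans (by
    rw [sq]; exact mul_le_mul_of_nonneg_left (h.w_le i u) (norm_nonneg _)))

/-- The quadratic form of the spheroidal operator. -/
theorem lop_form (h : A.Is) (k a : ℝ) (om : ℂ) (m : ℝ) (u : S) : ⟪u, A.lop k a om m u⟫_ℂ =
    ((∑ i, ‖A.L i u‖ ^ 2 : ℝ) : ℂ) +
      (a : ℂ) ^ 2 * om ^ 2 * ((‖u‖ ^ 2 - ‖A.w 2 u‖ ^ 2 : ℝ) : ℂ) -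
      2 * a * om * m * ((‖u‖ ^ 2 : ℝ) : ℂ) + 2 * k * a * om * ((⟪u, A.w 2 u⟫_ℂ).re : ℂ) := by
  rw [A.lop_apply, inner_add_right, inner_sub_right, inner_add_right, inner_smul_right,
    inner_smul_right, inner_smul_right, h.cas_form, ← h.symm 2 u, ip_self, ip_self, ← h.w_real]
  push_cast; ring

theorem lop_symm (h : A.Is) (k a : ℝ) (om : ℂ) (m : ℝ) (u v : S) :
    ⟪A.lop k a (conj om) m u, v⟫_ℂ = ⟪u, A.lop k a om m v⟫_ℂ := by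
  simp only [A.lop_apply, inner_add_right, inner_sub_right, inner_smul_right, inner_add_left,
    inner_sub_left, inner_smul_left, h.cas_symm, h.symm, map_mul, map_sub, map_pow,
    Complex.conj_conj, Complex.conj_ofReal, map_ofNat]

theorem L01 (h : A.Is) (u : S) : A.L 0 (A.L 1 u) = A.L 1 (A.L 0 u) - A.L 2 u := by
  have := h.LL 0 u
  simp only [show (0 + 1 : Fin 3) = 1 from rfl, show (0 + 2 : Fin 3) = 2 from rfl] at this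
  rw [sub_eq_iff_eq_add] at this; rw [this]; abel

theorem L12 (h : A.Is) (u : S) : A.L 1 (A.L 2 u) = A.L 2 (A.L 1 u) - A.L 0 u := by
  have := h.LL 1 u
  simp only [show (1 + 1 : Fin 3) = 2 from rfl, show (1 + 2 : Fin 3) = 0 from rfl] at this
  rw [sub_eq_iff_eq_add] at this; rw [this]; abel

theorem L20 (h : A.Is) (u : S) : A.L 2 (A.L 0 u) = A.L 0 (A.L 2 u) - A.L 1 u := by
  have := h.LL 2 u
  simp only [show (2 + 1 : Fin 3) = 0 from rfl, show (2 + 2 : Fin 3) = 1 from rfl] at this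
  rw [sub_eq_iff_eq_add] at this; rw [this]; abel

theorem L2_cas (h : A.Is) (u : S) : A.L 2 (A.cas u) = A.cas (A.L 2 u) := by
  have e1 : ∀ u, A.L 2 (A.L 1 u) = A.L 1 (A.L 2 u) + A.L 0 u := fun u => by
    rw [h.L12]; abel
  simp only [A.cas_apply, Fin.sum_univ_three, map_neg, map_add, h.L20, e1, map_sub]
  abel

theorem L2_lop (h : A.Is) (k a : ℝ) (om : ℂ) (m : ℝ) (u : S) :
    A.L 2 (A.lop k a om m u) = A.lop k a om m (A.L 2 u) := by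
  simp only [A.lop_apply, map_add, map_sub, map_smul, h.L2_cas, h.Lw0]

/-- The Casimir operator is at least s^2 + |s|. -/
theorem cas_ge (h : A.Is) (u : S) : (A.s ^ 2 + |A.s|) * ‖u‖ ^ 2 ≤ ∑ i, ‖A.L i u‖ ^ 2 := by
  have w01 := h.ww 0 1
  have w02 := h.ww 0 2
  have w12 := h.ww 1 2
  have one := h.one
  have sp := h.spin
  have a0 := h.Lw0
  have b0 := h.Lw1 0
  have b1 := h.Lw1 1
  have b2 := h.Lw1 2
  have c0 := h.Lw2 0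
  have c1 := h.Lw2 1
  have c2 := h.Lw2 2
  simp only [Fin.sum_univ_three, show (0 + 1 : Fin 3) = 1 from rfl,
    show (0 + 2 : Fin 3) = 2 from rfl, show (1 + 1 : Fin 3) = 2 from rfl,
    show (1 + 2 : Fin 3) = 0 from rfl, show (2 + 1 : Fin 3) = 0 from rfl,
    show (2 + 2 : Fin 3) = 1 from rfl] at one sp b0 b1 b2 c0 c1 c2 ⊢
  set c : ℂ := I * A.s with hc
  have cc : conj c = -c := by simp [hc]
  set J : Fin 3 → S → S := fun i x => A.L i x + c • A.w i x with hJ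
  have js : ∀ i x y, ⟪J i x, y⟫_ℂ = -⟪x, J i y⟫_ℂ := fun i x y => by
    simp only [hJ, inner_add_left, inner_add_right, inner_smul_left, inner_smul_right, cc, h.skew,
      h.symm]; ring
  have z : A.w 0 (J 0 u) + A.w 1 (J 1 u) + A.w 2 (J 2 u) = 0 := by
    simp only [hJ, map_add, map_smul]
    linear_combination (norm := module) sp u + c • one u
  set K0 := A.w 1 (J 2 u) - A.w 2 (J 1 u) with k0
  set K1 := A.w 2 (J 0 u) - A.w 0 (J 2 u) with k1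
  set K2 := A.w 0 (J 1 u) - A.w 1 (J 0 u) with k2
  have d : J 0 K0 + J 1 K1 + J 2 K2 = c • u := by
    have z' := z
    simp only [k0, k1, k2, hJ, map_add, map_sub, map_smul, a0, b0, b1, b2, c0, c1, c2, w01, w02,
      w12, h.L01, h.L12, h.L20] at z' ⊢
    have e1 : A.L 0 (A.L 2 u) = A.L 2 (A.L 0 u) + A.L 1 u := by rw [h.L20]; abel
    linear_combination (norm := module) (-2 : ℂ) • z' + sp u + (2 * c) • one u
  have dk : ⟪J 0 u, K0⟫_ℂ + ⟪J 1 u, K1⟫_ℂ + ⟪J 2 u, K2⟫_ℂ = -c * ⟪u, u⟫_ℂ := by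
    rw [js, js, js]
    have := congrArg (fun x => ⟪u, x⟫_ℂ) d
    simp only [inner_add_right, inner_smul_right] at this
    linear_combination -this
  have jj : ⟪J 0 u, J 0 u⟫_ℂ + ⟪J 1 u, J 1 u⟫_ℂ + ⟪J 2 u, J 2 u⟫_ℂ =
      ⟪A.L 0 u, A.L 0 u⟫_ℂ + ⟪A.L 1 u, A.L 1 u⟫_ℂ + ⟪A.L 2 u, A.L 2 u⟫_ℂ +
        c ^ 2 * ⟪u, u⟫_ℂ := by
    have e1 := congrArg (fun x => ⟪u, x⟫_ℂ) (sp u)
    have e2 := congrArg (fun x => ⟪x, u⟫_ℂ) (sp u)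
    have e3 := congrArg (fun x => ⟪u, x⟫_ℂ) (one u)
    simp only [inner_add_right, inner_smul_right, inner_add_left, inner_smul_left, map_neg, cc,
      h.symm] at e1 e2 e3
    simp only [hJ, inner_add_right, inner_smul_right, inner_add_left, inner_smul_left, cc, h.symm]
    linear_combination c * e2 - c * e1 - c ^ 2 * e3
  have kk : ⟪K0, K0⟫_ℂ + ⟪K1, K1⟫_ℂ + ⟪K2, K2⟫_ℂ =
      ⟪J 0 u, J 0 u⟫_ℂ + ⟪J 1 u, J 1 u⟫_ℂ + ⟪J 2 u, J 2 u⟫_ℂ := by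
    have e0 := congrArg (fun x => ⟪J 0 u, x⟫_ℂ) (one (J 0 u))
    have e1 := congrArg (fun x => ⟪J 1 u, x⟫_ℂ) (one (J 1 u))
    have e2 := congrArg (fun x => ⟪J 2 u, x⟫_ℂ) (one (J 2 u))
    have e3 := congrArg (fun x => ⟪x, x⟫_ℂ) z
    simp only [inner_add_right, inner_add_left, h.symm, inner_zero_left, w01, w02, w12]
      at e0 e1 e2 e3
    simp only [k0, k1, k2, inner_sub_right, inner_sub_left, h.symm, w01, w02, w12]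
    linear_combination e0 + e1 + e2 - e3
  have key : ∀ ε : ℝ, ε ^ 2 = 1 → 0 ≤ ‖A.L 0 u‖ ^ 2 + ‖A.L 1 u‖ ^ 2 + ‖A.L 2 u‖ ^ 2 -
      A.s ^ 2 * ‖u‖ ^ 2 + ε * A.s * ‖u‖ ^ 2 := fun ε hε => by
    have hε' : (ε : ℂ) ^ 2 = 1 := by exact_mod_cast hε
    have ci : conj ((ε : ℂ) * I) = -(ε * I) := by simp
    have dk' : ⟪K0, J 0 u⟫_ℂ + ⟪K1, J 1 u⟫_ℂ + ⟪K2, J 2 u⟫_ℂ = c * ⟪u, u⟫_ℂ := by
      have := congrArg conj dk
      simp only [map_add, inner_conj_symm, map_mul, map_neg, cc, neg_neg] at this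
      exact this
    have e : ⟪J 0 u + (ε * I : ℂ) • K0, J 0 u + (ε * I : ℂ) • K0⟫_ℂ +
        ⟪J 1 u + (ε * I : ℂ) • K1, J 1 u + (ε * I : ℂ) • K1⟫_ℂ +
        ⟪J 2 u + (ε * I : ℂ) • K2, J 2 u + (ε * I : ℂ) • K2⟫_ℂ =
        2 * (⟪A.L 0 u, A.L 0 u⟫_ℂ + ⟪A.L 1 u, A.L 1 u⟫_ℂ + ⟪A.L 2 u, A.L 2 u⟫_ℂ -
          A.s ^ 2 * ⟪u, u⟫_ℂ + ε * A.s * ⟪u, u⟫_ℂ) := by
      simp only [inner_add_right, inner_add_left, inner_smul_left, inner_smul_right, ci]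
      have i2 : I ^ 2 = -1 := Complex.I_sq
      linear_combination (ε * I) * dk - (ε * I) * dk' + 2 * jj + kk -
        (⟪K0, K0⟫_ℂ + ⟪K1, K1⟫_ℂ + ⟪K2, K2⟫_ℂ) * ((ε : ℂ) ^ 2 * i2 - hε') +
        (2 * A.s ^ 2 - 2 * ε * A.s) * ⟪u, u⟫_ℂ * i2
    simp only [ip_self] at e
    have e' : ‖J 0 u + (ε * I : ℂ) • K0‖ ^ 2 + ‖J 1 u + (ε * I : ℂ) • K1‖ ^ 2 +
        ‖J 2 u + (ε * I : ℂ) • K2‖ ^ 2 = 2 * (‖A.L 0 u‖ ^ 2 + ‖A.L 1 u‖ ^ 2 + ‖A.L 2 u‖ ^ 2 -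
          A.s ^ 2 * ‖u‖ ^ 2 + ε * A.s * ‖u‖ ^ 2) := by exact_mod_cast e
    nlinarith [sq_nonneg ‖J 0 u + (ε * I : ℂ) • K0‖, sq_nonneg ‖J 1 u + (ε * I : ℂ) • K1‖,
      sq_nonneg ‖J 2 u + (ε * I : ℂ) • K2‖]
  have p := key 1 (by norm_num)
  have q := key (-1) (by norm_num)
  rcases abs_cases A.s with ⟨e, _⟩ | ⟨e, _⟩ <;> rw [e] <;> nlinarith

/-- Lower bound of the principal part of the spheroidal operator on the axial number m. -/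
theorem lop_ge (h : A.Is) (c m : ℝ) (u : S) (hu : A.L 2 u = (I * m) • u) :
    (max (|m| - |c|) 0) ^ 2 * ‖u‖ ^ 2 - 2 * |A.s| * |c| * ‖u‖ ^ 2 ≤
      ∑ i, ‖A.L i u‖ ^ 2 + c ^ 2 * (‖u‖ ^ 2 - ‖A.w 2 u‖ ^ 2) - 2 * c * m * ‖u‖ ^ 2 := by
  have one := h.one
  have sp := h.spin
  simp only [Fin.sum_univ_three] at one sp ⊢
  set z := A.w 2 u with hz
  have ci : conj ((c : ℂ) * I) = -(c * I) := by simp
  have cm : conj (I * (m : ℂ)) = -(I * m) := by simp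
  have cs : conj (I * (A.s : ℂ)) = -(I * A.s) := by simp
  have i2 : I ^ 2 = -1 := Complex.I_sq
  have e : ⟪A.L 0 u + (c * I : ℂ) • A.w 0 z, A.L 0 u + (c * I : ℂ) • A.w 0 z⟫_ℂ +
      ⟪A.L 1 u + (c * I : ℂ) • A.w 1 z, A.L 1 u + (c * I : ℂ) • A.w 1 z⟫_ℂ +
      ⟪A.L 2 u + (c * I : ℂ) • (A.w 2 z - u), A.L 2 u + (c * I : ℂ) • (A.w 2 z - u)⟫_ℂ =
      ⟪A.L 0 u, A.L 0 u⟫_ℂ + ⟪A.L 1 u, A.L 1 u⟫_ℂ + ⟪A.L 2 u, A.L 2 u⟫_ℂ +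
        c ^ 2 * (⟪u, u⟫_ℂ - ⟪z, z⟫_ℂ) - 2 * c * m * ⟪u, u⟫_ℂ -
        c * A.s * (⟪u, z⟫_ℂ + ⟪z, u⟫_ℂ) := by
    have e1 := congrArg (fun x => ⟪z, x⟫_ℂ) (sp u)
    have e2 := congrArg (fun x => ⟪x, z⟫_ℂ) (sp u)
    have e3 := congrArg (fun x => ⟪z, x⟫_ℂ) (one z)
    have e4 : ⟪u, A.w 2 z⟫_ℂ = ⟪z, z⟫_ℂ := (h.symm 2 u z).symm
    have e5 := congrArg (fun x => ⟪u, x⟫_ℂ) hu
    have e6 := congrArg (fun x => ⟪x, u⟫_ℂ) hu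
    have e7 : ⟪A.w 2 z, u⟫_ℂ = ⟪z, z⟫_ℂ := h.symm 2 z u
    simp only [inner_add_right, inner_smul_right, inner_add_left, inner_smul_left, map_neg, cs, cm,
      h.symm] at e1 e2 e3 e5 e6
    simp only [inner_add_right, inner_smul_right, inner_add_left, inner_smul_left, ci,
      inner_sub_left, inner_sub_right, e7, e4, h.symm 0, h.symm 1, h.symm 2 z (A.L 2 u),
      h.symm 2 z (A.w 2 z)]
    linear_combination (c * I) * e2 - (c * I) * e1 - (c * I) ^ 2 * e3 - (c * I) * e6 +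
      (c * I) * e5 + (-(c : ℂ) ^ 2 * (⟪u, u⟫_ℂ - ⟪z, z⟫_ℂ) + 2 * c * m * ⟪u, u⟫_ℂ +
        c * A.s * (⟪u, z⟫_ℂ + ⟪z, u⟫_ℂ)) * i2
  have zu : ⟪z, u⟫_ℂ = ⟪u, z⟫_ℂ := h.symm 2 u u
  rw [zu, h.w_real 2 u] at e
  simp only [ip_self] at e
  have e' : ‖A.L 0 u + (c * I : ℂ) • A.w 0 z‖ ^ 2 + ‖A.L 1 u + (c * I : ℂ) • A.w 1 z‖ ^ 2 +
      ‖A.L 2 u + (c * I : ℂ) • (A.w 2 z - u)‖ ^ 2 = ‖A.L 0 u‖ ^ 2 + ‖A.L 1 u‖ ^ 2 +
      ‖A.L 2 u‖ ^ 2 + c ^ 2 * (‖u‖ ^ 2 - ‖z‖ ^ 2) - 2 * c * m * ‖u‖ ^ 2 -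
      c * A.s * ((⟪u, A.w 2 u⟫_ℂ).re + (⟪u, A.w 2 u⟫_ℂ).re) := by exact_mod_cast e
  have b1 : ‖A.w 2 z - u‖ ≤ ‖u‖ := by
    have e1 : A.w 2 z - u = -(A.w 0 (A.w 0 u) + A.w 1 (A.w 1 u)) := by
      linear_combination (norm := module) one u
    have e2 := norm_sub_sq (𝕜 := ℂ) (A.w 2 z) u
    have e3 : ⟪A.w 2 z, u⟫_ℂ = ⟪z, z⟫_ℂ := h.symm 2 z u
    rw [e3, inner_self_eq_norm_sq] at e2
    have e4 := h.w_le 2 z
    have : ‖A.w 2 z - u‖ ^ 2 ≤ ‖u‖ ^ 2 := by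
      nlinarith [norm_nonneg (A.w 2 z), norm_nonneg z]
    exact (pow_le_pow_iff_left₀ (norm_nonneg _) (norm_nonneg _) two_ne_zero).1 this
  have b2 : max (|m| - |c|) 0 * ‖u‖ ≤ ‖A.L 2 u + (c * I : ℂ) • (A.w 2 z - u)‖ := by
    have e1 := norm_sub_norm_le (A.L 2 u) (-((c * I : ℂ) • (A.w 2 z - u)))
    rw [sub_neg_eq_add, norm_neg, norm_smul] at e1
    have e2 : ‖A.L 2 u‖ = |m| * ‖u‖ := by rw [hu, norm_smul]; simp
    have e3 : ‖(c * I : ℂ)‖ = |c| := by simp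
    rw [e2, e3] at e1
    rcases max_cases (|m| - |c|) 0 with ⟨e, _⟩ | ⟨e, _⟩ <;> rw [e]
    · nlinarith [abs_nonneg c]
    · simp
  have b3 := mul_self_le_mul_self (mul_nonneg (le_max_right _ _) (norm_nonneg u)) b2
  have b4 := h.w_re_le 2 u
  have b5 : |c * A.s * (⟪u, A.w 2 u⟫_ℂ).re| ≤ |A.s| * |c| * ‖u‖ ^ 2 := by
    rw [abs_mul, abs_mul, mul_comm |c|]
    exact mul_le_mul_of_nonneg_left b4 (by positivity)
  have b6 := (abs_le.1 b5).1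
  nlinarith [sq_nonneg ‖A.L 0 u + (c * I : ℂ) • A.w 0 z‖,
    sq_nonneg ‖A.L 1 u + (c * I : ℂ) • A.w 1 z‖]

end Ang.Is

end Vale.Agent.P354BF
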