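import Vale.Agent.P354BF.Res2

open scoped ContDiff InnerProductSpace
open MeasureTheory Set Filter Topology intervalIntegral
open Complex (I)

namespace Vale.Agent.P354BF

variable {S : Type} [NormedAddCommGroup S] [InnerProductSpace ℂ S] {A : Ang S}

theorem factor_ind {V : Type} [AddCommGroup V] [Module ℂ V] (Λ : Module.End ℂ V)
    {Ad Nu : V → Prop} (lin : ∀ u v (c : ℂ), Ad u → Ad v → Ad (u - c • v))
    (sc : ∀ (c : ℂ) z, c ≠ 0 → Ad z → Nu (c • z) → Nu z)
    (st : ∀ (lam : ℂ) z, Ad z → Ad (Λ z - lam • z) → Nu (Λ z - lam • z) → Nu z) (d : ℕ) :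
    ∀ q : Polynomial ℂ, q ≠ 0 → q.natDegree ≤ d → ∀ z, (∀ i ≤ d, Ad ((Λ ^ i) z)) →
      Nu (Polynomial.aeval Λ q z) → Nu z := by
  induction d with
  | zero =>
    intro q hq hd z hz hn
    rw [Polynomial.eq_C_of_natDegree_le_zero hd] at hq hn
    exact sc _ z (by simpa using hq) (by simpa using hz 0 le_rfl) (by simpa using hn)
  | succ d ih =>
    intro q hq hd z hz hn
    rcases Nat.eq_zero_or_pos q.natDegree with e | e
    · exact ih q hq (by omega) z (fun i hi => hz i (by omega)) hn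
    obtain ⟨lam, hl⟩ := Complex.exists_root (Polynomial.natDegree_pos_iff_degree_pos.1 e)
    obtain ⟨q', rfl⟩ := Polynomial.dvd_iff_isRoot.2 hl
    have q0 : q' ≠ 0 := right_ne_zero_of_mul hq
    rw [Polynomial.natDegree_mul (Polynomial.X_sub_C_ne_zero lam) q0,
      Polynomial.natDegree_X_sub_C] at hd
    have ad : ∀ i ≤ d, Ad ((Λ ^ i) (Λ z - lam • z)) := fun i hi => by
      have := lin _ _ lam (hz (i + 1) (by omega)) (hz i (by omega))
      rwa [pow_succ, Module.End.mul_apply, ← map_smul, ← map_sub] at this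
    refine st lam z (by simpa using hz 0 (by omega)) (by simpa using ad 0 (by omega))
      (ih q' q0 (by omega) _ ad ?_)
    rw [mul_comm, map_mul, Module.End.mul_apply] at hn
    simpa using hn

theorem W_smul {v : ℝ → S} (hv : ContDiff ℝ ∞ v) (c : ℂ) (k : ℕ) (x y : ℝ) :
    W k (fun r => c • v r) x y = ‖c‖ ^ 2 * W k v x y := by
  have e := iter_lin hv hv c 0
  simp only [zero_smul, add_zero] at e
  simp only [W, e, norm_smul, mul_pow, intervalIntegral.integral_const_mul, Finset.mul_sum]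

theorem Ang.Is.md_pow (h : A.Is) {m : ℝ} {v : ℝ → S} (hv : A.Md m v) (k a : ℝ) (om : ℂ) (m' : ℝ)
    (j : ℕ) : A.Md m fun r => (A.lop k a om m' ^ j) (v r) := by
  induction j with
  | zero => simpa using hv
  | succ j ih => simpa only [pow_succ', Module.End.mul_apply] using h.md_lop ih k a om m'

/-- The estimate at bounded frequencies. -/
theorem Par.bf {p : Par S} {c : ℝ → ℝ} (h : A.Is) (gal : A.Gal) (H2 : p.Hyp2 A c) (δ : ℝ)
    (hδ : 0 < δ) : ∃ C : ℝ, ∀ᶠ R in atTop, ∀ σ ∈ p.Ω, ∀ v, A.Md σ.m v →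
      W 2 v p.x0 p.R2 ≤ δ * p.Bk R σ v + C * p.src R σ v := by
  have H := H2.toHyp
  obtain ⟨ι, _, l, j, ρ, hj, fin⟩ := Par.fin h gal H
  set J := Fintype.card ι with hJ
  by_contra hc
  push Not at hc
  choose R hR hR' using fun n : ℕ =>
    ((hc (n + 1)).and_eventually (eventually_ge_atTop (max p.R2 n))).exists
  choose σ hσ v hv hlt using hR
  have R2 : ∀ n, p.R2 ≤ R n := fun n => (le_max_left _ _).trans (hR' n)
  have Rt : Tendsto R atTop atTop :=
    tendsto_atTop_mono (fun n => (le_max_right _ _).trans (hR' n)) tendsto_natCast_atTop_atTop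
  have b0 := fun n => (H.qb _ _ (hσ n) (R2 n)).1 _ (hv n)
  have s0 := fun n => (H.qs _ _ (hσ n) (R2 n)).1 _ (hv n)
  have n0 : ∀ n : ℕ, (0 : ℝ) < n + 1 := fun n => by positivity
  have N0 : ∀ n, 0 < W 2 (v n) p.x0 p.R2 := fun n =>
    (add_nonneg (mul_nonneg hδ.le (b0 n)) (mul_nonneg (n0 n).le (s0 n))).trans_lt (hlt n)
  set e : ℕ → ℂ := fun n => ((√(W 2 (v n) p.x0 p.R2))⁻¹ : ℝ) with he
  have cn : ∀ n, ‖e n‖ ^ 2 * W 2 (v n) p.x0 p.R2 = 1 := fun n => by
    rw [he, Complex.norm_real, Real.norm_eq_abs, sq_abs, inv_pow, Real.sq_sqrt (N0 n).le,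
      inv_mul_cancel₀ (N0 n).ne']
  set z : ℕ → ℝ → S := fun n r => e n • v n r with hz
  have ez : ∀ n, z n = fun r => e n • v n r + (0 : ℂ) • v n r := fun n => by
    simp only [hz, zero_smul, add_zero]
  have t0 := tendsto_one_div_add_atTop_nhds_zero_nat (𝕜 := ℝ)
  have ad : p.Adm A R σ z := by
    refine ⟨fun n => (hv n).smul contDiff_const, ⟨2 / δ, fun n => ?_⟩, ?_⟩
    · have a1 := (H.qb _ _ (hσ n) (R2 n)).2 (e n) 0 _ _ (hv n) (hv n)
      have a3 := mul_nonneg (n0 n).le (s0 n)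
      rw [ez, le_div_iff₀ hδ]
      simp only [norm_zero, ne_eq, OfNat.ofNat_ne_zero, not_false_eq_true, zero_pow, mul_zero,
        zero_mul, add_zero] at a1
      nlinarith [mul_le_mul_of_nonneg_right a1 hδ.le, cn n, mul_le_mul_of_nonneg_left
        ((le_add_of_nonneg_right a3).trans (hlt n).le) (sq_nonneg ‖e n‖)]
    · have t := t0.const_mul 2
      rw [mul_zero] at t
      refine squeeze_zero (fun n => (H.qs _ _ (hσ n) (R2 n)).1 _ ((hv n).smul contDiff_const))
        (fun n => ?_) t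
      have a1 := (H.qs _ _ (hσ n) (R2 n)).2 (e n) 0 _ _ (hv n) (hv n)
      have a3 := mul_nonneg hδ.le (b0 n)
      rw [ez, mul_one_div, le_div_iff₀ (n0 n)]
      simp only [norm_zero, ne_eq, OfNat.ofNat_ne_zero, not_false_eq_true, zero_pow, mul_zero,
        zero_mul, add_zero] at a1
      nlinarith [mul_le_mul_of_nonneg_right a1 (n0 n).le, cn n, mul_le_mul_of_nonneg_left
        ((le_add_of_nonneg_left a3).trans (hlt n).le) (sq_nonneg ‖e n‖)]
  have zn : ∀ n, W 2 (z n) p.x0 p.R2 = 1 := fun n => by rw [hz, W_smul (hv _).1.cd, cn]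
  clear_value z
  obtain ⟨κ, hκ⟩ := H.cpt.exists_bound_of_continuousOn
    (f := fun w : Fr => kap p.k w.a w.om w.m) (Continuous.continuousOn (by unfold kap; fun_prop))
  have hμ : ∀ n, kap p.k (σ n).a (σ n).om (σ n).m + 1 ≤ κ + 1 := fun n => by
    linarith [hκ _ (hσ n), le_abs_self (kap p.k (σ n).a (σ n).om (σ n).m),
      Real.norm_eq_abs (kap p.k (σ n).a (σ n).om (σ n).m)]
  set Z : ℕ → ℝ := fun n => A.WL 3 (z n) p.r0 (2 * R n) + W 3 (z n) p.r0 (2 * R n) with hZ
  have Z0 : ∀ n, 0 ≤ Z n := fun n =>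
    have : p.r0 ≤ 2 * R n := by linarith [R2 n, H2.r2, H.h3, H.h2]
    add_nonneg (WL_nonneg _ _ this) (W_nonneg _ _ this)
  set η : ℕ → ℝ := fun n => 1 / ((n + 1) * (c (R n) + 1) * (Z n + 1)) with hη
  have η0 : ∀ n, 0 < η n := fun n => by
    have := H2.c0 (R n)
    have := Z0 n
    positivity
  choose G hG using fun n => h.res gal (hμ n) (η0 n)
  replace hG : ∀ n, A.Rs p.k (σ n) (κ + 1) (η n) (G n) := hG
  have ad0 : p.Ad A c R σ η z := ⟨ad, squeeze_zero (fun n => mul_nonneg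
    (by linarith [H2.c0 (R n)]) (mul_nonneg (η0 n).le (Z0 n))) (fun n => by
      have := H2.c0 (R n)
      have := Z0 n
      rw [show (c (R n) + 1) * (η n * Z n) = 1 / (n + 1) * (Z n / (Z n + 1)) by
        rw [hη]; field_simp]
      exact mul_le_of_le_one_right (by positivity) ((div_le_one (by linarith)).2 (by linarith))) t0⟩
  clear_value η
  obtain ⟨o, ho, φ0, hφ0, lim0⟩ := H.cpt.tendsto_subseq hσ
  have t0 := hφ0.tendsto_atTop
  have q : p.Seq (fun n => R (φ0 n)) (fun n => σ (φ0 n)) o :=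
    ⟨Rt.comp t0, fun _ => R2 _, fun _ => hσ _, lim0, ho⟩
  set u : ℕ → ℕ → ℝ → S := fun i n r => (G n ^ i) (z n r) with hu
  have ad1 : ∀ i, p.Ad A c (fun n => R (φ0 n)) (fun n => σ (φ0 n)) (fun n => η (φ0 n))
      fun n => u i (φ0 n) := fun i => by
    induction i with
    | zero => exact ⟨ad0.1.sub t0, ad0.2.comp t0⟩
    | succ i ih =>
      simpa only [hu, pow_succ', ContinuousLinearMap.mul_apply] using
        ih.res h H2 q (fun n => (η0 _).le) fun n => hG _
  choose B hB using fun a : Fin (J + 1) × ι =>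
    (ad1 a.1).1.val H q (innerSL ℂ (l a.2)) (hj a.2).1 (hj a.2).2
  obtain ⟨x, -, φ1, hφ1, lim⟩ := (isCompact_univ_pi fun a : Fin (J + 1) × ι =>
    isCompact_closedBall (0 : ℂ) (B a)).tendsto_subseq'
    (x := fun n a => innerSL ℂ (l a.2) (iteratedDeriv (j a.2) (u a.1 (φ0 n)) (ρ a.2)))
    (Eventually.frequently (by
      filter_upwards [eventually_all.2 hB] with n hn a _ using mem_closedBall_zero_iff.2 (hn a)))
  have t1 := hφ1.tendsto_atTop
  replace q := q.sub t1
  set Ad := p.Ad A c (fun n => R (φ0 (φ1 n))) (fun n => σ (φ0 (φ1 n))) fun n => η (φ0 (φ1 n))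
    with hAd
  have ad' : ∀ i, Ad fun n => u i (φ0 (φ1 n)) := fun i => ⟨(ad1 i).1.sub t1, (ad1 i).2.comp t1⟩
  have η1 := fun n => (η0 (φ0 (φ1 n))).le
  have lv := fun a => tendsto_pi_nhds.1 lim a
  simp only [Function.comp_def] at lv
  have dep : ¬ LinearIndependent ℂ fun (i : Fin (J + 1)) (b : ι) => x (i, b) := fun hi => by
    have := hi.fintype_card_le_finrank
    simp only [Fintype.card_fin, Module.finrank_fintype_fun_eq_card] at this
    omega
  obtain ⟨g, hg, i0, hi0⟩ := Fintype.not_linearIndependent_iff.1 dep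
  let Λ : Module.End ℂ (ℕ → ℝ → S) :=
    { toFun := fun z n r => G (φ0 (φ1 n)) (z n r)
      map_add' := fun z y => by ext n r; simp
      map_smul' := fun c z => by ext n r; simp }
  set y : ℕ → ℝ → S := fun n => z (φ0 (φ1 n)) with hy
  have pw : ∀ i, (Λ ^ i) y = fun n => u i (φ0 (φ1 n)) := fun i => by
    induction i with
    | zero => rfl
    | succ i ih => rw [pow_succ', Module.End.mul_apply, ih]; ext n r; simp only [hu, pow_succ']; rfl
  have sum : ∀ t : Finset (Fin (J + 1)), Ad (∑ i ∈ t, g i • (Λ ^ (i : ℕ)) y) ∧ ∀ b, Tendsto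
      (fun n => innerSL ℂ (l b) (iteratedDeriv (j b) ((∑ i ∈ t, g i • (Λ ^ (i : ℕ)) y) n) (ρ b)))
        atTop (𝓝 (∑ i ∈ t, g i * x (i, b))) := fun t => by
    induction t using Finset.induction_on with
    | empty =>
      have := (ad' 0).lin H2 q η1 (ad' 0) 0 0
      simp only [zero_smul, add_zero] at this
      exact ⟨this, fun b => by simp [iteratedDeriv_const]⟩
    | insert i t hi ih =>
      have a1 := ad' i
      have e : ∑ i ∈ insert i t, g i • (Λ ^ (i : ℕ)) y = fun n r => g i • u i (φ0 (φ1 n)) r +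
          (1 : ℂ) • (∑ i ∈ t, g i • (Λ ^ (i : ℕ)) y) n r := by
        rw [Finset.sum_insert hi, pw]; ext n r; simp
      rw [e]
      refine ⟨a1.lin H2 q η1 ih.1 _ _, fun b => ?_⟩
      simp only [iter_lin (a1.1.1 _).1.cd (ih.1.1.1 _).1.cd, map_add, map_smul, smul_eq_mul, one_mul,
        Finset.sum_insert hi]
      exact ((lv (i, b)).const_mul _).add (ih.2 b)
  set Q : Polynomial ℂ := ∑ i : Fin (J + 1), Polynomial.monomial (i : ℕ) (g i) with hQ
  have Q0 : Q ≠ 0 := fun e => hi0 (by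
    have := congrArg (fun P : Polynomial ℂ => P.coeff i0) e
    simpa [hQ, Polynomial.coeff_monomial, Fin.val_inj] using this)
  have nz : p.Nul y := by
    refine factor_ind Λ (Ad := Ad) (fun u v c hu hv => ?_) (fun c z c0 hz hn => ?_)
      (fun lam z hz hy hn => Par.step1 h H2 q η1 (fun n => hμ _) (fun n => hG _) hj
        (fun z => fin _ _ o z q) hz hy hn) _ Q Q0 le_rfl y (fun i _ => by rw [pw]; exact ad' i) ?_
    · have := hu.lin H2 q η1 hv 1 (-c)
      simp only [one_smul, neg_smul, ← sub_eq_add_neg] at this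
      exact this
    · have e : ∀ n, W 2 (z n) p.x0 p.R2 = (‖c‖ ^ 2)⁻¹ * W 2 ((c • z) n) p.x0 p.R2 := fun n => by
        have := W_smul (hz.1.1 n).1.cd c 2 p.x0 p.R2
        have c1 := norm_pos_iff.2 c0
        rw [show (c • z) n = fun r => c • z n r from rfl, this]; field_simp
      have t := hn.const_mul (‖c‖ ^ 2)⁻¹
      rw [mul_zero] at t
      exact t.congr fun n => (e n).symm
    · have e : Polynomial.aeval Λ Q y = ∑ i, g i • (Λ ^ (i : ℕ)) y := by
        simp [hQ, Polynomial.aeval_monomial, LinearMap.sum_apply]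
      rw [e]
      refine fin _ _ o _ q (sum _).1.1 fun b => ?_
      have := (sum Finset.univ).2 b
      rwa [show ∑ i, g i * x (i, b) = 0 by simpa using congrFun hg b] at this
  unfold Par.Nul at nz
  simp only [hy, zn] at nz
  exact one_ne_zero (tendsto_nhds_unique tendsto_const_nhds nz)

end Vale.Agent.P354BF
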