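import Vale.Agent.P354BF.Alg

open scoped ContDiff InnerProductSpace ComplexConjugate
open Complex (I)

namespace Vale.Agent.P354BF

variable {S : Type} [NormedAddCommGroup S] [InnerProductSpace ℂ S] {A : Ang S} {u v : ℝ → S}

theorem Ang.word_add (A : Ang S) (α : List (Fin 3)) (x y : S) :
    A.word α (x + y) = A.word α x + A.word α y := by
  induction α with
  | nil => rfl
  | cons i α ih => simp only [Ang.word, ih, map_add]

theorem Ang.word_smul (A : Ang S) (α : List (Fin 3)) (c : ℂ) (x : S) :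
    A.word α (c • x) = c • A.word α x := by
  induction α with
  | nil => rfl
  | cons i α ih => simp only [Ang.word, ih, map_smul]

theorem Ang.word_append (A : Ang S) (α β : List (Fin 3)) (x : S) :
    A.word (α ++ β) x = A.word α (A.word β x) := by
  induction α with
  | nil => rfl
  | cons i α ih => simp only [List.cons_append, Ang.word, ih]

namespace Ang.Sm

theorem cd (h : A.Sm v) : ContDiff ℝ ∞ v := h []

theorem dif (h : A.Sm v) : Differentiable ℝ v := h.cd.differentiable (by simp)

theorem has (h : A.Sm v) (r : ℝ) : HasDerivAt v (deriv v r) r := (h.dif r).hasDerivAt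

theorem cont (h : A.Sm v) : Continuous v := h.cd.continuous

theorem L (h : A.Sm v) (i : Fin 3) : A.Sm fun r => A.L i (v r) := fun α => by
  have := h (α ++ [i])
  simpa only [A.word_append, Ang.word] using this

theorem add (h : A.Sm u) (h' : A.Sm v) : A.Sm fun r => u r + v r := fun α => by
  simpa only [A.word_add] using (h α).add (h' α)

theorem smul {c : ℝ → ℂ} (hc : ContDiff ℝ ∞ c) (h : A.Sm v) : A.Sm fun r => c r • v r := fun α => by
  simp only [A.word_smul]
  exact hc.smul (h α)

theorem cmul (c : ℂ) (h : A.Sm v) : A.Sm fun r => c • v r := h.smul contDiff_const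

theorem neg (h : A.Sm v) : A.Sm fun r => -v r := by
  simpa only [neg_smul, one_smul] using h.cmul (-1)

theorem sub (h : A.Sm u) (h' : A.Sm v) : A.Sm fun r => u r - v r := by
  simpa only [sub_eq_add_neg] using h.add h'.neg

end Ang.Sm

namespace Ang.Is

/-- The rotations commute with the radial derivative. -/
theorem deriv_L (h : A.Is) (hv : A.Sm v) (i : Fin 3) (r : ℝ) :
    deriv (fun r => A.L i (v r)) r = A.L i (deriv v r) := by
  refine ext_inner_left ℂ fun φ => ?_
  have e1 := (hasDerivAt_const r φ).inner ℂ ((hv.L i).has r)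
  have e2 := ((hasDerivAt_const r (A.L i φ)).inner ℂ (hv.has r)).neg
  simp only [inner_zero_left, add_zero] at e1 e2
  have e3 : (fun t => ⟪φ, A.L i (v t)⟫_ℂ) = fun t => -⟪A.L i φ, v t⟫_ℂ :=
    funext fun t => h.skew' i φ _
  rw [e3] at e1
  rw [e1.unique e2, h.skew']

theorem word_deriv (h : A.Is) (hv : A.Sm v) (α : List (Fin 3)) :
    (A.Sm fun r => A.word α (v r)) ∧
      ∀ r, deriv (fun r => A.word α (v r)) r = A.word α (deriv v r) := by
  induction α with
  | nil => exact ⟨hv, fun _ => rfl⟩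
  | cons i α ih =>
    exact ⟨ih.1.L i, fun r => by
      simp only [Ang.word]; rw [h.deriv_L ih.1, ih.2]⟩

theorem sm_deriv (h : A.Is) (hv : A.Sm v) : A.Sm (deriv v) := fun α => by
  have e : (fun r => A.word α (deriv v r)) = deriv fun r => A.word α (v r) :=
    funext fun r => ((h.word_deriv hv α).2 r).symm
  rw [e]
  exact (contDiff_infty_iff_deriv.1 (hv α)).2

theorem sm_iter (h : A.Is) (hv : A.Sm v) (j : ℕ) : A.Sm (iteratedDeriv j v) := by
  induction j with
  | zero => simpa using hv
  | succ j ih => rw [iteratedDeriv_succ]; exact h.sm_deriv ih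

theorem L_w (h : A.Is) (i j : Fin 3) : ∃ (c : ℂ) (k : Fin 3), ∀ x,
    A.L i (A.w j x) = A.w j (A.L i x) + c • A.w k x := by
  have : j = i ∨ j = i + 1 ∨ j = i + 2 := by revert i j; decide
  rcases this with e | e | e <;> rw [e]
  · exact ⟨0, i, fun x => by rw [h.Lw0]; simp⟩
  · exact ⟨-1, i + 2, fun x => by rw [h.Lw1]; simp [sub_eq_add_neg]⟩
  · exact ⟨1, i + 1, fun x => by rw [h.Lw2]; simp⟩

theorem sm_w (h : A.Is) (hv : A.Sm v) (j : Fin 3) : A.Sm fun r => A.w j (v r) := by
  intro α
  induction α using List.reverseRecOn generalizing v j with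
  | nil => exact ((A.w j).restrictScalars ℝ).contDiff.comp hv.cd
  | append_singleton α i ih =>
    obtain ⟨c, k, e⟩ := h.L_w i j
    simp only [A.word_append, Ang.word, e, A.word_add, A.word_smul]
    exact (ih (hv.L i) j).add ((ih hv k).const_smul c)

theorem deriv_w (hv : A.Sm v) (j : Fin 3) (r : ℝ) :
    deriv (fun r => A.w j (v r)) r = A.w j (deriv v r) :=
  (((A.w j).restrictScalars ℝ).hasFDerivAt.comp_hasDerivAt r (hv.has r)).deriv

theorem sm_lop (h : A.Is) (hv : A.Sm v) (k a : ℝ) (om : ℂ) (m : ℝ) :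
    A.Sm fun r => A.lop k a om m (v r) := by
  simp only [A.lop_apply, A.cas_apply, Fin.sum_univ_three]
  exact ((((((hv.L 0).L 0).add ((hv.L 1).L 1)).add ((hv.L 2).L 2)).neg.add (hv.cmul _)).sub
    ((h.sm_w (h.sm_w hv 2) 2).cmul _)).add ((h.sm_w hv 2).cmul _)

theorem deriv_lop (h : A.Is) (hv : A.Sm v) (k a : ℝ) (om : ℂ) (m r : ℝ) :
    deriv (fun r => A.lop k a om m (v r)) r = A.lop k a om m (deriv v r) := by
  refine ext_inner_left ℂ fun φ => ?_
  have e1 := (hasDerivAt_const r φ).inner ℂ ((h.sm_lop hv k a om m).has r)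
  have e2 := (hasDerivAt_const r (A.lop k a (conj om) m φ)).inner ℂ (hv.has r)
  simp only [inner_zero_left, add_zero, h.lop_symm] at e1 e2
  exact e1.unique e2

theorem iter_lop (h : A.Is) (hv : A.Sm v) (k a : ℝ) (om : ℂ) (m : ℝ) (j : ℕ) :
    iteratedDeriv j (fun r => A.lop k a om m (v r)) =
      fun r => A.lop k a om m (iteratedDeriv j v r) := by
  induction j with
  | zero => simp
  | succ j ih =>
    rw [iteratedDeriv_succ, iteratedDeriv_succ, ih]
    exact funext fun r => h.deriv_lop (h.sm_iter hv j) k a om m r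

theorem iter_L (h : A.Is) (hv : A.Sm v) (i : Fin 3) (j : ℕ) :
    iteratedDeriv j (fun r => A.L i (v r)) = fun r => A.L i (iteratedDeriv j v r) := by
  induction j with
  | zero => simp
  | succ j ih =>
    rw [iteratedDeriv_succ, iteratedDeriv_succ, ih]
    exact funext fun r => h.deriv_L (h.sm_iter hv j) i r

theorem md_lop (h : A.Is) {m : ℝ} (hv : A.Md m v) (k a : ℝ) (om : ℂ) (m' : ℝ) :
    A.Md m fun r => A.lop k a om m' (v r) :=
  ⟨h.sm_lop hv.1 k a om m', fun r => by rw [h.L2_lop, hv.2, map_smul]⟩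

theorem md_deriv (h : A.Is) {m : ℝ} (hv : A.Md m v) : A.Md m (deriv v) :=
  ⟨h.sm_deriv hv.1, fun r => by
    rw [← h.deriv_L hv.1, funext hv.2]
    exact ((hv.1.has r).const_smul _).deriv⟩

/-- The spheroidal operator commutes with the Teukolsky operator. -/
theorem P_lop (h : A.Is) (hv : A.Sm v) (s k M a : ℝ) (om : ℂ) (m r : ℝ) :
    A.P s k M a om m (fun r => A.lop k a om m (v r)) r =
      A.lop k a om m (A.P s k M a om m v r) := by
  have e1 := funext (h.deriv_lop hv k a om m)
  simp only [Ang.P, e1, h.deriv_lop (h.sm_deriv hv), map_add, map_sub, map_smul]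

theorem sm_P (h : A.Is) (hv : A.Sm v) (s k M a : ℝ) (om : ℂ) (m : ℝ) :
    A.Sm (A.P s k M a om m v) := by
  have c1 : ContDiff ℝ ∞ fun r : ℝ => (r : ℂ) := Complex.ofRealCLM.contDiff
  refine ((((h.sm_deriv (h.sm_deriv hv)).smul ?_).add ((h.sm_deriv hv).smul ?_)).sub
    (hv.smul ?_)).sub (h.sm_lop hv k a om m)
  · simp only [De]; push_cast; fun_prop
  · simp only [Kf]; push_cast; fun_prop
  · fun_prop

end Ang.Is

theorem Ang.Md.add {m : ℝ} (h : A.Md m u) (h' : A.Md m v) : A.Md m fun r => u r + v r :=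
  ⟨h.1.add h'.1, fun r => by rw [map_add, h.2, h'.2, smul_add]⟩

theorem Ang.Md.smul {m : ℝ} {c : ℝ → ℂ} (hc : ContDiff ℝ ∞ c) (h : A.Md m v) :
    A.Md m fun r => c r • v r :=
  ⟨h.1.smul hc, fun r => by rw [map_smul, h.2, smul_comm]⟩

/-- The Teukolsky operator is linear on smooth curves. -/
theorem Ang.Is.P_lin (h : A.Is) (hu : A.Sm u) (hv : A.Sm v) (c d : ℂ) (s k M a : ℝ) (om : ℂ)
    (m r : ℝ) : A.P s k M a om m (fun r => c • u r + d • v r) r =
      c • A.P s k M a om m u r + d • A.P s k M a om m v r := by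
  have e : ∀ {u v : ℝ → S}, A.Sm u → A.Sm v → deriv (fun r => c • u r + d • v r) =
      fun r => c • deriv u r + d • deriv v r := fun hu hv => funext fun r =>
    (((hu.has r).const_smul c).add ((hv.has r).const_smul d)).deriv
  simp only [Ang.P, e hu hv, e (h.sm_deriv hu) (h.sm_deriv hv), map_add, map_smul]
  module

end Vale.Agent.P354BF
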