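import Mathlib

/-!
The angular model of the black box. S is a complex inner product space of smooth sections of spin
s over the sphere, L i are the generators of rotations, w i the multiplications by the
coordinates. Curves r ↦ v r in S carry the radial equation at one frequency (om, m).
-/

open scoped ContDiff InnerProductSpace
open Complex (I)

namespace Vale.Agent.P354BF

/-- The operators of the angular model. -/
structure Ang (S : Type) [NormedAddCommGroup S] [InnerProductSpace ℂ S] where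
  s : ℝ
  L : Fin 3 → S →ₗ[ℂ] S
  w : Fin 3 → S →L[ℂ] S

variable {S : Type} [NormedAddCommGroup S] [InnerProductSpace ℂ S]

/-- The relations of the angular model. -/
structure Ang.Is (A : Ang S) : Prop where
  skew : ∀ i u v, ⟪A.L i u, v⟫_ℂ = -⟪u, A.L i v⟫_ℂ
  symm : ∀ i u v, ⟪A.w i u, v⟫_ℂ = ⟪u, A.w i v⟫_ℂ
  ww : ∀ i j u, A.w i (A.w j u) = A.w j (A.w i u)
  one : ∀ u, ∑ i, A.w i (A.w i u) = u
  LL : ∀ i u, A.L i (A.L (i + 1) u) - A.L (i + 1) (A.L i u) = -A.L (i + 2) u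
  Lw0 : ∀ i u, A.L i (A.w i u) = A.w i (A.L i u)
  Lw1 : ∀ i u, A.L i (A.w (i + 1) u) = A.w (i + 1) (A.L i u) - A.w (i + 2) u
  Lw2 : ∀ i u, A.L i (A.w (i + 2) u) = A.w (i + 2) (A.L i u) + A.w (i + 1) u
  spin : ∀ u, ∑ i, A.w i (A.L i u) = (-(I * A.s)) • u

/-- Compactness: the norm is bounded by a small multiple of the first derivatives and finitely
many continuous functionals. -/
def Ang.Cap (A : Ang S) : Prop :=
  ∀ η : ℝ, 0 < η → ∃ (N : ℕ) (l : Fin N → S →L[ℂ] ℂ), ∀ u,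
    ‖u‖ ^ 2 ≤ η * ∑ i, ‖A.L i u‖ ^ 2 + ∑ j, ‖l j u‖ ^ 2

/-- The Casimir operator, with eigenvalues l (l + 1). -/
noncomputable def Ang.cas (A : Ang S) : S →ₗ[ℂ] S := -∑ i, A.L i ∘ₗ A.L i

/-- The spheroidal operator C + a^2 om^2 sin^2 - 2 a om m + 2 k a om cos. -/
noncomputable def Ang.lop (A : Ang S) (k a : ℝ) (om : ℂ) (m : ℝ) : S →ₗ[ℂ] S :=
  A.cas + ((a : ℂ) ^ 2 * om ^ 2 - 2 * a * om * m) • LinearMap.id -
    ((a : ℂ) ^ 2 * om ^ 2) • ((A.w 2 : S →ₗ[ℂ] S) ∘ₗ (A.w 2 : S →ₗ[ℂ] S)) +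
    (2 * k * a * om) • (A.w 2 : S →ₗ[ℂ] S)

/-- A word in the rotations; the head of the list acts last. -/
def Ang.word (A : Ang S) : List (Fin 3) → S → S
  | [], u => u
  | i :: α, u => A.L i (A.word α u)

/-- Smooth curves of sections. -/
def Ang.Sm (A : Ang S) (v : ℝ → S) : Prop := ∀ α, ContDiff ℝ ∞ fun r => A.word α (v r)

/-- Smooth curves of sections with the axial number m. -/
def Ang.Md (A : Ang S) (m : ℝ) (v : ℝ → S) : Prop :=
  A.Sm v ∧ ∀ r, A.L 2 (v r) = (I * m) • v r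

/-- The functions Delta and K, and the radius of the outer horizon. -/
def De (M a r : ℝ) : ℝ := r ^ 2 - 2 * M * r + a ^ 2
noncomputable def Kf (a : ℝ) (om : ℂ) (m r : ℝ) : ℂ := om * (r ^ 2 + a ^ 2) - a * m
noncomputable def rp (M a : ℝ) : ℝ := M + √(M ^ 2 - a ^ 2)

/-- The Teukolsky operator of spin s in ingoing coordinates on the variable which is regular at
the horizon: P_s of note 818, with Lam = lop - s^2 - s. -/
noncomputable def Ang.P (A : Ang S) (s k M a : ℝ) (om : ℂ) (m : ℝ) (v : ℝ → S) (r : ℝ) : S :=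
  (De M a r : ℂ) • deriv (deriv v) r +
    (((1 - s) * (2 * r - 2 * M) : ℝ) - 2 * I * Kf a om m r) • deriv v r -
    (2 * I * om * r * (1 - 2 * s : ℝ) - (s ^ 2 - s : ℝ)) • v r - A.lop k a om m (v r)

/-- The radial derivatives of order at most k, in L2 of (x, y). -/
noncomputable def W (k : ℕ) (v : ℝ → S) (x y : ℝ) : ℝ :=
  ∑ j ∈ Finset.range (k + 1), ∫ r in x..y, ‖iteratedDeriv j v r‖ ^ 2

/-- One rotation and at most k radial derivatives, in L2 of (x, y). -/
noncomputable def Ang.WL (A : Ang S) (k : ℕ) (v : ℝ → S) (x y : ℝ) : ℝ :=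
  ∑ i, W k (fun r => A.L i (v r)) x y

end Vale.Agent.P354BF
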