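import Vale.Agent.P354BF.One

open scoped ContDiff
open MeasureTheory Set Filter Topology intervalIntegral

namespace Vale.Agent.P354BF

variable {S : Type} [NormedAddCommGroup S] [InnerProductSpace ℂ S] {A : Ang S} {u v : ℝ → S}

theorem iter_cont (hv : ContDiff ℝ ∞ v) (j : ℕ) : Continuous (iteratedDeriv j v) :=
  hv.continuous_iteratedDeriv j (by exact_mod_cast le_top)

theorem iter_has (hv : ContDiff ℝ ∞ v) (j : ℕ) (r : ℝ) :
    HasDerivAt (iteratedDeriv j v) (iteratedDeriv (j + 1) v r) r := by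
  rw [iteratedDeriv_succ]
  exact (hv.differentiable_iteratedDeriv j (by exact_mod_cast ENat.coe_lt_top j) r).hasDerivAt

theorem W_nonneg (k : ℕ) (v : ℝ → S) {x y : ℝ} (h : x ≤ y) : 0 ≤ W k v x y :=
  Finset.sum_nonneg fun _ _ => int_nonneg _ h

theorem WL_nonneg (k : ℕ) (v : ℝ → S) {x y : ℝ} (h : x ≤ y) : 0 ≤ A.WL k v x y :=
  Finset.sum_nonneg fun _ _ => W_nonneg _ _ h

theorem W_mono (hv : ContDiff ℝ ∞ v) {k l : ℕ} (hk : k ≤ l) {x y x' y' : ℝ} (h1 : x ≤ x')
    (h2 : x' ≤ y') (h3 : y' ≤ y) : W k v x' y' ≤ W l v x y :=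
  (Finset.sum_le_sum fun j _ => int_mono (iter_cont hv j).continuousOn h1 h2 h3).trans
    (Finset.sum_le_sum_of_subset_of_nonneg (Finset.range_mono (by omega))
      fun _ _ _ => int_nonneg _ (h1.trans (h2.trans h3)))

theorem WL_mono (hv : A.Sm v) {k l : ℕ} (hk : k ≤ l) {x y x' y' : ℝ} (h1 : x ≤ x')
    (h2 : x' ≤ y') (h3 : y' ≤ y) : A.WL k v x' y' ≤ A.WL l v x y :=
  Finset.sum_le_sum fun i _ => W_mono (hv.L i).cd hk h1 h2 h3

theorem le_W {k j : ℕ} (hj : j ≤ k) (v : ℝ → S) {x y : ℝ} (h : x ≤ y) :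
    ∫ r in x..y, ‖iteratedDeriv j v r‖ ^ 2 ≤ W k v x y :=
  Finset.single_le_sum (f := fun j => ∫ r in x..y, ‖iteratedDeriv j v r‖ ^ 2)
    (fun _ _ => int_nonneg _ h) (Finset.mem_range.2 (by omega))

theorem W_add (hv : ContDiff ℝ ∞ v) (k : ℕ) (x y z : ℝ) : W k v x y + W k v y z = W k v x z := by
  simp only [W, ← Finset.sum_add_distrib]
  exact Finset.sum_congr rfl fun j _ => integral_add_adjacent_intervals
    (((iter_cont hv j).norm.pow 2).intervalIntegrable _ _)
    (((iter_cont hv j).norm.pow 2).intervalIntegrable _ _)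

theorem iter_lin (hu : ContDiff ℝ ∞ u) (hv : ContDiff ℝ ∞ v) (c d : ℂ) (j : ℕ) :
    iteratedDeriv j (fun r => c • u r + d • v r) =
      fun r => c • iteratedDeriv j u r + d • iteratedDeriv j v r := by
  induction j with
  | zero => simp
  | succ j ih =>
    rw [iteratedDeriv_succ, ih]
    exact funext fun r => (((iter_has hu j r).const_smul c).add
      ((iter_has hv j r).const_smul d)).deriv

theorem W_lin (hu : ContDiff ℝ ∞ u) (hv : ContDiff ℝ ∞ v) (c d : ℂ) (k : ℕ) {x y : ℝ}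
    (h : x ≤ y) : W k (fun r => c • u r + d • v r) x y ≤
      2 * ‖c‖ ^ 2 * W k u x y + 2 * ‖d‖ ^ 2 * W k v x y := by
  simp only [W, Finset.mul_sum, ← Finset.sum_add_distrib, iter_lin hu hv]
  refine Finset.sum_le_sum fun j _ => ?_
  have a := iter_cont hu j
  have b := iter_cont hv j
  rw [← intervalIntegral.integral_const_mul, ← intervalIntegral.integral_const_mul,
    ← integral_add (Continuous.intervalIntegrable (by fun_prop) _ _)
      (Continuous.intervalIntegrable (by fun_prop) _ _)]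
  refine integral_mono_on h (Continuous.intervalIntegrable (by fun_prop) _ _)
    (Continuous.intervalIntegrable (by fun_prop) _ _) fun r _ => ?_
  refine (pow_le_pow_left₀ (norm_nonneg _) (norm_add_le _ _) 2).trans ?_
  rw [norm_smul, norm_smul]
  nlinarith [sq_nonneg (‖c‖ * ‖iteratedDeriv j u r‖ - ‖d‖ * ‖iteratedDeriv j v r‖)]

theorem W_trace (hv : ContDiff ℝ ∞ v) {k j : ℕ} (hj : j < k) {x y p : ℝ} (hxy : x < y)
    (hp : p ∈ Icc x y) :
    ‖iteratedDeriv j v p‖ ^ 2 ≤ 2 * (2 / (y - x) + 2 * (y - x)) * W k v x y := by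
  have h := trace hxy (fun r _ => iter_has hv j r) (iter_cont hv _).continuousOn hp
  have a := le_W hj.le v hxy.le
  have b := le_W (show j + 1 ≤ k from hj) v hxy.le
  have c : 0 ≤ 2 / (y - x) + 2 * (y - x) := by
    have : 0 < y - x := by linarith
    positivity
  nlinarith

/-- The part of the norm near the inner end is bounded from the right. -/
theorem W_left (hv : ContDiff ℝ ∞ v) {x d y : ℝ} (hd : 0 ≤ d) (hy : x + 2 * d ≤ y) :
    W 2 v x y ≤ 3 * W 2 v (x + d) y + 4 * d ^ 2 * W 3 v x y := by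
  have h := fun j => left_le hd (x := x) (fun r _ => iter_has hv j r) (iter_cont hv _).continuousOn
  have a := W_mono hv (le_refl 2) (le_refl (x + d)) (by linarith : x + d ≤ x + 2 * d) hy
  have b := W_mono hv (le_refl 3) (le_refl x) (by linarith : x ≤ x + 2 * d) hy
  have c := W_add hv 2 x (x + d) y
  have e := int_nonneg (iteratedDeriv 0 v) (by linarith : x ≤ x + 2 * d)
  have h0 := h 0
  have h1 := h 1
  have h2 := h 2
  simp only [W, Finset.sum_range_succ, Finset.sum_range_zero, zero_add] at a b c h0 h1 h2 ⊢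
  nlinarith [sq_nonneg d]

/-- The norm of order two is bounded by a small multiple of the norm of order three and by
finitely many values. -/
theorem W_fin (h : A.Is) {x y : ℝ} (hxy : x < y) {η : ℝ} (hη : 0 < η) {N : ℕ}
    {l : Fin N → S →L[ℂ] ℂ} (hl : ∀ u, ‖u‖ ^ 2 ≤ η * ∑ i, ‖A.L i u‖ ^ 2 + ∑ j, ‖l j u‖ ^ 2) :
    ∃ (ι : Type) (_ : Fintype ι) (e : ι → Fin N) (j : ι → ℕ) (ρ : ι → ℝ) (C : ℝ), 0 ≤ C ∧
      (∀ i, j i ≤ 2 ∧ ρ i ∈ Icc x y) ∧ ∀ v, A.Sm v → W 2 v x y ≤
        η * (W 3 v x y + A.WL 2 v x y) + C * ∑ i, ‖l (e i) (iteratedDeriv (j i) v (ρ i))‖ ^ 2 := by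
  set B := ∑ k, ‖l k‖ ^ 2 + 1 with hB
  have B0 : 0 < B := by positivity
  obtain ⟨n, hn⟩ := exists_nat_gt (max 1 (2 * (y - x) ^ 2 * B / η))
  have n1 : (1 : ℝ) < n := (le_max_left _ _).trans_lt hn
  set d := (y - x) / n with hd
  have d0 : 0 < d := div_pos (by linarith) (by linarith)
  have e : x + n * d = y := by rw [hd]; field_simp; ring
  have hs : 2 * d ^ 2 * B ≤ η := by
    have h1 := (le_max_right _ _).trans_lt hn
    rw [div_lt_iff₀ hη] at h1
    have : d ^ 2 = (y - x) ^ 2 / n ^ 2 := by rw [hd, div_pow]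
    rw [this, show 2 * ((y - x) ^ 2 / (n : ℝ) ^ 2) * B = 2 * (y - x) ^ 2 * B / n ^ 2 by ring,
      div_le_iff₀ (by positivity)]
    nlinarith [mul_pos hη (show (0 : ℝ) < n by linarith)]
  refine ⟨Fin 3 × Fin N × Fin n, inferInstance, fun i => i.2.1, fun i => i.1,
    fun i => x + i.2.2 * d, 2 * d, by positivity, fun i => ⟨Nat.lt_succ_iff.1 i.1.2, by
      have : ((i.2.2 : ℕ) : ℝ) ≤ n := by exact_mod_cast i.2.2.2.le
      constructor <;> nlinarith [(Nat.cast_nonneg i.2.2 : (0 : ℝ) ≤ _)]⟩, fun v hv => ?_⟩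
  have key : ∀ j, ∫ r in x..y, ‖iteratedDeriv j v r‖ ^ 2 ≤
      η * ∑ i, (∫ r in x..y, ‖iteratedDeriv j (fun r => A.L i (v r)) r‖ ^ 2) +
      η * (∫ r in x..y, ‖iteratedDeriv (j + 1) v r‖ ^ 2) +
      2 * d * ∑ k, ∑ i : Fin n, ‖l k (iteratedDeriv j v (x + i * d))‖ ^ 2 := fun j => by
    have c0 := iter_cont hv.cd j
    have c1 := iter_cont hv.cd (j + 1)
    have cL := fun i => iter_cont (hv.L i).cd j
    have i1 : ∀ i ∈ Finset.univ, IntervalIntegrable
        (fun r => ‖iteratedDeriv j (fun r => A.L i (v r)) r‖ ^ 2) volume x y :=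
      fun i _ => ((cL i).norm.pow 2).intervalIntegrable _ _
    have i2 : ∀ k ∈ Finset.univ, IntervalIntegrable
        (fun r => ‖l k (iteratedDeriv j v r)‖ ^ 2) volume x y :=
      fun k _ => (((l k).continuous.comp c0).norm.pow 2).intervalIntegrable _ _
    have a := integral_mono_on (μ := volume) (f := fun r => ‖iteratedDeriv j v r‖ ^ 2) hxy.le
      ((c0.norm.pow 2).intervalIntegrable _ _)
      (g := fun r => η * ∑ i, ‖iteratedDeriv j (fun r => A.L i (v r)) r‖ ^ 2 +
        ∑ k, ‖l k (iteratedDeriv j v r)‖ ^ 2)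
      (Continuous.intervalIntegrable (by
        have := fun k => (l k).continuous.comp c0
        fun_prop) _ _) fun r _ => by
          simpa only [h.iter_L hv] using hl (iteratedDeriv j v r)
    rw [integral_add (Continuous.intervalIntegrable (by fun_prop) _ _)
      (Continuous.intervalIntegrable (by
        have := fun k => (l k).continuous.comp c0
        fun_prop) _ _), intervalIntegral.integral_const_mul, integral_finsetSum i1,
        integral_finsetSum i2] at a
    have b : ∀ k, ∫ r in x..y, ‖l k (iteratedDeriv j v r)‖ ^ 2 ≤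
        2 * d * ∑ i : Fin n, ‖l k (iteratedDeriv j v (x + i * d))‖ ^ 2 +
          2 * d ^ 2 * (‖l k‖ ^ 2 * ∫ r in x..y, ‖iteratedDeriv (j + 1) v r‖ ^ 2) := fun k => by
      have g := grid (x := x) d0.le (fun r => (((l k).restrictScalars ℝ).hasFDerivAt.comp_hasDerivAt
        r (iter_has hv.cd j r))) ((l k).continuous.comp c1) n
      rw [e, Finset.sum_range (fun i => ‖_‖ ^ 2)] at g
      refine g.trans (add_le_add le_rfl (mul_le_mul_of_nonneg_left ?_ (by positivity)))
      rw [← intervalIntegral.integral_const_mul]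
      refine integral_mono_on hxy.le
        ((((l k).continuous.comp c1).norm.pow 2).intervalIntegrable _ _)
        (Continuous.intervalIntegrable (by fun_prop) _ _) fun r _ => ?_
      rw [← mul_pow]
      exact pow_le_pow_left₀ (norm_nonneg _) ((l k).le_opNorm _) 2
    have b' := Finset.sum_le_sum fun k (_ : k ∈ Finset.univ) => b k
    rw [Finset.sum_add_distrib, ← Finset.mul_sum, ← Finset.mul_sum, ← Finset.sum_mul] at b'
    have p := int_nonneg (iteratedDeriv (j + 1) v) hxy.le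
    have q : 2 * d ^ 2 * (∑ k, ‖l k‖ ^ 2) ≤ η := by nlinarith [sq_nonneg d]
    nlinarith
  have k0 := key 0
  have k1 := key 1
  have k2 := key 2
  have p := int_nonneg (iteratedDeriv 0 v) hxy.le
  simp only [W, Ang.WL, Finset.sum_range_succ, Finset.sum_range_zero, zero_add, Fintype.sum_prod_type,
    Fin.sum_univ_three, Fin.val_zero, Fin.val_one, Fin.val_two] at k0 k1 k2 ⊢
  nlinarith

end Vale.Agent.P354BF
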