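import Vale.Agent.P354BF.Gen
import Vale.Agent.P354BF.Curve

open scoped InnerProductSpace
open Complex (I)

namespace Vale.Agent.P354BF

variable {S : Type} [NormedAddCommGroup S] [InnerProductSpace ℂ S] {A : Ang S}
  {V : Submodule ℂ S}

theorem f11 : ∀ j : Fin 3, j + 1 + 1 = j + 2 := by decide
theorem f12 : ∀ j : Fin 3, j + 1 + 2 = j := by decide
theorem f21 : ∀ j : Fin 3, j + 2 + 1 = j := by decide
theorem f22 : ∀ j : Fin 3, j + 2 + 2 = j + 1 := by decide

namespace Ang.Is

theorem L_orth (h : A.Is) (inv : ∀ i, ∀ u ∈ V, A.L i u ∈ V) (i : Fin 3) {u : S} (hu : u ∈ Vᗮ) :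
    A.L i u ∈ Vᗮ := fun v hv => by
  rw [h.skew', hu _ (inv i v hv), neg_zero]

theorem L_proj (h : A.Is) [V.HasOrthogonalProjection] (inv : ∀ i, ∀ u ∈ V, A.L i u ∈ V)
    (i : Fin 3) (u : S) : V.starProjection (A.L i u) = A.L i (V.starProjection u) :=
  Submodule.eq_starProjection_of_mem_orthogonal (inv i _ (V.starProjection_apply_mem u)) (by
    rw [← map_sub]
    exact h.L_orth inv i (V.sub_starProjection_mem_orthogonal u))

theorem cas_w (h : A.Is) (j : Fin 3) (u : S) : A.cas (A.w j u) =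
    A.w j (A.cas u) + (2 : ℂ) • A.D j u + (2 : ℂ) • A.w j u := by
  have e : ∀ f : Fin 3 → S, ∑ i, f i = f j + f (j + 1) + f (j + 2) := fun f => by
    fin_cases j <;> simp [Fin.sum_univ_three] <;> abel
  have a1 : ∀ u, A.L (j + 1) (A.w j u) = A.w j (A.L (j + 1) u) + A.w (j + 2) u := fun u => by
    have := h.Lw2 (j + 1) u
    rwa [f12 j, f11 j] at this
  have a2 : ∀ u, A.L (j + 2) (A.w j u) = A.w j (A.L (j + 2) u) - A.w (j + 1) u := fun u => by
    have := h.Lw1 (j + 2) u
    rwa [f21 j, f22 j] at this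
  have a3 : ∀ u, A.L (j + 1) (A.w (j + 2) u) = A.w (j + 2) (A.L (j + 1) u) - A.w j u := fun u => by
    have := h.Lw1 (j + 1) u
    rwa [f12 j, f11 j] at this
  have a4 : ∀ u, A.L (j + 2) (A.w (j + 1) u) = A.w (j + 1) (A.L (j + 2) u) + A.w j u := fun u => by
    have := h.Lw2 (j + 2) u
    rwa [f21 j, f22 j] at this
  simp only [A.cas_apply, e, h.Lw0, a1, a2, a3, a4, map_add, map_sub, map_neg, Ang.D]
  module

theorem D_w (h : A.Is) (i j : Fin 3) (u : S) : ∃ c : ℂ,
    A.D i (A.w j u) = A.w j (A.D i u) + A.w i (A.w j u) + c • u := by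
  have one := h.one u
  have : j = i ∨ j = i + 1 ∨ j = i + 2 := by revert i j; decide
  have e : ∀ f : Fin 3 → S, ∑ k, f k = f i + f (i + 1) + f (i + 2) := fun f => by
    fin_cases i <;> simp [Fin.sum_univ_three] <;> abel
  rcases this with rfl | rfl | rfl
  · have a1 := h.Lw2 (j + 1) u
    have a2 := h.Lw1 (j + 2) u
    rw [f12 j, f11 j] at a1
    rw [f21 j, f22 j] at a2
    rw [e] at one
    refine ⟨-1, ?_⟩
    simp only [Ang.D, a1, a2, map_add, map_sub, h.ww j (j + 1), h.ww j (j + 2)]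
    linear_combination (norm := module) (-1 : ℂ) • one
  · have a1 := h.Lw2 (i + 2) u
    rw [f21 i, f22 i] at a1
    refine ⟨0, ?_⟩
    simp only [Ang.D, a1, h.Lw0, map_add, map_sub, h.ww i (i + 1), h.ww (i + 1) (i + 2)]
    module
  · have a1 := h.Lw1 (i + 1) u
    rw [f12 i, f11 i] at a1
    refine ⟨0, ?_⟩
    simp only [Ang.D, a1, h.Lw0, map_add, map_sub, h.ww i (i + 2), h.ww (i + 1) (i + 2)]
    module

end Ang.Is

theorem tower_ind {k : ℕ} {p : S → Prop} (a : ∀ u ∈ A.tower V k, p u)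
    (b : ∀ i, ∀ u ∈ A.tower V k, p (A.w i u)) (c : ∀ u v, p u → p v → p (u + v)) :
    ∀ u ∈ A.tower V (k + 1), p u := fun u hu => by
  obtain ⟨x, hx, y, hy, rfl⟩ := Submodule.mem_sup.1 hu
  refine c _ _ (a x hx) (Submodule.iSup_induction _ (motive := p) hy ?_ (a 0 (zero_mem _)) c)
  rintro i _ ⟨z, hz, rfl⟩
  exact b i z hz

theorem tower_le (k : ℕ) : A.tower V k ≤ A.tower V (k + 1) := le_sup_left

theorem tower_w {k : ℕ} (i : Fin 3) {u : S} (hu : u ∈ A.tower V k) :
    A.w i u ∈ A.tower V (k + 1) :=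
  Submodule.mem_sup_right (Submodule.mem_iSup_of_mem i ⟨u, hu, rfl⟩)

theorem cas_mem (inv : ∀ i, ∀ u ∈ V, A.L i u ∈ V) {u : S} (hu : u ∈ V) : A.cas u ∈ V := by
  rw [A.cas_apply]
  exact neg_mem (sum_mem fun i _ => inv i _ (inv i _ hu))

namespace Ang.Gen

variable {c : ℝ}

theorem tfin (g : A.Gen V c) (k : ℕ) : FiniteDimensional ℂ (A.tower V k) := by
  induction k with
  | zero => exact g.fin
  | succ k ih => exact Submodule.finiteDimensional_sup _ _

theorem tinv (g : A.Gen V c) (h : A.Is) (k : ℕ) : ∀ i, ∀ u ∈ A.tower V k, A.L i u ∈ A.tower V k := by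
  induction k with
  | zero => exact g.inv
  | succ k ih =>
    refine fun i => tower_ind (fun u hu => tower_le k (ih i u hu)) (fun j u hu => ?_)
      fun u v a b => by rw [map_add]; exact add_mem a b
    obtain ⟨c, l, e⟩ := h.L_w i j
    rw [e]
    exact add_mem (tower_w j (ih i u hu)) (Submodule.smul_mem _ _ (tower_w l hu))

theorem tD (g : A.Gen V c) (h : A.Is) (k : ℕ) : ∀ i, ∀ u ∈ A.tower V k,
    A.D i u - ((c + k : ℝ) : ℂ) • A.w i u ∈ A.tower V k := by
  induction k with
  | zero => simpa [Ang.tower] using g.dd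
  | succ k ih =>
    refine fun i => tower_ind (fun u hu => ?_) (fun j u hu => ?_) fun u v a b => ?_
    · exact sub_mem (sub_mem (tower_w _ (g.tinv h k _ _ hu)) (tower_w _ (g.tinv h k _ _ hu)))
        (Submodule.smul_mem _ _ (tower_w _ hu))
    · obtain ⟨d, e⟩ := h.D_w i j u
      have := add_mem (tower_w j (ih i u hu)) (Submodule.smul_mem _ d (tower_le k hu))
      refine (congrArg (· ∈ A.tower V (k + 1)) ?_).mp this
      rw [e, map_sub, map_smul, h.ww j i]
      push_cast
      module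
    · refine (congrArg (· ∈ A.tower V (k + 1)) ?_).mp (add_mem a b)
      simp only [Ang.D, map_add]
      module

theorem tcas (g : A.Gen V c) (h : A.Is) (k : ℕ) : ∀ u ∈ A.tower V (k + 1),
    A.cas u - (((c + k + 1) * (c + k + 2) : ℝ) : ℂ) • u ∈ A.tower V k := by
  have st : ∀ k : ℕ, (∀ u ∈ A.tower V k, ∀ j,
      A.w j (A.cas u - (((c + k) * (c + k + 1) : ℝ) : ℂ) • u) ∈ A.tower V k) →
      ∀ u ∈ A.tower V (k + 1),
        A.cas u - (((c + k + 1) * (c + k + 2) : ℝ) : ℂ) • u ∈ A.tower V k := fun k hk => by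
    refine tower_ind (fun u hu => sub_mem (cas_mem (g.tinv h k) hu) (Submodule.smul_mem _ _ hu))
      (fun j u hu => ?_) fun u v a b => ?_
    · have := add_mem (hk u hu j) (Submodule.smul_mem _ 2 (g.tD h k j u hu))
      refine (congrArg (· ∈ A.tower V k) ?_).mp this
      rw [h.cas_w, map_sub, map_smul]
      push_cast
      module
    · refine (congrArg (· ∈ A.tower V k) ?_).mp (add_mem a b)
      rw [map_add]
      module
  induction k with
  | zero =>
    refine st 0 fun u hu j => ?_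
    rw [g.cas u hu, show c ^ 2 + c = (c + (0 : ℕ)) * (c + (0 : ℕ) + 1) by push_cast; ring, sub_self,
      map_zero]
    exact zero_mem _
  | succ k ih =>
    refine st (k + 1) fun u hu j => tower_w j ?_
    have := ih u hu
    rwa [show (c + k + 1) * (c + k + 2) = (c + (k + 1 : ℕ)) * (c + (k + 1 : ℕ) + 1) by
      push_cast; ring] at this

theorem gap (g : A.Gen V c) (h : A.Is) (N M : ℕ) : ∀ u ∈ A.tower V (N + M), u ∈ (A.tower V N)ᗮ →
    N * ‖u‖ ^ 2 ≤ ∑ i, ‖A.L i u‖ ^ 2 := by
  induction M with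
  | zero =>
    intro u hu ho
    rw [inner_self_eq_zero.1 (ho u hu)]
    simp
  | succ M ih =>
    intro u hu ho
    haveI := g.tfin (N + M)
    set W := A.tower V (N + M) with hW
    haveI : CompleteSpace W := FiniteDimensional.complete ℂ W
    have le : A.tower V N ≤ W := monotone_nat_of_le_succ tower_le (Nat.le_add_right N M)
    set y := W.starProjection u with hy
    have y1 : y ∈ W := W.starProjection_apply_mem u
    have z1 : u - y ∈ Wᗮ := W.sub_starProjection_mem_orthogonal u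
    have y2 : y ∈ (A.tower V N)ᗮ := by
      have := sub_mem ho (Submodule.orthogonal_le le z1)
      rwa [sub_sub_cancel] at this
    have z2 := z1 _ (g.tcas h (N + M) _ (sub_mem hu (tower_le _ y1)))
    rw [inner_sub_left, inner_smul_left, h.cas_symm, h.cas_form, ip_self, Complex.conj_ofReal,
      sub_eq_zero] at z2
    have z3 : ∑ i, ‖A.L i (u - y)‖ ^ 2 = (c + (N + M : ℕ) + 1) * (c + (N + M : ℕ) + 2) *
      ‖u - y‖ ^ 2 := by exact_mod_cast z2
    have py : ∀ x, ‖x‖ ^ 2 = ‖W.starProjection x‖ ^ 2 + ‖x - W.starProjection x‖ ^ 2 := fun x => by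
      rw [W.norm_sq_eq_add_norm_sq_starProjection x, W.starProjection_orthogonal_val]
    have e : ∑ i, ‖A.L i u‖ ^ 2 = ∑ i, ‖A.L i y‖ ^ 2 + ∑ i, ‖A.L i (u - y)‖ ^ 2 := by
      rw [← Finset.sum_add_distrib]
      exact Finset.sum_congr rfl fun i _ => by
        rw [py, h.L_proj (g.tinv h _), map_sub]
    have p := g.pos
    have q : (N : ℝ) ≤ (c + (N + M : ℕ) + 1) * (c + (N + M : ℕ) + 2) := by
      push_cast
      have := (Nat.cast_nonneg N : (0 : ℝ) ≤ N)
      have := (Nat.cast_nonneg M : (0 : ℝ) ≤ M)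
      nlinarith
    rw [e, z3, py u, mul_add]
    exact add_le_add (ih y y1 y2) (mul_le_mul_of_nonneg_right q (sq_nonneg _))

/-- The spaces of polynomials are Galerkin spaces. -/
theorem gal (g : A.Gen V c) (h : A.Is) : A.Gal := fun η hη => by
  obtain ⟨N, hN⟩ := exists_nat_gt (1 / η)
  rw [div_lt_iff₀ hη] at hN
  refine ⟨A.tower V N, g.tfin N, g.tinv h N, fun u hu => ?_⟩
  have key : ∀ ε, 0 < ε → (‖u‖ - ε ≤ √(η * ∑ i, ‖A.L i u‖ ^ 2)) := fun ε hε => by
    obtain ⟨M, v, hv, hd⟩ := g.dense u ε hε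
    haveI := g.tfin (N + M)
    set W := A.tower V (N + M) with hW
    haveI : CompleteSpace W := FiniteDimensional.complete ℂ W
    have le : A.tower V N ≤ W := monotone_nat_of_le_succ tower_le (Nat.le_add_right N M)
    have le' : A.tower V M ≤ W := monotone_nat_of_le_succ tower_le (Nat.le_add_left M N)
    have y2 : W.starProjection u ∈ (A.tower V N)ᗮ := by
      have := sub_mem hu (Submodule.orthogonal_le le (W.sub_starProjection_mem_orthogonal u))
      rwa [sub_sub_cancel] at this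
    have a := g.gap h N M _ (W.starProjection_apply_mem u) y2
    have b : ∑ i, ‖A.L i (W.starProjection u)‖ ^ 2 ≤ ∑ i, ‖A.L i u‖ ^ 2 :=
      Finset.sum_le_sum fun i _ => by
        rw [← h.L_proj (g.tinv h _)]
        exact pow_le_pow_left₀ (norm_nonneg _) (W.norm_starProjection_apply_le _) 2
    have d : ‖u‖ ≤ ‖W.starProjection u‖ + ε := by
      have e : u - W.starProjection u = Wᗮ.starProjection (u - v) := by
        rw [W.starProjection_orthogonal_val, map_sub, W.starProjection_eq_self_iff.2 (le' hv)]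
        abel
      have := norm_add_le (W.starProjection u) (u - W.starProjection u)
      rw [add_sub_cancel, e] at this
      linarith [Wᗮ.norm_starProjection_apply_le (u - v)]
    refine (sub_le_iff_le_add.2 d).trans (Real.le_sqrt_of_sq_le ?_)
    nlinarith [mul_le_mul_of_nonneg_left (a.trans b) hη.le, sq_nonneg ‖W.starProjection u‖]
  have := le_of_forall_sub_le key
  exact (Real.le_sqrt (norm_nonneg _) (by positivity)).1 this

end Ang.Gen

end Vale.Agent.P354BF
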