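import Vale.Agent.P354BF.Defs

/-!
Finite dimensional invariant subspaces of the angular model.
-/

namespace Vale.Agent.P354BF

variable {S : Type} [NormedAddCommGroup S] [InnerProductSpace ℂ S]

/-- The vector product of w and L. -/
noncomputable def Ang.D (A : Ang S) (i : Fin 3) (u : S) : S :=
  A.w (i + 1) (A.L (i + 2) u) - A.w (i + 2) (A.L (i + 1) u)

/-- Polynomials in w of degree at most k applied to V. -/
noncomputable def Ang.tower (A : Ang S) (V : Submodule ℂ S) : ℕ → Submodule ℂ S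
  | 0 => V
  | k + 1 => A.tower V k ⊔ ⨆ i, (A.tower V k).map (A.w i : S →ₗ[ℂ] S)

/-- The space V of the lowest harmonics, of degree c, generates a dense subspace. -/
structure Ang.Gen (A : Ang S) (V : Submodule ℂ S) (c : ℝ) : Prop where
  pos : 0 ≤ c
  fin : FiniteDimensional ℂ V
  inv : ∀ i, ∀ u ∈ V, A.L i u ∈ V
  cas : ∀ u ∈ V, A.cas u = ((c ^ 2 + c : ℝ) : ℂ) • u
  dd : ∀ i, ∀ u ∈ V, A.D i u - (c : ℂ) • A.w i u ∈ V
  dense : ∀ (u : S) (ε : ℝ), 0 < ε → ∃ k, ∃ v ∈ A.tower V k, ‖u - v‖ ≤ ε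

/-- Galerkin spaces: finite dimensional, invariant under the rotations, with a small Poincare
constant on the orthogonal complement. -/
def Ang.Gal (A : Ang S) : Prop :=
  ∀ η : ℝ, 0 < η → ∃ V : Submodule ℂ S, FiniteDimensional ℂ V ∧ (∀ i, ∀ u ∈ V, A.L i u ∈ V) ∧
    ∀ u ∈ Vᗮ, ‖u‖ ^ 2 ≤ η * ∑ i, ‖A.L i u‖ ^ 2

end Vale.Agent.P354BF
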