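import Vale.Agent.P354BF.Lim

/-!
The estimate at bounded frequencies: the low order term is bounded by a small multiple of the
bulk terms and by the sources of finitely many commutations with the spheroidal operator.
-/

open scoped ContDiff InnerProductSpace
open MeasureTheory Set Filter Topology intervalIntegral
open Complex (I)

namespace Vale.Agent.P354BF

variable {S : Type} [NormedAddCommGroup S] [InnerProductSpace ℂ S] {A : Ang S}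

/-- The spheroidal operator and the Teukolsky operator at the parameters (M, a, om, m). -/
noncomputable abbrev Ang.lf (A : Ang S) (k : ℝ) (σ : Fr) : S →ₗ[ℂ] S := A.lop k σ.a σ.om σ.m
noncomputable abbrev Ang.Pf (A : Ang S) (s k : ℝ) (σ : Fr) : (ℝ → S) → ℝ → S :=
  A.P s k σ.M σ.a σ.om σ.m

/-- The closure of the numerical range of the spheroidal operator. -/
def Ang.Rng (A : Ang S) (k a : ℝ) (om : ℂ) (m : ℝ) (lam : ℂ) : Prop :=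
  ∃ c t u : ℝ, A.s ^ 2 + |A.s| ≤ c ∧ t ∈ Icc (0 : ℝ) 1 ∧ u ∈ Icc (-1 : ℝ) 1 ∧
    lam = c + a ^ 2 * om ^ 2 * t - 2 * a * om * m + 2 * k * a * om * u

theorem Ang.Is.rng (h : A.Is) {k ε : ℝ} (hε : 0 < ε) {σ : ℕ → Fr} {o : Fr} {lam : ℂ}
    (ho : Tendsto σ atTop (𝓝 o)) {u : ℕ → S} (hu : ∀ n, ε ≤ ‖u n‖)
    (hl : Tendsto (fun n => ‖A.lf k (σ n) (u n) - lam • u n‖) atTop (𝓝 0)) :
    A.Rng k o.a o.om o.m lam := by
  have p : ∀ n, 0 < ‖u n‖ := fun n => hε.trans_le (hu n)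
  have p2 : ∀ n, 0 < ‖u n‖ ^ 2 := fun n => pow_pos (p n) 2
  set c : ℕ → ℝ := fun n => (∑ i, ‖A.L i (u n)‖ ^ 2) / ‖u n‖ ^ 2 with hc
  set t : ℕ → ℝ × ℝ := fun n => ((‖u n‖ ^ 2 - ‖A.w 2 (u n)‖ ^ 2) / ‖u n‖ ^ 2,
    (⟪u n, A.w 2 (u n)⟫_ℂ).re / ‖u n‖ ^ 2) with ht
  set e : ℕ → ℂ := fun n => ⟪u n, A.lf k (σ n) (u n) - lam • u n⟫_ℂ / (‖u n‖ ^ 2 : ℝ) with he
  have e0 : Tendsto e atTop (𝓝 0) := by
    have := hl.div_const ε
    rw [zero_div] at this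
    refine squeeze_zero_norm (fun n => ?_) this
    rw [he, norm_div, Complex.norm_real, Real.norm_of_nonneg (p2 n).le, div_le_div_iff₀ (p2 n) hε]
    have := norm_inner_le_norm (𝕜 := ℂ) (u n) (A.lf k (σ n) (u n) - lam • u n)
    have q := norm_nonneg (A.lf k (σ n) (u n) - lam • u n)
    nlinarith [mul_le_mul_of_nonneg_left (hu n) (mul_nonneg q (p n).le),
      mul_le_mul_of_nonneg_right this hε.le]
  have id : ∀ n, (c n : ℂ) = lam + e n - (σ n).a ^ 2 * (σ n).om ^ 2 * (t n).1 +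
      2 * (σ n).a * (σ n).om * (σ n).m - 2 * k * (σ n).a * (σ n).om * (t n).2 := fun n => by
    have : ((‖u n‖ ^ 2 : ℝ) : ℂ) ≠ 0 := by exact_mod_cast (p2 n).ne'
    simp only [hc, ht, he, inner_sub_right, inner_smul_right, h.lop_form, ip_self,
      Complex.ofReal_div]
    field_simp
    ring
  obtain ⟨x, hx, φ, hφ, lim⟩ := (isCompact_Icc.prod isCompact_Icc).tendsto_subseq
    (s := Icc (0 : ℝ) 1 ×ˢ Icc (-1 : ℝ) 1) (x := t) fun n => by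
      have a1 := pow_le_pow_left₀ (norm_nonneg _) (h.w_le 2 (u n)) 2
      have a2 := abs_le.1 (h.w_re_le 2 (u n))
      refine ⟨⟨div_nonneg (by linarith) (p2 n).le, (div_le_one (p2 n)).2 ?_⟩,
        (le_div_iff₀ (p2 n)).2 (by linarith [a2.1]), (div_le_one (p2 n)).2 a2.2⟩
      nlinarith [sq_nonneg ‖A.w 2 (u n)‖]
  have l1 := (Complex.continuous_ofReal.tendsto _).comp ((continuous_fst.tendsto _).comp lim)
  have l2 := (Complex.continuous_ofReal.tendsto _).comp ((continuous_snd.tendsto _).comp lim)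
  have s1 := ho.comp hφ.tendsto_atTop
  have cc : ∀ F : Fr → ℂ, Continuous F → Tendsto (fun n => F (σ (φ n))) atTop (𝓝 (F o)) :=
    fun F hF => (hF.tendsto o).comp s1
  have l3 : Tendsto (fun n => (c (φ n) : ℂ)) atTop (𝓝 (lam + 0 - o.a ^ 2 * o.om ^ 2 * x.1 +
      2 * o.a * o.om * o.m - 2 * k * o.a * o.om * x.2)) := by
    simp only [id]
    exact ((((e0.comp hφ.tendsto_atTop).const_add lam).sub
      ((cc (fun w => w.a ^ 2 * w.om ^ 2) (by fun_prop)).mul l1)).add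
      (cc (fun w => 2 * w.a * w.om * w.m) (by fun_prop))).sub
      ((cc (fun w => 2 * k * w.a * w.om) (by fun_prop)).mul l2)
  set w := lam + 0 - o.a ^ 2 * o.om ^ 2 * x.1 + 2 * o.a * o.om * o.m -
    2 * k * o.a * o.om * x.2 with hw
  have i0 : w.im = 0 := by
    have := (Complex.continuous_im.tendsto _).comp l3
    simp only [Function.comp_def, Complex.ofReal_im] at this
    exact tendsto_nhds_unique this tendsto_const_nhds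
  have r0 : A.s ^ 2 + |A.s| ≤ w.re := ge_of_tendsto' ((Complex.continuous_re.tendsto _).comp l3)
    fun n => (le_div_iff₀ (p2 _)).2 (h.cas_ge _)
  refine ⟨w.re, x.1, x.2, r0, hx.1, hx.2, ?_⟩
  rw [show (w.re : ℂ) = w from Complex.ext (by simp) (by simp [i0]), hw]
  ring

/-- The data of the estimate at bounded frequencies. -/
structure Par (S : Type) where
  s : ℝ
  k : ℝ
  r0 : ℝ
  x0 : ℝ
  R2 : ℝ
  Ω : Set Fr
  ι : Type
  T : ι → ℕ → Fr → ℝ → ℂ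
  src : ℝ → Fr → (ℝ → S) → ℝ
  Bk : ℝ → Fr → (ℝ → S) → ℝ
  θ : ℝ → ℝ

/-- Functionals which behave like the square of a seminorm. -/
def Ang.Quad (A : Ang S) (m : ℝ) (q : (ℝ → S) → ℝ) : Prop :=
  (∀ v, A.Md m v → 0 ≤ q v) ∧ ∀ (c d : ℂ) (u v : ℝ → S), A.Md m u → A.Md m v →
    q (fun r => c • u r + d • v r) ≤ 2 * ‖c‖ ^ 2 * q u + 2 * ‖d‖ ^ 2 * q v

/-- The right hand side of the estimate with a low order term. -/
noncomputable def Par.Q (p : Par S) (R : ℝ) (σ : Fr) (v : ℝ → S) : ℝ :=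
  p.src R σ v + p.θ R * p.Bk R σ v + W 2 v p.x0 p.R2

/-- The hypotheses: an estimate with a low order term, and mode stability. -/
structure Par.Hyp (p : Par S) (A : Ang S) : Prop where
  ha : ∀ σ ∈ p.Ω, |σ.a| < σ.M
  h0 : ∀ σ ∈ p.Ω, p.r0 ≤ rp σ.M σ.a
  h1 : ∀ σ ∈ p.Ω, rp σ.M σ.a < p.x0
  h2 : p.x0 < p.R2
  h3 : p.r0 ≤ p.x0
  cpt : IsCompact p.Ω
  cT : ∀ i j, ∀ σ ∈ p.Ω, ∀ r, rp σ.M σ.a < r →
    ContinuousAt (fun z : Fr × ℝ => p.T i j z.1 z.2) (σ, r)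
  qs : ∀ R, ∀ σ ∈ p.Ω, p.R2 ≤ R → A.Quad σ.m (p.src R σ)
  qb : ∀ R, ∀ σ ∈ p.Ω, p.R2 ≤ R → A.Quad σ.m (p.Bk R σ)
  th : Tendsto p.θ atTop (𝓝 0)
  bk : ∀ R, ∀ σ ∈ p.Ω, ∀ v, p.R2 ≤ R → A.Md σ.m v → W 2 v p.x0 p.R2 ≤ p.Bk R σ v
  sr : ∀ y, p.r0 ≤ y → ∃ C, ∀ᶠ R in atTop, ∀ σ ∈ p.Ω, ∀ v, A.Md σ.m v →
    W 2 (A.Pf p.s p.k σ v) p.r0 y ≤ C * p.src R σ v
  g1 : ∃ C, ∀ᶠ R in atTop, ∀ σ ∈ p.Ω, ∀ v, A.Md σ.m v →
    W 3 v p.r0 p.R2 + A.WL 2 v p.x0 p.R2 ≤ C * p.Q R σ v ∧ ∀ i, ∀ y ∈ Icc p.R2 R,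
      ∫ r in p.R2..y, ‖∑ j ∈ Finset.range 4, p.T i j σ r • iteratedDeriv j v r‖ ^ 2 ≤
        C * p.Q R σ v
  g2 : ∀ y, p.r0 ≤ y → ∃ C, ∀ᶠ R in atTop, ∀ σ ∈ p.Ω, ∀ v, A.Md σ.m v →
    W 2 v p.r0 y ≤ C * p.Q R σ v
  ms : ∀ σ ∈ p.Ω, ∀ lam, A.Rng p.k σ.a σ.om σ.m lam → ∀ g, Ode p.s σ.M σ.a σ.om σ.m lam g →
    (∃ C, ∀ x ∈ Ioo (rp σ.M σ.a) p.R2, ∫ r in x..p.R2, ‖g 3 r‖ ^ 2 ≤ C) →
    (∀ i, ∃ C, ∀ y, p.R2 < y →
      ∫ r in p.R2..y, ‖∑ j ∈ Finset.range 4, p.T i j σ r * g j r‖ ^ 2 ≤ C) →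
    ∀ r, rp σ.M σ.a < r → g 0 r = 0

/-- Sequences of radii and frequencies. -/
structure Par.Seq (p : Par S) (R : ℕ → ℝ) (σ : ℕ → Fr) (o : Fr) : Prop where
  top : Tendsto R atTop atTop
  le : ∀ n, p.R2 ≤ R n
  mem : ∀ n, σ n ∈ p.Ω
  lim : Tendsto σ atTop (𝓝 o)
  mo : o ∈ p.Ω

/-- Sequences of curves with bounded bulk terms and small sources. -/
def Par.Adm (p : Par S) (A : Ang S) (R : ℕ → ℝ) (σ : ℕ → Fr) (z : ℕ → ℝ → S) : Prop :=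
  (∀ n, A.Md (σ n).m (z n)) ∧ (∃ B, ∀ n, p.Bk (R n) (σ n) (z n) ≤ B) ∧
    Tendsto (fun n => p.src (R n) (σ n) (z n)) atTop (𝓝 0)

/-- Sequences of curves with a small low order term. -/
def Par.Nul (p : Par S) (z : ℕ → ℝ → S) : Prop :=
  Tendsto (fun n => W 2 (z n) p.x0 p.R2) atTop (𝓝 0)

namespace Par

variable {p : Par S} {R : ℕ → ℝ} {σ : ℕ → Fr} {o : Fr} {z y : ℕ → ℝ → S}

theorem Seq.sub (q : p.Seq R σ o) {φ : ℕ → ℕ} (hφ : Tendsto φ atTop atTop) :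
    p.Seq (fun n => R (φ n)) (fun n => σ (φ n)) o :=
  ⟨q.top.comp hφ, fun _ => q.le _, fun _ => q.mem _, q.lim.comp hφ, q.mo⟩

theorem Adm.sub (h : p.Adm A R σ z) {φ : ℕ → ℕ} (hφ : Tendsto φ atTop atTop) :
    p.Adm A (fun n => R (φ n)) (fun n => σ (φ n)) fun n => z (φ n) :=
  ⟨fun _ => h.1 _, h.2.1.imp fun _ hB _ => hB _, h.2.2.comp hφ⟩

theorem Adm.lin (H : p.Hyp A) (q : p.Seq R σ o) (hz : p.Adm A R σ z) (hy : p.Adm A R σ y)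
    (c d : ℂ) : p.Adm A R σ fun n r => c • z n r + d • y n r := by
  obtain ⟨B, hB⟩ := hz.2.1
  obtain ⟨B', hB'⟩ := hy.2.1
  have md : ∀ n, A.Md (σ n).m fun r => c • z n r + d • y n r := fun n =>
    ((hz.1 n).smul contDiff_const).add ((hy.1 n).smul contDiff_const)
  refine ⟨md, ⟨2 * ‖c‖ ^ 2 * B + 2 * ‖d‖ ^ 2 * B', fun n =>
    ((H.qb _ _ (q.mem n) (q.le n)).2 c d _ _ (hz.1 n) (hy.1 n)).trans (by gcongr <;> simp [hB, hB'])⟩, ?_⟩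
  have := (hz.2.2.const_mul (2 * ‖c‖ ^ 2)).add (hy.2.2.const_mul (2 * ‖d‖ ^ 2))
  simp only [mul_zero, add_zero] at this
  exact squeeze_zero (fun n => (H.qs _ _ (q.mem n) (q.le n)).1 _ (md n))
    (fun n => (H.qs _ _ (q.mem n) (q.le n)).2 c d _ _ (hz.1 n) (hy.1 n)) this

theorem Adm.err (H : p.Hyp A) (q : p.Seq R σ o) (hz : p.Adm A R σ z) : Tendsto
    (fun n => p.src (R n) (σ n) (z n) + p.θ (R n) * p.Bk (R n) (σ n) (z n)) atTop (𝓝 0) := by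
  obtain ⟨B, hB⟩ := hz.2.1
  have := (H.th.comp q.top).norm.mul_const B
  rw [norm_zero, zero_mul] at this
  have e : Tendsto (fun n => p.θ (R n) * p.Bk (R n) (σ n) (z n)) atTop (𝓝 0) := by
    refine squeeze_zero_norm (fun n => ?_) this
    rw [norm_mul, Real.norm_of_nonneg ((H.qb _ _ (q.mem n) (q.le n)).1 _ (hz.1 n))]
    exact mul_le_mul_of_nonneg_left (hB n) (norm_nonneg _)
  simpa using hz.2.2.add e

theorem Adm.bd (H : p.Hyp A) (q : p.Seq R σ o) (hz : p.Adm A R σ z) (C : ℝ) :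
    ∃ B, ∀ᶠ n in atTop, C * p.Q (R n) (σ n) (z n) ≤ B := by
  obtain ⟨B, hB⟩ := hz.2.1
  refine ⟨|C| * (1 + B), ?_⟩
  filter_upwards [(hz.err H q).eventually (Ioo_mem_nhds (by norm_num : (-1 : ℝ) < 0) one_pos)]
    with n hn
  have a := (H.bk _ _ (q.mem n) _ (q.le n) (hz.1 n)).trans (hB n)
  have b := W_nonneg 2 (z n) H.h2.le
  refine (le_abs_self _).trans ?_
  rw [abs_mul]
  exact mul_le_mul_of_nonneg_left (abs_le.2 ⟨by unfold Q; linarith [hn.1],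
    by unfold Q; linarith [hn.2]⟩) (abs_nonneg _)

theorem Adm.nul (H : p.Hyp A) (q : p.Seq R σ o) (hz : p.Adm A R σ z) (h : p.Nul z) (C : ℝ) :
    Tendsto (fun n => C * p.Q (R n) (σ n) (z n)) atTop (𝓝 0) := by
  simpa [Q] using ((hz.err H q).add h).const_mul C

theorem Adm.val (H : p.Hyp A) (q : p.Seq R σ o) (hz : p.Adm A R σ z) (l : S →L[ℂ] ℂ) {j : ℕ}
    (hj : j ≤ 2) {ρ : ℝ} (hρ : ρ ∈ Icc p.x0 p.R2) :
    ∃ B : ℝ, ∀ᶠ n in atTop, ‖l (iteratedDeriv j (z n) ρ)‖ ≤ B := by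
  obtain ⟨C, hC⟩ := H.g1
  obtain ⟨B, hB⟩ := hz.bd H q C
  refine ⟨‖l‖ * √(2 * (2 / (p.R2 - p.x0) + 2 * (p.R2 - p.x0)) * B), ?_⟩
  filter_upwards [q.top.eventually hC, hB] with n hn hn'
  have a1 := (hn _ (q.mem n) _ (hz.1 n)).1
  have a2 := W_trace (hz.1 n).1.cd (show j < 3 by omega) H.h2 hρ
  have a3 := W_mono (hz.1 n).1.cd (le_refl 3) H.h3 H.h2.le le_rfl
  have a4 := WL_nonneg (A := A) 2 (z n) H.h2.le
  have : 0 < p.R2 - p.x0 := by linarith [H.h2]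
  exact (l.le_opNorm _).trans (mul_le_mul_of_nonneg_left (Real.le_sqrt_of_sq_le
    (a2.trans (mul_le_mul_of_nonneg_left (by linarith) (by positivity)))) (norm_nonneg _))

end Par

end Vale.Agent.P354BF
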