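import Vale.Agent.P354BF.Rows
import Vale.Agent.P354BF.BF

open scoped ContDiff
open MeasureTheory Set Filter Topology intervalIntegral
open Complex (I)

namespace Vale.Agent.P354BF

variable {S : Type} [NormedAddCommGroup S] [InnerProductSpace ℂ S] {A : Ang S}

/-- The jet of a curve. -/
noncomputable def jets (v : ℝ → S) : ℕ → ℝ → S := fun j => iteratedDeriv j v

/-- A density which is given by rows. -/
noncomputable def den {n : ℕ} (T : Fin n → Row) (σ : Fr) (v : ℝ → S) (r : ℝ) : ℝ :=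
  ∑ i, ‖ev (T i) σ (jets v) r‖ ^ 2

variable {n n' : ℕ} {T : Fin n → Row} {L : Fin n' → Row} {σ : Fr} {u v : ℝ → S}

theorem jet_jets (hv : ContDiff ℝ ∞ v) : Jet σ (jets v) := fun r _ j _ => iter_has hv j r

theorem den_nonneg (r : ℝ) : 0 ≤ den T σ v r := by unfold den; positivity

theorem row_cont {t : Row} (ht : ∀ j, Co (t j)) (ha : |σ.a| < σ.M) (hv : ContDiff ℝ ∞ v) {x y : ℝ}
    (hx : rp σ.M σ.a < x) : ContinuousOn (ev t σ (jets v)) (Icc x y) := fun _ hr =>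
  (ev_cont ha (hx.trans_le hr.1) (fun j _ => (iter_cont hv j).continuousAt) ht).continuousWithinAt

theorem den_ii (hT : ∀ i j, Co (T i j)) (ha : |σ.a| < σ.M) (hv : ContDiff ℝ ∞ v) {x y : ℝ}
    (hx : rp σ.M σ.a < x) (hy : x ≤ y) (p : ℝ) :
    IntervalIntegrable (fun r => r ^ p * den T σ v r) volume x y := by
  refine ContinuousOn.intervalIntegrable ?_
  rw [uIcc_of_le hy]
  exact (continuousOn_id.rpow_const fun r hr =>
    Or.inl ((rp_pos ha).trans (hx.trans_le hr.1)).ne').mul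
      (continuousOn_finsetSum _ fun i _ => (row_cont (hT i) ha hv hx).norm.pow 2)

theorem den_ii0 (hT : ∀ i j, Co (T i j)) (ha : |σ.a| < σ.M) (hv : ContDiff ℝ ∞ v) {x y : ℝ}
    (hx : rp σ.M σ.a < x) (hy : x ≤ y) : IntervalIntegrable (den T σ v) volume x y := by
  simpa using den_ii hT ha hv hx hy 0

theorem den_lin (hu : ContDiff ℝ ∞ u) (hv : ContDiff ℝ ∞ v) (c d : ℂ) (r : ℝ) :
    den T σ (fun r => c • u r + d • v r) r ≤
      2 * ‖c‖ ^ 2 * den T σ u r + 2 * ‖d‖ ^ 2 * den T σ v r := by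
  simp only [den, Finset.mul_sum, ← Finset.sum_add_distrib]
  refine Finset.sum_le_sum fun i _ => ?_
  have e : ev (T i) σ (jets fun r => c • u r + d • v r) r =
      c • ev (T i) σ (jets u) r + d • ev (T i) σ (jets v) r := by
    simp only [ev, jets, iter_lin hu hv, Finset.smul_sum, ← Finset.sum_add_distrib, smul_add]
    exact Finset.sum_congr rfl fun j _ => by rw [smul_comm c, smul_comm d]
  rw [e]
  refine (pow_le_pow_left₀ (norm_nonneg _) (norm_add_le _ _) 2).trans ?_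
  rw [norm_smul, norm_smul]
  nlinarith [sq_nonneg (‖c‖ * ‖ev (T i) σ (jets u) r‖ - ‖d‖ * ‖ev (T i) σ (jets v) r‖)]

theorem den_G (G : S →L[ℂ] S) (hG : ∀ u, ‖G u‖ ≤ ‖u‖) (hv : ContDiff ℝ ∞ v) (r : ℝ) :
    den T σ (fun r => G (v r)) r ≤ den T σ v r :=
  Finset.sum_le_sum fun i _ => pow_le_pow_left₀ (norm_nonneg _) (le_of_eq_of_le (by
    simp only [ev, jets, iter_clm G hv, map_sum, map_smul]) (hG _)) 2

theorem W_G (G : S →L[ℂ] S) (hG : ∀ u, ‖G u‖ ≤ ‖u‖) (hv : ContDiff ℝ ∞ v) (k : ℕ) {x y : ℝ}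
    (h : x ≤ y) : W k (fun r => G (v r)) x y ≤ W k v x y :=
  Finset.sum_le_sum fun j _ => by
    have := iter_cont hv j
    rw [iter_clm G hv]
    exact integral_mono_on h (Continuous.intervalIntegrable (by fun_prop) _ _)
      (Continuous.intervalIntegrable (by fun_prop) _ _) fun r _ =>
        pow_le_pow_left₀ (norm_nonneg _) (hG _) 2

/-- The estimate (G) in terms of rows. -/
def GR (A : Ang S) (s k : ℝ) (T : Fin n → Row) (L : Fin n' → Row) : Prop :=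
  ∀ B η p : ℝ, 0 < η → 0 < p → p < 1 → ∃ X, ∀ x, X ≤ x → ∃ C, 0 ≤ C ∧
    ∀ R, x + 2 ≤ R → ∃ C', 0 ≤ C' ∧ ∀ (σ : Fr) r0, P354XN.Par B η σ.M σ.a r0 k σ.om σ.m →
      |σ.a| < σ.M → rp σ.M σ.a < x → ∀ v, A.Sm v →
        W 3 v r0 x + A.WL 2 v r0 x + ∫ r in x..R, den T σ v r ≤
          C * (W 2 v r0 x + ∫ r in R..2 * R, r ^ p * den L σ v r) +
            C' * W 2 (A.Pf s k σ v) r0 (2 * R)

/-- Mode stability in terms of rows. -/
def MR (A : Ang S) (s k : ℝ) (T : Fin n → Row) : Prop :=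
  ∀ (σ : Fr) lam g x, |σ.a| < σ.M → 0 ≤ σ.om.im → A.Rng k σ.a σ.om σ.m lam →
    Ode s σ.M σ.a σ.om σ.m lam g → rp σ.M σ.a < x →
    (∃ C, ∀ y ∈ Ioo (rp σ.M σ.a) x, ∫ r in y..x, ‖g 3 r‖ ^ 2 ≤ C) →
    (∀ i, ∃ C, ∀ y, x < y → ∫ r in x..y, ‖ev (T i) σ g r‖ ^ 2 ≤ C) →
    ∀ r, rp σ.M σ.a < r → g 0 r = 0

/-- The parameters near (M0, a0) with bounded frequencies. -/
def Om (M0 a0 ρ B : ℝ) : Set Fr :=
  {σ | |σ.M - M0| ≤ ρ ∧ |σ.a - a0| ≤ ρ ∧ ‖σ.om‖ ≤ B ∧ 0 ≤ σ.om.im ∧ |σ.m| ≤ B}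

theorem Om_cpt (M0 a0 ρ B : ℝ) : IsCompact (Om M0 a0 ρ B) := by
  refine ((isCompact_closedBall M0 ρ).prod ((isCompact_closedBall a0 ρ).prod
    ((isCompact_closedBall (0 : ℂ) B).prod (isCompact_closedBall (0 : ℝ) B)))).of_isClosed_subset
    ?_ fun σ h => ⟨h.1, h.2.1, mem_closedBall_zero_iff.2 h.2.2.1, mem_closedBall_zero_iff.2 h.2.2.2.2⟩
  simp only [Om, setOf_and]
  refine (isClosed_le ?_ ?_).inter ((isClosed_le ?_ ?_).inter ((isClosed_le ?_ ?_).inter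
    ((isClosed_le ?_ ?_).inter (isClosed_le ?_ ?_)))) <;> fun_prop

theorem near {M0 a0 r0 d : ℝ} (ha : |a0| < M0) (h0 : M0 < r0) (h1 : r0 < rp M0 a0) (hd : 0 < d) :
    ∃ ρ, 0 < ρ ∧ ρ ≤ 1 ∧ ∀ M a, |M - M0| ≤ ρ → |a - a0| ≤ ρ → |a| < M ∧
      M + (r0 - M0) / 2 ≤ r0 ∧ r0 < rp M a ∧ rp M a < rp M0 a0 + d ∧ rp M0 a0 - d < rp M a := by
  have c : Continuous fun w : ℝ × ℝ => rp w.1 w.2 := by unfold rp; fun_prop
  have e : ∀ᶠ w : ℝ × ℝ in 𝓝 (M0, a0), |w.2| < w.1 ∧ w.1 + (r0 - M0) / 2 < r0 ∧ r0 < rp w.1 w.2 ∧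
      rp w.1 w.2 < rp M0 a0 + d ∧ rp M0 a0 - d < rp w.1 w.2 :=
    (ContinuousAt.eventually_lt (by fun_prop) (by fun_prop) ha).and
      ((ContinuousAt.eventually_lt (by fun_prop) continuousAt_const (by simp only; linarith)).and
      ((continuousAt_const.eventually_lt c.continuousAt h1).and
      ((c.continuousAt.eventually_lt continuousAt_const (by simp only; linarith)).and
      (continuousAt_const.eventually_lt c.continuousAt (by simp only; linarith)))))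
  obtain ⟨ε, hε, h⟩ := Metric.eventually_nhds_iff.1 e
  refine ⟨min 1 (ε / 2), by positivity, min_le_left _ _, fun M a hM ha => ?_⟩
  have := h (y := (M, a)) (max_lt (by rw [Real.dist_eq]; linarith [min_le_right 1 (ε / 2)])
    (by rw [Real.dist_eq]; linarith [min_le_right 1 (ε / 2)]))
  exact ⟨this.1, this.2.1.le, this.2.2⟩

theorem row_low {Ω : Set Fr} (hΩ : IsCompact Ω) {x y : ℝ} (hxy : x ≤ y)
    (hx : ∀ σ ∈ Ω, |σ.a| < σ.M ∧ rp σ.M σ.a < x) (hT : ∀ i j, Co (T i j)) {i0 : Fin n}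
    {w : Fr → ℝ → ℂ} (hw : Co w) (w0 : ∀ z ∈ Uo, w z.1 z.2 ≠ 0)
    (e : ∀ σ (g : ℕ → ℝ → S) r, ev (T i0) σ g r = w σ r • g 0 r) :
    ∃ K, 0 ≤ K ∧ ∀ σ ∈ Ω, ∀ v : ℝ → S, ContDiff ℝ ∞ v → W 0 v x y ≤ K * ∫ r in x..y, den T σ v r := by
  have m : ∀ z ∈ Ω ×ˢ Icc x y, z ∈ Uo := fun z hz =>
    mem_Uo (hx _ hz.1).1 ((hx _ hz.1).2.trans_le hz.2.1)
  obtain ⟨K, hK⟩ := (hΩ.prod (isCompact_Icc (a := x) (b := y))).exists_bound_of_continuousOn
    (f := fun z => (w z.1 z.2)⁻¹) fun z hz =>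
      ((hw z (m z hz)).continuousAt.inv₀ (w0 z (m z hz))).continuousWithinAt
  refine ⟨K ^ 2, sq_nonneg _, fun σ hσ v hv => ?_⟩
  simp only [W, zero_add, Finset.sum_range_one]
  rw [← intervalIntegral.integral_const_mul]
  refine integral_mono_on hxy (((iter_cont hv 0).norm.pow 2).intervalIntegrable _ _)
    ((den_ii0 hT (hx σ hσ).1 hv (hx σ hσ).2 hxy).const_mul _) fun r hr => ?_
  have a : ‖ev (T i0) σ (jets v) r‖ ^ 2 ≤ den T σ v r :=
    Finset.single_le_sum (f := fun i => ‖ev (T i) σ (jets v) r‖ ^ 2) (fun _ _ => sq_nonneg _)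
      (Finset.mem_univ i0)
  refine le_trans ?_ (mul_le_mul_of_nonneg_left a (sq_nonneg _))
  have b : iteratedDeriv 0 v r = (w σ r)⁻¹ • ev (T i0) σ (jets v) r := by
    rw [e, smul_smul, inv_mul_cancel₀ (w0 (σ, r) (m _ ⟨hσ, hr⟩)), one_smul]; rfl
  rw [b, norm_smul, ← mul_pow]
  exact pow_le_pow_left₀ (by positivity)
    (mul_le_mul_of_nonneg_right (hK (σ, r) ⟨hσ, hr⟩) (norm_nonneg _)) 2

theorem layer_le (hL : ∀ i j, Co (L i j)) (ha : |σ.a| < σ.M) (hv : ContDiff ℝ ∞ v) {x R p q : ℝ}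
    (hx : rp σ.M σ.a < x) (hR : x ≤ R) (hq : q ≤ p) : ∫ r in R..2 * R, r ^ q * den L σ v r ≤
      R ^ (q - p) * ∫ r in x..2 * R, r ^ p * den L σ v r := by
  have x0 := (rp_pos ha).trans hx
  have R0 : 0 < R := x0.trans_le hR
  have h2 : R ≤ 2 * R := by linarith
  refine le_trans ?_ (mul_le_mul_of_nonneg_left (integral_mono_interval hR h2 le_rfl
    ((ae_restrict_iff' measurableSet_Ioc).2 (Eventually.of_forall fun r hr => mul_nonneg
      (Real.rpow_nonneg (x0.trans hr.1).le _) (den_nonneg r))) (den_ii hL ha hv hx (hR.trans h2) p))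
    (Real.rpow_nonneg R0.le _))
  rw [← intervalIntegral.integral_const_mul]
  refine integral_mono_on h2 (den_ii hL ha hv (hx.trans_le hR) h2 q)
    ((den_ii hL ha hv (hx.trans_le hR) h2 p).const_mul _) fun r hr => ?_
  rw [← mul_assoc]
  refine mul_le_mul_of_nonneg_right ?_ (den_nonneg r)
  have r0 := R0.trans_le hr.1
  rw [show q = q - p + p by ring, Real.rpow_add r0, add_sub_cancel_right]
  exact mul_le_mul_of_nonneg_right (Real.rpow_le_rpow_of_nonpos R0 hr.1 (by linarith))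
    (Real.rpow_nonneg r0.le _)

end Vale.Agent.P354BF
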