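import Vale.Agent.P354BF.Inst

open scoped ContDiff
open MeasureTheory Set Filter Topology intervalIntegral
open Complex (I)

namespace Vale.Agent.P354BF

variable {S : Type} [NormedAddCommGroup S] [InnerProductSpace ℂ S] {A : Ang S}
  {n n' : ℕ} {T : Fin n → Row} {L : Fin n' → Row}

/-- The weighted integral of a density. -/
noncomputable def In (L : Fin n' → Row) (p x y : ℝ) (σ : Fr) (v : ℝ → S) : ℝ :=
  ∫ r in x..y, r ^ p * den L σ v r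

theorem In_nonneg {p x y : ℝ} (hx : 0 ≤ x) (hy : x ≤ y) (σ : Fr) (v : ℝ → S) :
    0 ≤ In L p x y σ v :=
  integral_nonneg hy fun r hr => mul_nonneg (Real.rpow_nonneg (hx.trans hr.1) _) (den_nonneg r)

theorem In_lin (hL : ∀ i j, Co (L i j)) {σ : Fr} (ha : |σ.a| < σ.M) {p x y : ℝ}
    (hx : rp σ.M σ.a < x) (hy : x ≤ y) {u v : ℝ → S} (hu : ContDiff ℝ ∞ u) (hv : ContDiff ℝ ∞ v)
    (a b : ℂ) : In L p x y σ (fun r => a • u r + b • v r) ≤
      2 * ‖a‖ ^ 2 * In L p x y σ u + 2 * ‖b‖ ^ 2 * In L p x y σ v := by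
  have i := fun {v : ℝ → S} (hv : ContDiff ℝ ∞ v) => den_ii hL ha hv hx hy p
  have a2 := integral_mono_on hy (i ((hu.const_smul a).add (hv.const_smul b)))
    (((i hu).const_mul (2 * ‖a‖ ^ 2)).add ((i hv).const_mul (2 * ‖b‖ ^ 2))) fun r hr => by
      linarith [mul_le_mul_of_nonneg_left (den_lin (T := L) (σ := σ) hu hv a b r)
        (Real.rpow_nonneg (show 0 ≤ r by linarith [hr.1, rp_pos ha]) p)]
  rwa [integral_add ((i hu).const_mul _) ((i hv).const_mul _),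
    intervalIntegral.integral_const_mul, intervalIntegral.integral_const_mul] at a2

theorem In_G (hL : ∀ i j, Co (L i j)) {σ : Fr} (ha : |σ.a| < σ.M) {p x y : ℝ}
    (hx : rp σ.M σ.a < x) (hy : x ≤ y) {v : ℝ → S} (hv : ContDiff ℝ ∞ v) (G : S →L[ℂ] S)
    (hG : ∀ u, ‖G u‖ ≤ ‖u‖) : In L p x y σ (fun r => G (v r)) ≤ In L p x y σ v :=
  integral_mono_on hy (den_ii hL ha ((G.restrictScalars ℝ).contDiff.comp hv) hx hy p)
    (den_ii hL ha hv hx hy p) fun r hr => mul_le_mul_of_nonneg_left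
      (den_G G hG hv r) (Real.rpow_nonneg (by linarith [hr.1, rp_pos ha]) p)

theorem row_le (hT : ∀ i j, Co (T i j)) {σ : Fr} (ha : |σ.a| < σ.M) {x y R : ℝ}
    (hx : rp σ.M σ.a < x) (hy : y ∈ Icc x R) {v : ℝ → S} (hv : ContDiff ℝ ∞ v) (i : Fin n) :
    ∫ r in x..y, ‖ev (T i) σ (jets v) r‖ ^ 2 ≤ ∫ r in x..R, den T σ v r :=
  (integral_mono_on hy.1 (ii_sq hy.1 (row_cont (hT i) ha hv hx)) (den_ii0 hT ha hv hx hy.1)
    fun r _ => Finset.single_le_sum (f := fun i => ‖ev (T i) σ (jets v) r‖ ^ 2)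
      (fun _ _ => sq_nonneg _) (Finset.mem_univ i)).trans
    (integral_mono_interval le_rfl hy.1 hy.2 (Eventually.of_forall den_nonneg)
      (den_ii0 hT ha hv hx (hy.1.trans hy.2)))

theorem low_move {v : ℝ → S} (hv : ContDiff ℝ ∞ v) {r0 r1 x0 x d C a b : ℝ} {N : ℕ} (d0 : 0 < d)
    (c0 : 0 ≤ C) (d1 : d * (8 * C + 2) = 1) (h0 : r0 ≤ r1) (h1 : x0 ≤ r1 + d) (h2 : r1 + 1 ≤ x)
    (hN : r1 ≤ r0 + N * d) (ha : 0 ≤ a) (hb : 0 ≤ b)
    (g : ∀ y ∈ Icc r0 r1, W 3 v y x ≤ C * (W 2 v y x + a) + b) :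
    W 2 v r0 x ≤ 6 ^ (N + 1) * (W 2 v x0 x + a + b) := by
  have d2 : d ≤ 1 / 2 := by nlinarith [mul_nonneg d0.le c0]
  have b3 := W_nonneg 2 v (show x0 ≤ x by linarith)
  refine steps (w := fun y => W 2 v y x) (r1 := r1) d0.le (by linarith)
    (fun y z _ hz hz' => W_mono hv le_rfl hz (by linarith) le_rfl) (fun y hy => ?_) ?_ N r0
    ⟨le_rfl, h0⟩ hN
  · have e1 := W_left hv d0.le (x := y) (y := x) (by linarith [hy.2])
    have e5 := W_nonneg 2 v (x := y) (y := x) (by linarith [hy.2])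
    have e6 := W_nonneg 2 v (x := y + d) (y := x) (by linarith [hy.2])
    have e7 : 4 * d ^ 2 * C ≤ 1 / 4 := by nlinarith [mul_nonneg d0.le c0]
    have e8 := mul_le_mul_of_nonneg_left (g y hy) (by positivity : 0 ≤ 4 * d ^ 2)
    have e9 := mul_le_mul_of_nonneg_right e7 (add_nonneg e5 ha)
    have e10 := mul_le_mul_of_nonneg_right (show 4 * d ^ 2 ≤ 1 by nlinarith) hb
    linarith
  · linarith [W_mono hv (le_refl 2) h1 (show r1 + d ≤ x by linarith) le_rfl]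

/-- The data of the estimate in terms of rows. -/
noncomputable def par (A : Ang S) (s k r0 x0 x p q : ℝ) (Ω : Set Fr) (T : Fin n → Row)
    (L : Fin n' → Row) (c : ℝ → ℝ) : Par S :=
  ⟨s, k, r0, x0, x, Ω, Fin n, T, fun R σ v => c R * W 2 (A.Pf s k σ v) r0 (2 * R),
    fun R σ v => W 2 v x0 x + In L p x (2 * R) σ v, fun R => R ^ (q - p)⟩

theorem hyp2 (h : A.Is) {s k r0 x0 x p q C : ℝ} {Ω : Set Fr} {c : ℝ → ℝ} (hT : ∀ i j, Co (T i j))
    (hL : ∀ i j, Co (L i j)) (mr : MR A s k T) (cpt : IsCompact Ω) (qp : q < p)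
    (hx : ∀ σ ∈ Ω, |σ.a| < σ.M ∧ r0 ≤ rp σ.M σ.a ∧ rp σ.M σ.a < x0 ∧ 0 ≤ σ.om.im) (x0x : x0 < x)
    (r0x : r0 ≤ x0) (xp : 0 ≤ x) (c1 : ∀ R, 1 ≤ c R)
    (g1 : ∀ R, x + 2 ≤ R → ∀ σ ∈ Ω, ∀ v, A.Sm v → W 3 v r0 x + A.WL 2 v r0 x +
      ∫ r in x..R, den T σ v r ≤ C * (par A s k r0 x0 x p q Ω T L c).Q R σ v)
    (g2 : ∀ y, r0 ≤ y → ∃ C, ∀ᶠ R in atTop, ∀ σ ∈ Ω, ∀ v, A.Sm v →
      W 2 v r0 y ≤ C * (par A s k r0 x0 x p q Ω T L c).Q R σ v) :
    (par A s k r0 x0 x p q Ω T L c).Hyp2 A c := by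
  have hx1 := fun σ hσ => (hx σ hσ).2.2.1.trans x0x
  have c0 : ∀ R, 0 ≤ c R := fun R => zero_le_one.trans (c1 R)
  refine ⟨⟨fun σ hσ => (hx σ hσ).1, fun σ hσ => (hx σ hσ).2.1, fun σ hσ => (hx σ hσ).2.2.1, x0x,
    r0x, cpt, fun i j σ hσ r hr => (hT i j _ (mem_Uo (hx σ hσ).1 hr)).continuousAt,
    fun R σ hσ (hR : x ≤ R) => ⟨fun v _ => mul_nonneg (c0 R) (W_nonneg _ _ (by linarith)),
      fun a b u v hu hv => ?_⟩,
    fun R σ hσ (hR : x ≤ R) => ⟨fun v _ => add_nonneg (W_nonneg _ _ x0x.le)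
      (In_nonneg xp (by linarith) σ v), fun a b u v hu hv => ?_⟩, ?_,
    fun R σ hσ v (hR : x ≤ R) _ => le_add_of_nonneg_right (In_nonneg xp (by linarith) σ v),
    fun y hy => ⟨1, ?_⟩, ⟨C, ?_⟩,
    fun y hy => (g2 y hy).imp fun C hC => hC.mono fun R hR σ hσ v hv => hR σ hσ v hv.1,
    fun σ hσ lam rg g ode b1 b2 =>
      mr σ lam g x (hx σ hσ).1 (hx σ hσ).2.2.2 rg ode (hx1 σ hσ) b1 b2⟩, xp, c0,
    fun _ _ _ => rfl, fun R σ hσ (hR : x ≤ R) G hG v hv _ => add_le_add (W_G G hG hv.1.cd 2 x0x.le)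
      (In_G hL (hx σ hσ).1 (hx1 σ hσ) (by linarith) hv.1.cd G hG)⟩
  · have := mul_le_mul_of_nonneg_left (W_lin (h.sm_P hu.1 s k σ.M σ.a σ.om σ.m).cd
      (h.sm_P hv.1 s k σ.M σ.a σ.om σ.m).cd a b 2 (show r0 ≤ 2 * R by linarith)) (c0 R)
    simp only [par, Ang.Pf, funext (h.P_lin hu.1 hv.1 a b s k σ.M σ.a σ.om σ.m)]
    linarith
  · have a1 := W_lin hu.1.cd hv.1.cd a b 2 x0x.le
    have a2 := In_lin hL (hx σ hσ).1 (p := p) (hx1 σ hσ) (show x ≤ 2 * R by linarith) hu.1.cd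
      hv.1.cd a b
    simp only [par]
    linarith
  · simpa [par] using tendsto_rpow_neg_atTop (show 0 < p - q by linarith)
  · filter_upwards [eventually_ge_atTop y, eventually_ge_atTop x] with R a1 a2 σ hσ v hv
    have a3 := W_mono (h.sm_P hv.1 s k σ.M σ.a σ.om σ.m).cd (le_refl 2) (le_refl r0) hy
      (show y ≤ 2 * R by linarith)
    simp only [par, one_mul]
    exact a3.trans (le_mul_of_one_le_left (W_nonneg _ _ (by linarith)) (c1 R))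
  · filter_upwards [eventually_ge_atTop (x + 2)] with R hR σ hσ v hv
    have a1 := g1 R hR σ hσ v hv.1
    have a2 : 0 ≤ ∫ r in x..R, den T σ v r := integral_nonneg (by linarith) fun r _ => den_nonneg r
    have a3 := WL_mono hv.1 (le_refl 2) r0x x0x.le le_rfl
    exact ⟨le_trans (show W 3 v r0 x + A.WL 2 v x0 x ≤ _ by linarith) a1, fun i y hy =>
      (row_le hT (hx σ hσ).1 (hx1 σ hσ) hy hv.1.cd i).trans (le_trans
        (le_add_of_nonneg_left (add_nonneg (W_nonneg _ _ (by linarith))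
          (WL_nonneg _ _ (by linarith)))) a1)⟩

theorem far_move {v : ℝ → S} (hv : ContDiff ℝ ∞ v) {r0 x m C D K F a b Q : ℝ} (h0 : r0 ≤ x)
    (h1 : x ≤ m) (c0 : 0 ≤ C) (D0 : 0 ≤ D) (ha : 0 ≤ a) (hb : 0 ≤ b) (hQ : a + b ≤ Q)
    (e1 : W 2 v r0 m ≤ 1 / (2 * (C + 1)) * W 3 v r0 m + D * W 0 v r0 m)
    (e2 : W 3 v r0 m ≤ C * (W 2 v r0 m + a) + b) (e3 : W 2 v r0 x ≤ K * Q)
    (e4 : W 0 v x m ≤ F * Q) : W 2 v r0 m ≤ (1 + 2 * D * (K + F)) * Q := by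
  have a9 : W 3 v r0 m ≤ (C + 1) * (W 2 v r0 m + a + b) := by
    nlinarith [W_nonneg 2 v (h0.trans h1), mul_nonneg c0 hb]
  have b3 := mul_le_mul_of_nonneg_left a9 (show 0 ≤ 1 / (2 * (C + 1)) by positivity)
  rw [← mul_assoc, show 1 / (2 * (C + 1)) * (C + 1) = 1 / 2 by field_simp] at b3
  have b6 := W_add hv 0 r0 x m
  have b7 := W_mono hv (Nat.zero_le 2) (le_refl r0) h0 le_rfl
  have b8 := mul_le_mul_of_nonneg_left (show W 0 v r0 m ≤ (K + F) * Q by linarith) D0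
  linarith

theorem fin_move {w a b i δ δ' K C : ℝ} (hδ : 0 < δ) (K1 : 1 ≤ K) (hw : 0 ≤ w) (hi : 0 ≤ i)
    (hb : 0 ≤ b) (h1 : δ' ≤ 1 / 2) (h2 : δ' ≤ δ / (4 * K)) (b1 : w ≤ δ' * (w + i) + C * b)
    (b4 : a ≤ δ / (2 * K) * i) : K * (w + a + b) ≤ δ * i + K * (2 * |C| + 1) * b := by
  have b5 := mul_le_mul_of_nonneg_right h1 hw
  have b6 := mul_le_mul_of_nonneg_right h2 hi
  have b7 := mul_le_mul_of_nonneg_right (le_abs_self C) hb
  have b8 : w + a + b ≤ δ / K * i + (2 * |C| + 1) * b := by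
    have e1 : δ / (4 * K) = δ / K / 4 := by field_simp
    have e2 : δ / (2 * K) = δ / K / 2 := by field_simp
    rw [e1] at b6
    rw [e2] at b4
    linarith
  refine (mul_le_mul_of_nonneg_left b8 (by linarith)).trans (le_of_eq ?_)
  field_simp

/-- The estimate at bounded frequencies from (G) and mode stability. -/
theorem bf_rows (h : A.Is) (gal : A.Gal) {s k : ℝ} (hT : ∀ i j, Co (T i j))
    (hL : ∀ i j, Co (L i j)) {i0 : Fin n} {w : Fr → ℝ → ℂ} (hw : Co w)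
    (w0 : ∀ z ∈ Uo, w z.1 z.2 ≠ 0) (e0 : ∀ σ (g : ℕ → ℝ → S) r, ev (T i0) σ g r = w σ r • g 0 r)
    (gr : GR A s k T L) (mr : MR A s k T) {M0 a0 r0 B p : ℝ} (ha : |a0| < M0) (h0 : M0 < r0)
    (h1 : r0 < rp M0 a0) (hp : 0 < p) : ∃ X, ∀ x, X ≤ x → ∃ ρ, 0 < ρ ∧
      (∀ σ ∈ Om M0 a0 ρ B, |σ.a| < σ.M ∧ rp σ.M σ.a < x) ∧ ∀ δ, 0 < δ →
        ∀ᶠ R in atTop, ∃ C, 0 ≤ C ∧ ∀ σ ∈ Om M0 a0 ρ B, ∀ v, A.Md σ.m v → W 2 v r0 x ≤
          δ * In L p x (2 * R) σ v + C * W 2 (A.Pf s k σ v) r0 (2 * R) := by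
  obtain ⟨q, q0, q1, qp⟩ : ∃ q, 0 < q ∧ q < 1 ∧ q < p := ⟨min p 1 / 2, by positivity,
    by linarith [min_le_right p 1], by linarith [min_le_left p 1]⟩
  obtain ⟨X, hX⟩ := gr (|B| + |k| + M0 + 1) ((r0 - M0) / 2) q (by linarith) q0 q1
  choose! C C0 hC using hX
  choose! C' C'0 hC' using hC
  refine ⟨max X (rp M0 a0 + 3), fun x hx => ?_⟩
  have xX : X ≤ x := (le_max_left _ _).trans hx
  have x3 : rp M0 a0 + 3 ≤ x := (le_max_right _ _).trans hx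
  have c0 := C0 x xX
  obtain ⟨d, d0, d1⟩ : ∃ d, 0 < d ∧ d * (8 * C x + 2) = 1 :=
    ⟨1 / (8 * C x + 2), by positivity, one_div_mul_cancel (by positivity)⟩
  have d2 : d ≤ 1 / 2 := by nlinarith [mul_nonneg d0.le c0]
  obtain ⟨ρ, ρ0, ρ1, hρ⟩ := near ha h0 h1 (half_pos d0)
  have hn := fun (σ : Fr) (hσ : σ ∈ Om M0 a0 ρ B) => hρ _ _ hσ.1 hσ.2.1
  have hx1 : ∀ σ ∈ Om M0 a0 ρ B, |σ.a| < σ.M ∧ rp σ.M σ.a < x := fun σ hσ =>
    ⟨(hn σ hσ).1, by linarith [(hn σ hσ).2.2.2.1]⟩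
  have pr : ∀ σ ∈ Om M0 a0 ρ B, ∀ y ∈ Icc r0 (rp σ.M σ.a),
      P354XN.Par (|B| + |k| + M0 + 1) ((r0 - M0) / 2) σ.M σ.a y k σ.om σ.m := fun σ hσ y hy => by
    obtain ⟨a1, a2, -⟩ := hn σ hσ
    have a3 := abs_le.1 (hσ.1.trans ρ1)
    have := abs_nonneg a0
    have := abs_nonneg B
    have := abs_nonneg k
    have := le_abs_self B
    exact ⟨(abs_nonneg _).trans_lt a1, by linarith, by linarith, by linarith,
      by linarith [hσ.2.2.1], by linarith [hσ.2.2.2.2], hσ.2.2.2.1, by linarith [hy.1],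
      De_nonpos a1 (by linarith [hy.1]) hy.2⟩
  refine ⟨ρ, ρ0, hx1, fun δ hδ => ?_⟩
  have xp : 0 < x := by linarith [rp_pos ha]
  have r0x : r0 ≤ x := by linarith
  obtain ⟨c, c1, c2, c3⟩ : ∃ c : ℝ → ℝ, (∀ R, 1 ≤ c R) ∧ (∀ R, C' x R ≤ c R) ∧
      ∀ (m : ℕ) (R : ℝ), m < R → C' m R ≤ c R := by
    have : ∀ R : ℝ, 0 ≤ ∑ i ∈ Finset.range ⌈R⌉₊, |C' i R| := fun R => by positivity
    refine ⟨fun R => 1 + |C' x R| + ∑ i ∈ Finset.range ⌈R⌉₊, |C' i R|, fun R => ?_, fun R => ?_,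
      fun m R hm => ?_⟩
    · linarith [this R, abs_nonneg (C' x R)]
    · linarith [this R, le_abs_self (C' x R)]
    · linarith [le_abs_self (C' m R), abs_nonneg (C' x R), Finset.single_le_sum
        (f := fun i : ℕ => |C' i R|) (fun _ _ => abs_nonneg _)
          (Finset.mem_range.2 (Nat.lt_ceil.2 hm))]
  have Sr0 : ∀ R σ v, x ≤ R → 0 ≤ c R * W 2 (A.Pf s k σ v) r0 (2 * R) := fun R σ v hR =>
    mul_nonneg (by linarith [c1 R]) (W_nonneg _ _ (by linarith))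
  have Ly0 : ∀ R σ (v : ℝ → S), x ≤ R → 0 ≤ In L q R (2 * R) σ v := fun R σ v hR =>
    In_nonneg (by linarith) (by linarith) σ v
  have f0 : ∀ y R σ (v : ℝ → S), y ≤ R → 0 ≤ ∫ r in y..R, den T σ v r := fun y R σ v hR =>
    integral_nonneg hR fun r _ => den_nonneg r
  have g0 : ∀ R, x + 2 ≤ R → ∀ σ ∈ Om M0 a0 ρ B, ∀ v, A.Sm v → ∀ y ∈ Icc r0 (rp σ.M σ.a),
      W 3 v y x + A.WL 2 v y x + ∫ r in x..R, den T σ v r ≤ C x * (W 2 v y x +
        In L q R (2 * R) σ v) + c R * W 2 (A.Pf s k σ v) r0 (2 * R) := fun R hR σ hσ v hv y hy => by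
    refine (hC' x xX R hR σ y (pr σ hσ y hy) (hx1 σ hσ).1 (hx1 σ hσ).2 v hv).trans
      (add_le_add le_rfl (mul_le_mul (c2 R) (W_mono (h.sm_P hv _ _ _ _ _ _).cd le_rfl hy.1
        ?_ le_rfl) (W_nonneg _ _ ?_) (by linarith [c1 R]))) <;>
      linarith [hy.2, (hx1 σ hσ).2]
  obtain ⟨N, hN⟩ := exists_nat_gt ((rp M0 a0 + 1 - r0) / d)
  rw [div_lt_iff₀ d0] at hN
  have low := fun R (hR : x + 2 ≤ R) σ hσ v (hv : A.Sm v) => low_move hv.cd (N := N) d0 c0 d1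
    (hn σ hσ).2.2.1.le (x0 := rp M0 a0 + d / 2) (by linarith [(hn σ hσ).2.2.2.2])
    (by linarith [(hn σ hσ).2.2.2.1]) (by linarith [(hn σ hσ).2.2.2.1])
    (Ly0 R σ v (by linarith)) (Sr0 R σ v (by linarith)) fun y hy => le_trans (by
      linarith [WL_nonneg (A := A) 2 v (show y ≤ x by linarith [hy.2, (hx1 σ hσ).2]),
        f0 x R σ v (by linarith)]) (g0 R hR σ hσ v hv y hy)
  have K1 : (1 : ℝ) ≤ 6 ^ (N + 1) := one_le_pow₀ (by norm_num)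
  generalize (6 : ℝ) ^ (N + 1) = K at low K1
  have x0x : rp M0 a0 + d / 2 < x := by linarith
  have g1 : ∀ R, x + 2 ≤ R → ∀ σ ∈ Om M0 a0 ρ B, ∀ v, A.Sm v → ∀ Q,
      (par A s k r0 (rp M0 a0 + d / 2) x p q (Om M0 a0 ρ B) T L c).Q R σ v = Q →
      W 3 v r0 x + A.WL 2 v r0 x + ∫ r in x..R, den T σ v r ≤ (C x * (K + 1) + 1) * Q ∧
      W 2 v r0 x ≤ K * Q ∧ In L q R (2 * R) σ v + c R * W 2 (A.Pf s k σ v) r0 (2 * R) ≤ Q :=
    fun R hR σ hσ v hv Q hQ => by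
    have a1 := g0 R hR σ hσ v hv r0 ⟨le_rfl, (hn σ hσ).2.2.1.le⟩
    have b1 := Ly0 R σ v (by linarith)
    have b2 := Sr0 R σ v (by linarith)
    have b3 := W_nonneg 2 v x0x.le
    have b4 : In L q R (2 * R) σ v ≤ R ^ (q - p) * In L p x (2 * R) σ v :=
      layer_le hL (hx1 σ hσ).1 hv.cd (hx1 σ hσ).2 (by linarith) qp.le
    have b5 := mul_nonneg (Real.rpow_nonneg (show 0 ≤ R by linarith) (q - p)) b3
    simp only [Par.Q, par] at hQ
    have a3 := (low R hR σ hσ v hv).trans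
      (mul_le_mul_of_nonneg_left (c := Q) (by linarith) (by linarith))
    have a4 := mul_le_mul_of_nonneg_left
      (show W 2 v r0 x + In L q R (2 * R) σ v ≤ (K + 1) * Q by linarith) c0
    exact ⟨by linarith, a3, by linarith⟩
  have H := hyp2 h (p := p) hT hL mr (Om_cpt M0 a0 ρ B) qp
    (fun σ hσ => ⟨(hn σ hσ).1, (hn σ hσ).2.2.1.le, (hn σ hσ).2.2.2.1, hσ.2.2.2.1⟩) x0x
    (by linarith) xp.le c1 (fun R hR σ hσ v hv => (g1 R hR σ hσ v hv _ rfl).1) fun y hy => by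
      obtain ⟨m, hm⟩ := exists_nat_ge (max x y)
      have mx : x ≤ m := (le_max_left _ _).trans hm
      have cm := C0 m (xX.trans mx)
      obtain ⟨D, D0, hD⟩ := W_intp (S := S) (show r0 < m by linarith)
        (show 0 < 1 / (2 * (C m + 1)) by positivity)
      obtain ⟨F, F0, hF⟩ := row_low (Om_cpt M0 a0 ρ B) mx hx1 hT hw w0 e0
      refine ⟨1 + 2 * D * (K + F * (C x * (K + 1) + 1)), ?_⟩
      filter_upwards [eventually_ge_atTop ((m : ℝ) + 2)] with R hR σ hσ v hv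
      obtain ⟨a1, a2, a3⟩ := g1 R (by linarith) σ hσ v hv _ rfl
      refine (W_mono hv.cd le_rfl le_rfl hy ((le_max_right _ _).trans hm)).trans
        (far_move hv.cd r0x mx cm D0 (Ly0 R σ v (by linarith)) (Sr0 R σ v (by linarith)) a3
          (hD v hv.cd) ?_ a2 ?_)
      · refine le_trans ?_ ((hC' m (xX.trans mx) R hR σ r0 (pr σ hσ r0 ⟨le_rfl,
          (hn σ hσ).2.2.1.le⟩) (hx1 σ hσ).1 ((hx1 σ hσ).2.trans_le mx) v hv).trans
          (add_le_add le_rfl (mul_le_mul_of_nonneg_right (c3 m R (by linarith))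
            (W_nonneg _ _ (by linarith)))))
        rw [add_assoc]
        exact le_add_of_nonneg_right (add_nonneg (WL_nonneg _ _ (by linarith))
          (f0 _ _ _ _ (by linarith)))
      · rw [mul_assoc]
        exact (hF σ hσ v hv.cd).trans (mul_le_mul_of_nonneg_left ((integral_mono_interval le_rfl
          mx (show (m : ℝ) ≤ R by linarith) (Eventually.of_forall den_nonneg)
          (den_ii0 hT (hx1 σ hσ).1 hv.cd (hx1 σ hσ).2 (show x ≤ R by linarith))).trans (le_trans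
          (le_add_of_nonneg_left (add_nonneg (W_nonneg _ _ r0x) (WL_nonneg _ _ r0x))) a1)) F0)
  obtain ⟨Cb, hb⟩ := Par.bf h gal H (min (1 / 2) (δ / (4 * K)))
    (lt_min (by norm_num) (by positivity))
  filter_upwards [hb, eventually_ge_atTop (x + 2),
    H.th.eventually (gt_mem_nhds (show 0 < δ / (2 * K) by positivity))] with R a1 hR a2
  refine ⟨K * (2 * |Cb| + 1) * c R, mul_nonneg (by positivity) (by linarith [c1 R]),
    fun σ hσ v hv => (low R hR σ hσ v hv.1).trans ?_⟩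
  have b2 : 0 ≤ In L p x (2 * R) σ v := In_nonneg xp.le (by linarith) σ v
  rw [mul_assoc _ (c R)]
  exact fin_move hδ K1 (W_nonneg 2 v x0x.le) b2 (Sr0 R σ v (by linarith)) (min_le_left _ _)
    (min_le_right _ _) (a1 σ hσ v hv) ((layer_le hL (hx1 σ hσ).1 hv.1.cd (hx1 σ hσ).2
      (by linarith) qp.le).trans (mul_le_mul_of_nonneg_right a2.le b2))

end Vale.Agent.P354BF
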