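import Vale.Agent.P354BF.Lim

open scoped ContDiff
open MeasureTheory Set Filter Topology intervalIntegral

namespace Vale.Agent.P354BF

variable {S : Type} [NormedAddCommGroup S] [InnerProductSpace ℂ S] {v : ℝ → S}

theorem intp1 {g g1 g2 : ℝ → S} (h0 : ∀ r, HasDerivAt g (g1 r) r) (h1 : ∀ r, HasDerivAt g1 (g2 r) r)
    (c2 : Continuous g2) (x : ℝ) {d : ℝ} (hd : 0 < d) :
    d ^ 2 * ∫ r in x..(x + 2 * d), ‖g1 r‖ ^ 2 ≤ 6 * (∫ r in x..(x + 2 * d), ‖g r‖ ^ 2) +
      48 * d ^ 4 * ∫ r in x..(x + 2 * d), ‖g2 r‖ ^ 2 := by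
  have c0 : Continuous g := continuous_iff_continuousAt.2 fun r => (h0 r).continuousAt
  have c1 : Continuous g1 := continuous_iff_continuousAt.2 fun r => (h1 r).continuousAt
  set A0 := ∫ r in x..(x + 2 * d), ‖g r‖ ^ 2 with hA0
  set A2 := ∫ r in x..(x + 2 * d), ‖g2 r‖ ^ 2 with hA2
  have pt : ∀ t ∈ Icc x (x + 2 * d), d ^ 3 * ‖g1 t‖ ^ 2 ≤ 3 * A0 + 24 * d ^ 4 * A2 := fun t ht => by
    have a : ∀ p ∈ Icc x (x + d), d ^ 2 * ‖g1 t‖ ^ 2 ≤
        3 * ‖g (p + d)‖ ^ 2 + 3 * ‖g p‖ ^ 2 + 24 * d ^ 3 * A2 := fun p hp => by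
      have b := osc (g := fun s => g s - s • g1 t) (g1 := fun s => g1 s - g1 t) (x := x)
        (y := x + 2 * d) (fun s _ => (h0 s).sub (by simpa using (hasDerivAt_id s).smul_const (g1 t)))
        (by fun_prop) (p := p + d) (q := p) ⟨by linarith [hp.1], by linarith [hp.2]⟩
        ⟨hp.1, by linarith [hp.2]⟩
      have c := integral_mono_on (μ := volume) (by linarith : x ≤ x + 2 * d)
        (f := fun s => ‖g1 s - g1 t‖ ^ 2) (g := fun _ => (x + 2 * d - x) * A2)
        (Continuous.intervalIntegrable (by fun_prop) _ _) (by simp)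
        fun s hs => osc (fun r _ => h1 r) c2.continuousOn hs ht
      simp only [intervalIntegral.integral_const, smul_eq_mul, add_sub_cancel_left] at b c
      set e := g (p + d) - (p + d) • g1 t - (g p - p • g1 t) with he
      have e1 : d • g1 t = g (p + d) - g p - e := by rw [he]; module
      have e2 : d * ‖g1 t‖ ≤ ‖g (p + d)‖ + ‖g p‖ + ‖e‖ := by
        rw [show d * ‖g1 t‖ = ‖d • g1 t‖ by rw [norm_smul, Real.norm_of_nonneg hd.le], e1]
        exact (norm_sub_le _ _).trans (add_le_add (norm_sub_le _ _) le_rfl)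
      have e3 := pow_le_pow_left₀ (by positivity) e2 2
      nlinarith [mul_le_mul_of_nonneg_left c (by linarith : 0 ≤ 2 * d),
        sq_nonneg (‖g (p + d)‖ - ‖g p‖), sq_nonneg (‖g (p + d)‖ - ‖e‖), sq_nonneg (‖g p‖ - ‖e‖)]
    have b := integral_mono_on (μ := volume) (by linarith : x ≤ x + d) (by simp)
      (Continuous.intervalIntegrable (by fun_prop) _ _) a
    rw [integral_add (Continuous.intervalIntegrable (by fun_prop) _ _) (by simp),
      integral_add (Continuous.intervalIntegrable (by fun_prop) _ _)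
        (Continuous.intervalIntegrable (by fun_prop) _ _), intervalIntegral.integral_const_mul,
      intervalIntegral.integral_const_mul,
      integral_comp_add_right (fun r => ‖g r‖ ^ 2)] at b
    have e := integral_add_adjacent_intervals (μ := volume) (a := x) (b := x + d) (c := x + 2 * d)
      (f := fun r => ‖g r‖ ^ 2) (Continuous.intervalIntegrable (by fun_prop) _ _)
      (Continuous.intervalIntegrable (by fun_prop) _ _)
    simp only [intervalIntegral.integral_const, smul_eq_mul, add_sub_cancel_left,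
      intervalIntegral.integral_const_mul, show x + d + d = x + 2 * d by ring] at b
    beta_reduce at e
    rw [← hA0] at e
    linarith
  have b := integral_mono_on (μ := volume) (by linarith : x ≤ x + 2 * d)
    (Continuous.intervalIntegrable (by fun_prop) _ _) (by simp) pt
  simp only [intervalIntegral.integral_const, smul_eq_mul, add_sub_cancel_left,
    intervalIntegral.integral_const_mul] at b
  refine le_of_mul_le_mul_left ?_ hd
  nlinarith

theorem intp2 {x y ε : ℝ} (hxy : x < y) (hε : 0 < ε) : ∃ D, 0 ≤ D ∧ ∀ v : ℝ → S,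
    ContDiff ℝ ∞ v → ∀ j, ∫ r in x..y, ‖iteratedDeriv (j + 1) v r‖ ^ 2 ≤
      ε * (∫ r in x..y, ‖iteratedDeriv (j + 2) v r‖ ^ 2) +
        D * ∫ r in x..y, ‖iteratedDeriv j v r‖ ^ 2 := by
  obtain ⟨n, hn⟩ := exists_nat_gt (max 1 (12 * (y - x) ^ 2 / ε))
  have n1 : (1 : ℝ) < n := (le_max_left _ _).trans_lt hn
  set d := (y - x) / (2 * n) with hd
  have d0 : 0 < d := div_pos (by linarith) (by linarith)
  have e : x + n * (2 * d) = y := by rw [hd]; field_simp; ring
  have hs : 48 * d ^ 2 ≤ ε := by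
    have h1 := (le_max_right _ _).trans_lt hn
    rw [div_lt_iff₀ hε] at h1
    rw [hd, div_pow, ← mul_div_assoc, div_le_iff₀ (by positivity)]
    nlinarith [mul_pos hε (show (0 : ℝ) < n by linarith)]
  refine ⟨6 / d ^ 2, by positivity, fun v hv j => ?_⟩
  have ad : ∀ i a b c, (∫ r in a..b, ‖iteratedDeriv i v r‖ ^ 2) +
      ∫ r in b..c, ‖iteratedDeriv i v r‖ ^ 2 = ∫ r in a..c, ‖iteratedDeriv i v r‖ ^ 2 :=
    fun i a b c => integral_add_adjacent_intervals
      (((iter_cont hv i).norm.pow 2).intervalIntegrable _ _)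
      (((iter_cont hv i).norm.pow 2).intervalIntegrable _ _)
  have key : ∀ n : ℕ, d ^ 2 * ∫ r in x..(x + n * (2 * d)), ‖iteratedDeriv (j + 1) v r‖ ^ 2 ≤
      6 * (∫ r in x..(x + n * (2 * d)), ‖iteratedDeriv j v r‖ ^ 2) +
        48 * d ^ 4 * ∫ r in x..(x + n * (2 * d)), ‖iteratedDeriv (j + 2) v r‖ ^ 2 := fun n => by
    induction n with
    | zero => simp
    | succ n ih =>
      have := intp1 (iter_has hv j) (iter_has hv (j + 1)) (iter_cont hv _) (x + n * (2 * d)) d0
      rw [show x + ((n + 1 : ℕ) : ℝ) * (2 * d) = x + n * (2 * d) + 2 * d by push_cast; ring,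
        ← ad (j + 1) x (x + n * (2 * d)), ← ad j x (x + n * (2 * d)),
        ← ad (j + 2) x (x + n * (2 * d))]
      linarith
  have k := key n
  rw [e] at k
  have p := int_nonneg (iteratedDeriv (j + 2) v) hxy.le
  refine le_of_mul_le_mul_left ?_ (pow_pos d0 2)
  rw [mul_add, ← mul_assoc (d ^ 2) (6 / d ^ 2), mul_div_cancel₀ _ (pow_pos d0 2).ne']
  nlinarith [mul_le_mul_of_nonneg_right hs (mul_nonneg (pow_pos d0 2).le p)]

/-- Interpolation between the orders zero and three. -/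
theorem W_intp {x y ε : ℝ} (hxy : x < y) (hε : 0 < ε) : ∃ D, 0 ≤ D ∧ ∀ v : ℝ → S,
    ContDiff ℝ ∞ v → W 2 v x y ≤ ε * W 3 v x y + D * W 0 v x y := by
  obtain ⟨D, D0, hD⟩ := intp2 (S := S) hxy (half_pos (half_pos hε))
  obtain ⟨E, E0, hE⟩ := intp2 (S := S) hxy (show 0 < 1 / (2 * (D + 1)) by positivity)
  refine ⟨1 + 4 * (D + 1) * E, by positivity, fun v hv => ?_⟩
  have a := hD v hv 1
  have b := hE v hv 0
  have p0 := int_nonneg (iteratedDeriv 0 v) hxy.le
  have p1 := int_nonneg (iteratedDeriv 1 v) hxy.le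
  have p2 := int_nonneg (iteratedDeriv 2 v) hxy.le
  have p3 := int_nonneg (iteratedDeriv 3 v) hxy.le
  simp only [W, Finset.sum_range_succ, Finset.sum_range_zero, zero_add] at a b ⊢
  have c := mul_le_mul_of_nonneg_left b (by positivity : 0 ≤ 2 * (D + 1))
  rw [mul_add (2 * (D + 1)), ← mul_assoc, mul_one_div_cancel (by positivity : 2 * (D + 1) ≠ 0),
    one_mul] at c
  norm_num only at a
  nlinarith [mul_nonneg hε.le p0, mul_nonneg hε.le p1, mul_nonneg hε.le p2, mul_nonneg hε.le p3,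
    mul_nonneg D0 p1, mul_nonneg E0 p0, mul_nonneg (mul_nonneg D0 E0) p0]

theorem De_nonpos {M a r : ℝ} (ha : |a| < M) (h1 : M ≤ r) (h2 : r ≤ rp M a) : De M a r ≤ 0 := by
  have h : 0 ≤ M ^ 2 - a ^ 2 := by nlinarith [sq_abs a, abs_nonneg a]
  have h3 := Real.sq_sqrt h
  unfold rp at h2
  unfold De
  nlinarith

theorem rp_pos {M a : ℝ} (ha : |a| < M) : 0 < rp M a := by
  unfold rp
  linarith [abs_nonneg a, Real.sqrt_nonneg (M ^ 2 - a ^ 2)]

/-- Steps of length d from the inner radius to the horizon. -/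
theorem steps {w : ℝ → ℝ} {r0 r1 d Z : ℝ} (hd : 0 ≤ d) (hZ : 0 ≤ Z)
    (an : ∀ x y, r0 ≤ x → x ≤ y → y ≤ r1 + d → w y ≤ w x)
    (st : ∀ x ∈ Icc r0 r1, w x ≤ 4 * w (x + d) + 2 * Z) (h1 : w (r1 + d) ≤ Z) (N : ℕ) :
    ∀ x ∈ Icc r0 r1, r1 ≤ x + N * d → w x ≤ 6 ^ (N + 1) * Z := by
  induction N with
  | zero =>
    intro x hx h
    have e : x = r1 := le_antisymm hx.2 (by simpa using h)
    have := st x hx
    rw [e] at this ⊢
    norm_num
    linarith
  | succ N ih =>
    intro x hx h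
    have a := ih (min (x + d) r1) ⟨le_min (by linarith [hx.1]) (hx.1.trans hx.2), min_le_right _ _⟩
      (by
        push_cast at h
        rcases min_cases (x + d) r1 with e | e <;> rw [e.1]
        · linarith
        · exact le_add_of_nonneg_right (by positivity))
    have b := an (min (x + d) r1) (x + d) (le_min (by linarith [hx.1]) (hx.1.trans hx.2))
      (min_le_left _ _) (by linarith [hx.2])
    have c : Z ≤ 6 ^ (N + 1) * Z := le_mul_of_one_le_left hZ (one_le_pow₀ (by norm_num))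
    rw [pow_succ]
    linarith [st x hx]

end Vale.Agent.P354BF
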