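import Vale.Agent.P354BF.Scal
import Vale.Agent.P354BF.Fin

open scoped ContDiff InnerProductSpace
open MeasureTheory Set Filter Topology intervalIntegral
open Complex (I)

namespace Vale.Agent.P354BF

namespace Cv

variable {x0 : ℝ} {F F' : ℕ → ℝ → ℂ} {G G' : ℝ → ℂ}

theorem add (h : Cv x0 F G) (h' : Cv x0 F' G') :
    Cv x0 (fun n r => F n r + F' n r) fun r => G r + G' r :=
  ⟨h.1.add h'.1, fun x y hx hy => (h.2 x y hx hy).add (h'.2 x y hx hy)⟩

theorem mul (h : Cv x0 F G) (h' : Cv x0 F' G') :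
    Cv x0 (fun n r => F n r * F' n r) fun r => G r * G' r :=
  ⟨h.1.mul h'.1, fun x y hx hy =>
    have s : Icc x y ⊆ Ioi x0 := fun _ hr => hx.trans_le hr.1
    mul_unif (h.2 x y hx hy) (h.1.mono s) (h'.2 x y hx hy) (h'.1.mono s)⟩

theorem coef {X : Type} [PseudoMetricSpace X] {p : X → ℝ → ℂ} {om : ℕ → X} {o : X}
    (hp : ∀ r, x0 < r → ContinuousAt (fun z : X × ℝ => p z.1 z.2) (o, r))
    (ho : Tendsto om atTop (𝓝 o)) : Cv x0 (fun n => p (om n)) (p o) :=
  ⟨fun r hr => ((hp r hr).comp (f := fun r => (o, r)) (by fun_prop)).continuousWithinAt,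
    fun _ _ hx _ => coef_unif (fun r hr => hp r (hx.trans_le hr.1)) ho⟩

theorem congr (h : Cv x0 F G) (e : ∀ x, x0 < x → ∀ᶠ n in atTop, ∀ r, x ≤ r → F n r = F' n r) :
    Cv x0 F' G :=
  ⟨h.1, fun x y hx hy => (h.2 x y hx hy).congr ((e x hx).mono fun _ hn r hr => hn r hr.1)⟩

theorem zero : Cv x0 (fun _ _ => 0) fun _ => 0 :=
  ⟨continuousOn_const, fun _ _ _ _ => tlu_congr fun _ h => Eventually.of_forall fun _ _ _ => by
    simpa using h⟩

theorem sum {ι : Type} (t : Finset ι) {F : ι → ℕ → ℝ → ℂ} {G : ι → ℝ → ℂ}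
    (h : ∀ i, Cv x0 (F i) (G i)) : Cv x0 (fun n r => ∑ i ∈ t, F i n r) fun r => ∑ i ∈ t, G i r := by
  classical
  induction t using Finset.induction_on with
  | empty => simpa using zero
  | insert i t hi ih => simpa only [Finset.sum_insert hi] using (h i).add ih

theorem pt (h : Cv x0 F G) {r : ℝ} (hr : x0 < r) : Tendsto (fun n => F n r) atTop (𝓝 (G r)) :=
  (h.2 r (r + 1) hr (by linarith)).tendsto_at ⟨le_rfl, by linarith⟩

theorem has (h : Cv x0 F G) (h' : Cv x0 F' G') (d : ∀ n r, HasDerivAt (F n) (F' n r) r) {r : ℝ}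
    (hr : x0 < r) : HasDerivAt G (G' r) r :=
  hasDerivAt_of_tendstoUniformlyOn (s := Ioo ((x0 + r) / 2) (r + 1)) isOpen_Ioo
    ((h'.2 _ _ (by linarith) (by linarith)).mono Ioo_subset_Icc_self)
    (Eventually.of_forall fun n x _ => d n x) (fun x hx => h.pt (by linarith [hx.1]))
    ⟨by linarith, by linarith⟩

theorem conj (h : Cv x0 F G) :
    Cv x0 (fun n r => (starRingEnd ℂ) (F n r)) fun r => (starRingEnd ℂ) (G r) :=
  ⟨Complex.continuous_conj.comp_continuousOn h.1, fun x y hx hy => tlu_congr fun ε hε => by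
    filter_upwards [Metric.tendstoUniformlyOn_iff.1 (h.2 x y hx hy) ε hε] with n hn r hr
    rw [Complex.dist_conj_conj]
    exact hn r hr⟩

/-- Convergence of the norms in L2. -/
theorem int (h : Cv x0 F G) {x y : ℝ} (c : ∀ n, ContinuousOn (F n) (Icc x y)) (hx : x0 < x)
    (hy : x < y) :
    Tendsto (fun n => ∫ r in x..y, ‖F n r‖ ^ 2) atTop (𝓝 (∫ r in x..y, ‖G r‖ ^ 2)) := by
  have u := Complex.reCLM.uniformContinuous.comp_tendstoUniformlyOn ((h.mul h.conj).2 x y hx hy)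
  have e : ∀ z : ℂ, Complex.reCLM (z * (starRingEnd ℂ) z) = ‖z‖ ^ 2 := fun z => by
    rw [Complex.mul_conj, Complex.normSq_eq_norm_sq, Complex.reCLM_apply, Complex.ofReal_re]
  simp only [Function.comp_def, e] at u
  rw [← uIcc_of_le hy.le] at u c
  exact u.tendsto_intervalIntegral_of_continuousOn
    (Eventually.of_forall fun n => (c n).norm.pow 2)

end Cv

variable {S : Type} [NormedAddCommGroup S] [InnerProductSpace ℂ S] {A : Ang S}

theorem De_pos {M a r : ℝ} (ha : |a| < M) (hr : rp M a < r) : 0 < De M a r := by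
  have h : 0 ≤ M ^ 2 - a ^ 2 := by nlinarith [sq_abs a, abs_nonneg a]
  have h1 := Real.sq_sqrt h
  have h2 := Real.sqrt_nonneg (M ^ 2 - a ^ 2)
  unfold rp at hr
  unfold De
  nlinarith

/-- The radial equation on (r+, oo) with the eigenvalue lam. -/
def Ode (s M a : ℝ) (om : ℂ) (m : ℝ) (lam : ℂ) (g : ℕ → ℝ → ℂ) : Prop :=
  ∀ r, rp M a < r → (∀ j < 3, HasDerivAt (g j) (g (j + 1) r) r) ∧
    (De M a r : ℂ) * g 2 r + (((1 - s) * (2 * r - 2 * M) : ℝ) - 2 * I * Kf a om m r) * g 1 r -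
      (2 * I * om * r * (1 - 2 * s : ℝ) - (s ^ 2 - s : ℝ) + lam) * g 0 r = 0

theorem iter_two (v : ℝ → S) : iteratedDeriv 2 v = deriv (deriv v) := by
  rw [iteratedDeriv_succ, iteratedDeriv_one]

theorem l_has (l : S →L[ℂ] ℂ) {v : ℝ → S} (hv : ContDiff ℝ ∞ v) (j : ℕ) (r : ℝ) :
    HasDerivAt (fun r => l (iteratedDeriv j v r)) (l (iteratedDeriv (j + 1) v r)) r :=
  (l.restrictScalars ℝ).hasFDerivAt.comp_hasDerivAt r (iter_has hv j r)

theorem l_int (l : S →L[ℂ] ℂ) {v : ℝ → S} (hv : Continuous v) {x y : ℝ} (h : x ≤ y) :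
    ∫ r in x..y, ‖l (v r)‖ ^ 2 ≤ ‖l‖ ^ 2 * ∫ r in x..y, ‖v r‖ ^ 2 := by
  rw [← intervalIntegral.integral_const_mul]
  refine integral_mono_on h (((l.continuous.comp hv).norm.pow 2).intervalIntegrable _ _)
    (Continuous.intervalIntegrable (by fun_prop) _ _) fun r _ => ?_
  rw [← mul_pow]
  exact pow_le_pow_left₀ (norm_nonneg _) (l.le_opNorm _) 2

theorem cv_zero (l : S →L[ℂ] ℂ) {v : ℕ → ℝ → S} (hv : ∀ n, ContDiff ℝ ∞ (v n)) {r0 x0 : ℝ}
    (h0 : r0 ≤ x0) (h : ∀ y, r0 ≤ y → Tendsto (fun n => W 2 (v n) r0 y) atTop (𝓝 0)) {j : ℕ}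
    (hj : j < 2) : Cv x0 (fun n r => l (iteratedDeriv j (v n) r)) fun _ => 0 := by
  refine ⟨continuousOn_const, fun x y hx hy => ?_⟩
  have k : ∀ i ≤ 2, Tendsto (fun n => ∫ r in x..y, ‖l (iteratedDeriv i (v n) r)‖ ^ 2) atTop
      (𝓝 0) := fun i hi => by
    have := (h y (by linarith)).const_mul (‖l‖ ^ 2)
    rw [mul_zero] at this
    refine squeeze_zero (fun n => int_nonneg _ hy.le) (fun n => ?_) this
    exact (l_int l (iter_cont (hv n) i) hy.le).trans (mul_le_mul_of_nonneg_left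
      ((le_W hi _ hy.le).trans (W_mono (hv n) le_rfl (by linarith) hy.le le_rfl)) (sq_nonneg _))
  exact unif_of_h1 hy (fun n r _ => l_has l (hv n) j r)
    (fun n => (l.continuous.comp (iter_cont (hv n) _)).continuousOn) (k j hj.le) (k _ hj)

/-- The parameters (M, a, om, m). -/
abbrev Fr := ℝ × ℝ × ℂ × ℝ

abbrev Fr.M (σ : Fr) : ℝ := σ.1
abbrev Fr.a (σ : Fr) : ℝ := σ.2.1
abbrev Fr.om (σ : Fr) : ℂ := σ.2.2.1
abbrev Fr.m (σ : Fr) : ℝ := σ.2.2.2

/-- Approximate eigenfunctions which are approximate solutions converge to a solution of the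
radial equation. -/
theorem scal_lim (h : A.Is) {s k r0 r1 : ℝ} {σ : ℕ → Fr} {o : Fr} {lam : ℂ}
    (ha : ∀ n, |(σ n).a| < (σ n).M) (ha' : |o.a| < o.M) (h0 : r0 ≤ rp o.M o.a)
    (h1 : rp o.M o.a < r1) (ho : Tendsto σ atTop (𝓝 o)) {z : ℕ → ℝ → S} (hz : ∀ n, A.Sm (z n))
    (hy : ∀ y, r0 ≤ y → Tendsto (fun n => W 2 (fun r =>
      A.lop k (σ n).a (σ n).om (σ n).m (z n r) - lam • z n r) r0 y) atTop (𝓝 0))
    (hP : ∀ y, r0 ≤ y → Tendsto
      (fun n => W 2 (A.P s k (σ n).M (σ n).a (σ n).om (σ n).m (z n)) r0 y) atTop (𝓝 0))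
    (l : S →L[ℂ] ℂ) {α β : ℂ} (hα : Tendsto (fun n => l (iteratedDeriv 0 (z n) r1)) atTop (𝓝 α))
    (hβ : Tendsto (fun n => l (iteratedDeriv 1 (z n) r1)) atTop (𝓝 β)) :
    ∃ g : ℕ → ℝ → ℂ, Ode s o.M o.a o.om o.m lam g ∧
      ∀ j ≤ 3, Cv (rp o.M o.a) (fun n r => l (iteratedDeriv j (z n) r)) (g j) := by
  set f : ℕ → ℕ → ℝ → ℂ := fun j n r => l (iteratedDeriv j (z n) r) with hf
  set Y : ℕ → ℝ → S := fun n r => A.lop k (σ n).a (σ n).om (σ n).m (z n r) - lam • z n r with hY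
  have sY : ∀ n, A.Sm (Y n) := fun n => (h.sm_lop (hz n) k _ _ _).sub ((hz n).cmul lam)
  have sP : ∀ n, A.Sm (A.P s k (σ n).M (σ n).a (σ n).om (σ n).m (z n)) := fun n =>
    h.sm_P (hz n) _ _ _ _ _ _
  set G : ℕ → ℕ → ℝ → ℂ := fun j n r =>
    l (iteratedDeriv j (A.P s k (σ n).M (σ n).a (σ n).om (σ n).m (z n)) r) +
      l (iteratedDeriv j (Y n) r) with hG
  have cG : ∀ j < 2, Cv (rp o.M o.a) (G j) fun _ => 0 + 0 := fun j hj =>
    (cv_zero l (fun n => (sP n).cd) h0 hP hj).add (cv_zero l (fun n => (sY n).cd) h0 hy hj)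
  set c1 : Fr → ℝ → ℂ := fun w r =>
    ((1 - s) * (2 * r - 2 * w.M) : ℝ) - 2 * I * Kf w.a w.om w.m r with hc1
  set c0 : Fr → ℝ → ℂ := fun w r =>
    2 * I * w.om * r * (1 - 2 * s : ℝ) - (s ^ 2 - s : ℝ) + lam with hc0
  set D : Fr → ℝ → ℂ := fun w r => (De w.M w.a r : ℂ) with hD
  have D0 : ∀ (w : Fr) r, |w.a| < w.M → rp w.M w.a < r → D w r ≠ 0 := fun w r hw hr => by
    simpa [hD] using (De_pos hw hr).ne'
  have ev : ∀ x, rp o.M o.a < x → ∀ᶠ n in atTop, ∀ r, x ≤ r → D (σ n) r ≠ 0 := fun x hx => by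
    have c : Continuous fun w : Fr => rp w.M w.a := by unfold rp; fun_prop
    filter_upwards [((c.tendsto o).comp ho).eventually (gt_mem_nhds hx)] with n hn r hr
    exact D0 _ r (ha n) (lt_of_lt_of_le hn hr)
  have df : ∀ j n r, HasDerivAt (f j n) (f (j + 1) n r) r := fun j n r => l_has l (hz n).cd j r
  have e0 : ∀ n r, D (σ n) r * f 2 n r + c1 (σ n) r * f 1 n r - c0 (σ n) r * f 0 n r = G 0 n r :=
    fun n r => by
      simp only [hG, hf, hY, hc1, hc0, hD, Ang.P, iteratedDeriv_zero, iteratedDeriv_one,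
        iter_two, map_add, map_sub, map_smul, smul_eq_mul]
      ring
  have re : ∀ r : ℝ, HasDerivAt (fun r : ℝ => (r : ℂ)) 1 r := fun r => Complex.ofRealCLM.hasDerivAt
  set d1 : Fr → ℝ → ℂ := fun w r => (1 - s) * 2 - 2 * I * (w.om * (2 * r)) with hd1
  set d0 : Fr → ℝ → ℂ := fun w _ => 2 * I * w.om * (1 - 2 * s : ℝ) with hd0
  have e1 : ∀ n r, D (σ n) r * f 3 n r + (2 * r - 2 * (σ n).M + c1 (σ n) r) * f 2 n r +
      (d1 (σ n) r - c0 (σ n) r) * f 1 n r - d0 (σ n) r * f 0 n r = G 1 n r := fun n r => by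
    have a1 : HasDerivAt (D (σ n)) (2 * r - 2 * (σ n).M) r := by
      simp only [hD, De]
      push_cast
      exact ((((re r).pow 2).sub ((re r).const_mul (2 * (σ n).M : ℂ))).add_const
        (((σ n).a : ℂ) ^ 2)).congr_deriv (by simp)
    have a2 : HasDerivAt (c1 (σ n)) (d1 (σ n) r) r := by
      simp only [hc1, hd1, Kf]
      push_cast
      exact (((((re r).const_mul 2).sub_const (2 * (σ n).M : ℂ)).const_mul (1 - s : ℂ)).sub
        (((((re r).pow 2).add_const (((σ n).a : ℂ) ^ 2)).const_mul (σ n).om).sub_const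
          ((σ n).a * (σ n).m : ℂ) |>.const_mul (2 * I))).congr_deriv (by simp)
    have a3 : HasDerivAt (c0 (σ n)) (d0 (σ n) r) r := by
      simp only [hc0, hd0]
      exact (((((re r).const_mul (2 * I * (σ n).om)).mul_const ((1 - 2 * s : ℝ) : ℂ)).sub_const
        ((s ^ 2 - s : ℝ) : ℂ)).add_const lam).congr_deriv (by simp)
    have b1 := ((a1.mul (df 2 n r)).add (a2.mul (df 1 n r))).sub (a3.mul (df 0 n r))
    have b2 : HasDerivAt (G 0 n) (G 1 n r) r := (l_has l (sP n).cd 0 r).add (l_has l (sY n).cd 0 r)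
    rw [← funext (e0 n)] at b2
    have := b1.unique b2
    rw [← this]; ring
  have cD : ∀ r, rp o.M o.a < r → ContinuousAt (fun z : Fr × ℝ => (D z.1 z.2)⁻¹) (o, r) :=
    fun r hr => ContinuousAt.inv₀ (by simp only [hD, De]; fun_prop) (D0 o r ha' hr)
  have k1 : Continuous fun z : Fr × ℝ => c1 z.1 z.2 := by simp only [hc1, Kf]; fun_prop
  have k0 : Continuous fun z : Fr × ℝ => c0 z.1 z.2 := by simp only [hc0]; fun_prop
  have k3 : Continuous fun z : Fr × ℝ => d1 z.1 z.2 := by simp only [hd1]; fun_prop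
  have k2 : Continuous fun z : Fr × ℝ => d0 z.1 z.2 := by simp only [hd0]; fun_prop
  have vD := Cv.coef (p := fun w r => (D w r)⁻¹) cD ho
  have cp := Cv.coef (p := fun w r => -c1 w r * (D w r)⁻¹)
    (fun r hr => k1.neg.continuousAt.mul (cD r hr)) ho
  have cq := Cv.coef (p := fun w r => c0 w r * (D w r)⁻¹)
    (fun r hr => k0.continuousAt.mul (cD r hr)) ho
  have ce := (cG 0 (by norm_num)).mul vD
  simp only [add_zero, zero_mul] at ce
  replace ce := ce.congr (F' := fun n r => f 2 n r - (-c1 (σ n) r * (D (σ n) r)⁻¹ * f 1 n r +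
    c0 (σ n) r * (D (σ n) r)⁻¹ * f 0 n r)) fun x hx => (ev x hx).mono fun n hn r hr => by
      have := hn r hr
      rw [← e0]; field_simp; ring
  obtain ⟨g0, g1, hg, hc⟩ := ode_lim h1 cp cq (f := f 0) (f1 := f 1) (fun n r _ => df 0 n r)
    (fun n r _ => (df 1 n r).congr_deriv (by rw [add_sub_cancel])) ce.2 hα hβ
  have v0 : Cv (rp o.M o.a) (f 0) g0 := ⟨fun r hr => (hg r hr).1.continuousAt.continuousWithinAt,
    fun x y hx hy => (hc x y hx hy).1⟩
  have v1 : Cv (rp o.M o.a) (f 1) g1 := ⟨fun r hr => (hg r hr).2.continuousAt.continuousWithinAt,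
    fun x y hx hy => (hc x y hx hy).2⟩
  have v2 := (((cp.mul v1).add (cq.mul v0)).add ce).congr (F' := f 2)
    fun x _ => Eventually.of_forall fun n r _ => by rw [add_sub_cancel]
  have v3 := (((((cG 1 (by norm_num)).add ((Cv.coef (p := fun w r => -(2 * r - 2 * w.M + c1 w r))
    (fun _ _ => Continuous.continuousAt (by fun_prop)) ho).mul v2)).add
    ((Cv.coef (p := fun w r => -(d1 w r - c0 w r))
      (fun _ _ => (k3.sub k0).neg.continuousAt) ho).mul v1)).add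
    ((Cv.coef (p := d0) (fun _ _ => k2.continuousAt) ho).mul v0)).mul vD).congr (F' := f 3)
    fun x hx => (ev x hx).mono fun n hn r hr => by
      have := hn r hr
      rw [← e1]; field_simp; ring
  obtain ⟨g2, v2, o2⟩ : ∃ g2, Cv (rp o.M o.a) (f 2) g2 ∧ ∀ r, rp o.M o.a < r →
      D o r * g2 r + c1 o r * g1 r - c0 o r * g0 r = 0 := ⟨_, v2, fun r hr => by
    have := D0 o r ha' hr
    field_simp; ring⟩
  obtain ⟨g3, v3⟩ : ∃ g3, Cv (rp o.M o.a) (f 3) g3 := ⟨_, v3⟩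
  refine ⟨fun j => match j with | 0 => g0 | 1 => g1 | 2 => g2 | _ => g3,
    fun r hr => ⟨fun j hj => ?_, o2 r hr⟩, fun j hj => ?_⟩
  · interval_cases j
    exacts [v0.has v1 (df 0) hr, v1.has v2 (df 1) hr, v2.has v3 (df 2) hr]
  · interval_cases j
    exacts [v0, v1, v2, v3]

end Vale.Agent.P354BF
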