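import Vale.Agent.P354BF.Lim
import Vale.Agent.P354BF.Gen
import Vale.Agent.P354XN.Defs

/-!
Mode stability in the form which is used at bounded frequencies, and the estimates BFP, BFM.
-/

open scoped ComplexConjugate
open Set Filter
open Vale.Agent.P354XN

namespace Vale.Agent.P354BF

/-- The sign conditions on the eigenvalue of the spheroidal operator. -/
def Sg (a : ℝ) (om lam : ℂ) : Prop :=
  (conj om * (lam - 4)).im ≤ a ^ 2 * Complex.normSq om * om.im ∧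
    (om = 0 → lam.im = 0 ∧ 6 ≤ lam.re)

/-- Mode stability for the spin 2. -/
def MSP : Prop := ∀ (M a : ℝ) (om : ℂ) (m : ℝ) (lam : ℂ) (g : ℕ → ℝ → ℂ) (x : ℝ), |a| < M →
  0 ≤ om.im → Sg a om lam → Ode 2 M a om m lam g → rp M a < x →
  (∃ C, ∀ y ∈ Ioo (rp M a) x, ∫ r in y..x, ‖g 3 r‖ ^ 2 ≤ C) →
  (∃ C, ∀ y, x < y → ∫ r in x..y, fp (g 0) r ≤ C) → ∀ r, rp M a < r → g 0 r = 0

/-- Mode stability for the spin -2. -/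
def MSM : Prop := ∀ (M a : ℝ) (om : ℂ) (m : ℝ) (lam : ℂ) (g : ℕ → ℝ → ℂ) (x : ℝ), |a| < M →
  0 ≤ om.im → Sg a om lam → Ode (-2) M a om m lam g → rp M a < x →
  (∃ C, ∀ y ∈ Ioo (rp M a) x, ∫ r in y..x, ‖g 3 r‖ ^ 2 ≤ C) →
  (∃ C, ∀ y, x < y → ∫ r in x..y, fm M a om m (g 0) r ≤ C) → ∀ r, rp M a < r → g 0 r = 0

/-- The estimate at bounded frequencies for the spin 2. -/
def BFP : Prop := ∀ (S : Type) [NormedAddCommGroup S] [InnerProductSpace ℂ S] (A : Ang S),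
  A.Is → A.Gal → |A.s| = 2 → ∀ M0 a0 r0 k B p : ℝ, |a0| < M0 → M0 < r0 → r0 < rp M0 a0 → 0 < p →
  ∃ X, ∀ x, X ≤ x → ∃ ρ, 0 < ρ ∧ ∀ δ, 0 < δ → ∀ᶠ R in atTop, ∃ C, 0 ≤ C ∧
    ∀ (M a : ℝ) (om : ℂ) (m : ℝ), |M - M0| ≤ ρ → |a - a0| ≤ ρ → ‖om‖ ≤ B → 0 ≤ om.im → |m| ≤ B →
      ∀ v, A.Md m v → W 2 v r0 x ≤ δ * (∫ r in x..2 * R, lp p M a om m v r) +
        C * W 2 (A.P 2 k M a om m v) r0 (2 * R)

/-- The estimate at bounded frequencies for the spin -2. -/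
def BFM : Prop := ∀ (S : Type) [NormedAddCommGroup S] [InnerProductSpace ℂ S] (A : Ang S),
  A.Is → A.Gal → |A.s| = 2 → ∀ M0 a0 r0 k B p : ℝ, |a0| < M0 → M0 < r0 → r0 < rp M0 a0 → 0 < p →
  ∃ X, ∀ x, X ≤ x → ∃ ρ, 0 < ρ ∧ ∀ δ, 0 < δ → ∀ᶠ R in atTop, ∃ C, 0 ≤ C ∧
    ∀ (M a : ℝ) (om : ℂ) (m : ℝ), |M - M0| ≤ ρ → |a - a0| ≤ ρ → ‖om‖ ≤ B → 0 ≤ om.im → |m| ≤ B →
      ∀ v, A.Md m v → W 2 v r0 x ≤ δ * (∫ r in x..2 * R, lm p M a om m v r) +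
        C * W 2 (A.P (-2) k M a om m v) r0 (2 * R)

end Vale.Agent.P354BF
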