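import Vale.Agent.P354BF.Inst2
import Vale.Agent.P354BF.Ms
import Vale.Agent.P354MS.Main

open scoped ContDiff
open MeasureTheory Set Filter Topology intervalIntegral
open Complex (I)
open Vale.Agent.P354XN

namespace Vale.Agent.P354BF

variable {S : Type} [NormedAddCommGroup S] [InnerProductSpace ℂ S] {A : Ang S}

theorem int_congr {f g : ℝ → ℝ} {x0 x y : ℝ} (hx : x0 < x) (hy : x ≤ y)
    (h : ∀ r, x0 < r → f r = g r) : ∫ r in x..y, f r = ∫ r in x..y, g r :=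
  integral_congr fun r hr => h r (hx.trans_le ((uIcc_of_le hy ▸ hr : r ∈ Icc x y).1))

theorem freq_rows {n : ℕ} {T : Fin n → Row} (hT : ∀ i j, Co (T i j)) {σ : Fr} (ha : |σ.a| < σ.M)
    {g : ℕ → ℝ → ℂ} (hg : ∀ r, rp σ.M σ.a < r → ∀ j < 4, ContinuousAt (g j) r) {x : ℝ}
    (hx : rp σ.M σ.a < x) (hb : ∀ i, ∃ C, ∀ y, x < y → ∫ r in x..y, ‖ev (T i) σ g r‖ ^ 2 ≤ C)
    (δ : ℝ) (hδ : 0 < δ) : ∃ᶠ r in atTop, r * ∑ i, ‖ev (T i) σ g r‖ ^ 2 ≤ δ := by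
  choose C hC using hb
  have x0 := (rp_pos ha).trans hx
  have c : ∀ i, ContinuousOn (ev (T i) σ g) (Ici x) := fun i r hr =>
    (ev_cont ha (hx.trans_le hr) (hg r (hx.trans_le hr)) (hT i)).continuousWithinAt
  refine P354MS.freq_of_int (N := fun r => r * ∑ i, ‖ev (T i) σ g r‖ ^ 2) (C := ∑ i, C i) x0 (continuousOn_id.mul
    (continuousOn_finsetSum _ fun i _ => (c i).norm.pow 2)) (fun y hy => ?_)
    (fun r hr => mul_nonneg (x0.le.trans hr) (by positivity)) δ hδ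
  rw [int_congr x0 hy.le (g := fun r => ∑ i, ‖ev (T i) σ g r‖ ^ 2)
    fun r hr => mul_div_cancel_left₀ _ hr.ne',
    integral_finsetSum fun i _ => ii_sq hy.le ((c i).mono Icc_subset_Ici_self)]
  exact Finset.sum_le_sum fun i _ => hC i y hy

theorem ode_ca {s M a m : ℝ} {om lam : ℂ} {g : ℕ → ℝ → ℂ} (ha : |a| < M)
    (h : Ode s M a om m lam g) (r : ℝ) (hr : rp M a < r) : ∀ j < 4, ContinuousAt (g j) r :=
  fun j hj => by
    rcases Nat.lt_succ_iff_lt_or_eq.1 hj with e | rfl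
    · exact ((h r hr).1 j e).continuousAt
    · exact P354MS.ode_cont (sq_lt_sq' (abs_lt.1 ha).1 (abs_lt.1 ha).2) h r hr

theorem mr_plus (hs : |A.s| = 2) (k : ℝ) : MR A 2 k Tp := by
  intro σ lam g x ha h0 rg ode hx ⟨C, hC⟩ hb
  refine P354MS.e8_plus ((abs_nonneg _).trans_lt ha) (sq_lt_sq' (abs_lt.1 ha).1 (abs_lt.1 ha).2)
    h0 (P354MS.sgn_of_rng hs h0 rg) ode hx hC fun δ hδ => ?_
  refine ((freq_rows co_Tp ha (ode_ca ha ode) hx hb δ hδ).and_eventually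
    (eventually_gt_atTop (rp σ.M σ.a))).mono fun r hr => le_of_eq_of_le ?_ hr.1
  have r0 := (rp_pos ha).trans hr.2
  rw [← fp_eq ha (fun r hr => (ode r hr).1) hr.2, fp, ((ode r hr.2).1 0 (by norm_num)).deriv]
  field_simp

theorem mr_minus (hs : |A.s| = 2) (k : ℝ) : MR A (-2) k Tm := by
  intro σ lam g x ha h0 rg ode hx ⟨C, hC⟩ hb
  have hg : Jet σ g := fun r hr => (ode r hr).1
  refine P354MS.e8_minus ((abs_nonneg _).trans_lt ha) (sq_lt_sq' (abs_lt.1 ha).1 (abs_lt.1 ha).2)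
    h0 (P354MS.sgn_of_rng hs h0 rg) ode hx hC (c0 := c0 σ.M σ.a (g 0))
    (c1 := c1 σ.M σ.a σ.om σ.m (g 0)) (c2 := c2 σ.M σ.a σ.om σ.m (g 0))
    (c3 := c3 σ.M σ.a σ.om σ.m (g 0)) (fun r hr => ?_) fun δ hδ => ?_
  · have r0 : (r : ℂ) ≠ 0 := Complex.ofReal_ne_zero.2 ((rp_pos ha).trans hr).ne'
    refine ⟨by rw [c0, smul_eq_mul]; ring,
      (ev_D ha hg ok0 (by norm_num) ev0 hr).congr_deriv ?_,
      (ev_D ha hg ok1 (by norm_num) (ev1 ha hg) hr).congr_deriv ?_,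
      (ev_D ha hg ok2 (by norm_num) (ev2 ha hg) hr).congr_deriv ?_⟩
    · rw [ev1 ha hg r hr, t1, ev_mul, smul_eq_mul, smul_eq_mul, mul_div_cancel_left₀ _
        (pow_ne_zero 2 r0)]; rfl
    · rw [ev2 ha hg r hr, t2, ev_mul, smul_eq_mul, smul_eq_mul, mul_div_cancel_left₀ _
        (pow_ne_zero 2 r0)]; rfl
    · rw [ev3 ha hg r hr]; rfl
  · refine ((freq_rows co_Tm ha (ode_ca ha ode) hx hb δ hδ).and_eventually
      (eventually_gt_atTop (rp σ.M σ.a))).mono fun r hr => le_of_eq_of_le ?_ hr.1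
    have r0 := (rp_pos ha).trans hr.2
    rw [← fm_eq ha hg hr.2, fm]
    field_simp

theorem jets_zero (v : ℝ → S) : jets v 0 = v := iteratedDeriv_zero

section
variable {σ : Fr} (ha : |σ.a| < σ.M) {v : ℝ → S} (hv : ContDiff ℝ ∞ v) {x y : ℝ}
  (hx : rp σ.M σ.a < x) (hy : x ≤ y)
include ha hv hx hy

theorem fp_den : ∫ r in x..y, fp v r = ∫ r in x..y, den Tp σ v r :=
  int_congr hx hy fun r hr => by simpa only [jets_zero, den] using fp_eq ha (jet_jets hv) hr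

theorem fm_den : ∫ r in x..y, fm σ.M σ.a σ.om σ.m v r = ∫ r in x..y, den Tm σ v r :=
  int_congr hx hy fun r hr => by simpa only [jets_zero, den] using fm_eq ha (jet_jets hv) hr

theorem lp_den (p : ℝ) :
    ∫ r in x..y, lp p σ.M σ.a σ.om σ.m v r = ∫ r in x..y, r ^ p * den Lp σ v r :=
  int_congr hx hy fun r hr => by simpa only [jets_zero, den] using lp_eq ha (jet_jets hv) hr p

theorem lm_den (p : ℝ) :
    ∫ r in x..y, lm p σ.M σ.a σ.om σ.m v r = ∫ r in x..y, r ^ p * den Lm σ v r :=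
  int_congr hx hy fun r hr => by simpa only [jets_zero, den] using lm_eq ha (jet_jets hv) hr p

end

theorem gr_plus (h : A.Is) (hs : |A.s| = 2) (k : ℝ) (g : GP) : GR A 2 k Tp Lp := by
  intro B η p a b c
  obtain ⟨X, hX⟩ := g B η p a b c
  refine ⟨X, fun x hx => (hX x hx).imp fun C hC => ⟨hC.1, fun R hR => (hC.2 R hR).imp
    fun C' hC' => ⟨hC'.1, fun σ r0 pr ha hr v hv => ?_⟩⟩⟩
  have := hC'.2 S A h hs _ _ _ _ _ _ pr v hv
  have x0 := (rp_pos ha).trans hr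
  rwa [fp_den ha hv.cd hr (by linarith),
    lp_den ha hv.cd (x := R) (by linarith) (by linarith)] at this

theorem gr_minus (h : A.Is) (hs : |A.s| = 2) (k : ℝ) (g : GM) : GR A (-2) k Tm Lm := by
  intro B η p a b c
  obtain ⟨X, hX⟩ := g B η p a b c
  refine ⟨X, fun x hx => (hX x hx).imp fun C hC => ⟨hC.1, fun R hR => (hC.2 R hR).imp
    fun C' hC' => ⟨hC'.1, fun σ r0 pr ha hr v hv => ?_⟩⟩⟩
  have := hC'.2 S A h hs _ _ _ _ _ _ pr v hv
  have x0 := (rp_pos ha).trans hr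
  rwa [fm_den ha hv.cd hr (by linarith),
    lm_den ha hv.cd (x := R) (by linarith) (by linarith)] at this

/-- The estimate at bounded frequencies for the spin 2. -/
theorem bfp (g : GP) : BFP := by
  intro S _ _ A h gal hs M0 a0 r0 k B p ha h0 h1 hp
  obtain ⟨X, hX⟩ := bf_rows h gal co_Tp co_Lp (i0 := 0) (co_wt 3) (fun z hz => wt_ne 3 _ hz.2)
    (fun σ g r => ev_e (by norm_num) _ _ _ _) (gr_plus h hs k g) (mr_plus hs k) (B := B) ha h0 h1 hp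
  refine ⟨X, fun x hx => (hX x hx).imp fun ρ hρ => ⟨hρ.1, fun δ hδ => ?_⟩⟩
  filter_upwards [hρ.2.2 δ hδ, eventually_ge_atTop x, eventually_ge_atTop 0] with R hR a1 a2
  refine hR.imp fun C hC => ⟨hC.1, fun M a om m b1 b2 b3 b4 b5 v hv => ?_⟩
  have hσ : ((M, a, om, m) : Fr) ∈ Om M0 a0 ρ B := ⟨b1, b2, b3, b4, b5⟩
  have := hC.2 _ hσ v hv
  rwa [In, ← lp_den (hρ.2.1 _ hσ).1 hv.1.cd (hρ.2.1 _ hσ).2 (by linarith)] at this

/-- The estimate at bounded frequencies for the spin -2. -/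
theorem bfm (g : GM) : BFM := by
  intro S _ _ A h gal hs M0 a0 r0 k B p ha h0 h1 hp
  obtain ⟨X, hX⟩ := bf_rows h gal co_Tm co_Lm (i0 := 0)
    (w := fun σ r => wt 2 σ r * ((De σ.M σ.a r : ℂ) ^ 2 / r ^ 3))
    (by simpa [t0, Row.e] using (co_wt 2).mul (ok0.1 0))
    (fun z hz => mul_ne_zero (wt_ne 2 _ hz.2) (div_ne_zero
      (pow_ne_zero _ (Complex.ofReal_ne_zero.2 hz.1))
      (pow_ne_zero _ (Complex.ofReal_ne_zero.2 hz.2.ne'))))
    (fun σ g r => by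
      rw [mul_smul, ← ev_e (show 0 < 4 by norm_num)
        (fun σ r => (De σ.M σ.a r : ℂ) ^ 2 / r ^ 3) σ g r]
      exact ev_mul _ _ _ _ _) (gr_minus h hs k g) (mr_minus hs k) (B := B) ha h0 h1 hp
  refine ⟨X, fun x hx => (hX x hx).imp fun ρ hρ => ⟨hρ.1, fun δ hδ => ?_⟩⟩
  filter_upwards [hρ.2.2 δ hδ, eventually_ge_atTop x, eventually_ge_atTop 0] with R hR a1 a2
  refine hR.imp fun C hC => ⟨hC.1, fun M a om m b1 b2 b3 b4 b5 v hv => ?_⟩
  have hσ : ((M, a, om, m) : Fr) ∈ Om M0 a0 ρ B := ⟨b1, b2, b3, b4, b5⟩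
  have := hC.2 _ hσ v hv
  rwa [In, ← lm_den (hρ.2.1 _ hσ).1 hv.1.cd (hρ.2.1 _ hσ).2 (by linarith)] at this

end Vale.Agent.P354BF
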