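import Vale.Agent.P354BF.Curve

open scoped ContDiff
open MeasureTheory Set Filter Topology intervalIntegral

namespace Vale.Agent.P354BF

variable {E : Type} [NormedAddCommGroup E] [NormedSpace ℝ E]

theorem ii_sq {g : ℝ → E} {x y : ℝ} (hxy : x ≤ y) (h : ContinuousOn g (Icc x y)) :
    IntervalIntegrable (fun r => ‖g r‖ ^ 2) volume x y :=
  ((h.norm.pow 2).mono (by rw [uIcc_of_le hxy])).intervalIntegrable

theorem int_nonneg (g : ℝ → E) {x y : ℝ} (hxy : x ≤ y) : 0 ≤ ∫ r in x..y, ‖g r‖ ^ 2 :=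
  integral_nonneg hxy fun _ _ => sq_nonneg _

theorem int_mono {g : ℝ → E} {x y x' y' : ℝ} (h : ContinuousOn g (Icc x y)) (h1 : x ≤ x')
    (h2 : x' ≤ y') (h3 : y' ≤ y) : ∫ r in x'..y', ‖g r‖ ^ 2 ≤ ∫ r in x..y, ‖g r‖ ^ 2 :=
  integral_mono_interval h1 h2 h3 (Eventually.of_forall fun _ => sq_nonneg _)
    (ii_sq (h1.trans (h2.trans h3)) h)

theorem cs {φ : ℝ → ℝ} {x y : ℝ} (hxy : x ≤ y) (h : ContinuousOn φ (Icc x y)) :
    (∫ r in x..y, φ r) ^ 2 ≤ (y - x) * ∫ r in x..y, φ r ^ 2 := by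
  rcases hxy.eq_or_lt with e | hlt
  · simp [e]
  have i1 : IntervalIntegrable φ volume x y := (h.mono (by rw [uIcc_of_le hxy])).intervalIntegrable
  have i2 : IntervalIntegrable (fun r => φ r ^ 2) volume x y :=
    ((h.pow 2).mono (by rw [uIcc_of_le hxy])).intervalIntegrable
  set a := ∫ r in x..y, φ r
  set d := y - x with hd
  have dp : 0 < d := by linarith
  have e : ∫ r in x..y, (d * φ r - a) ^ 2 = d ^ 2 * (∫ r in x..y, φ r ^ 2) - d * a ^ 2 := by
    have : (fun r => (d * φ r - a) ^ 2) = fun r => d ^ 2 * φ r ^ 2 - 2 * d * a * φ r + a ^ 2 :=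
      funext fun r => by ring
    rw [this, integral_add ((i2.const_mul _).sub (i1.const_mul _)) (by simp),
      integral_sub (i2.const_mul _) (i1.const_mul _), intervalIntegral.integral_const_mul, intervalIntegral.integral_const_mul,
      intervalIntegral.integral_const, smul_eq_mul]
    ring
  have p : 0 ≤ ∫ r in x..y, (d * φ r - a) ^ 2 := integral_nonneg hxy fun _ _ => sq_nonneg _
  rw [e] at p
  nlinarith

/-- The oscillation of a curve is bounded by the L2 norm of its derivative. -/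
theorem osc {g g1 : ℝ → E} {x y : ℝ} (hg : ∀ r ∈ Icc x y, HasDerivAt g (g1 r) r)
    (hc : ContinuousOn g1 (Icc x y)) {p q : ℝ} (hp : p ∈ Icc x y) (hq : q ∈ Icc x y) :
    ‖g p - g q‖ ^ 2 ≤ (y - x) * ∫ r in x..y, ‖g1 r‖ ^ 2 := by
  wlog hpq : q ≤ p generalizing p q
  · rw [norm_sub_rev]; exact this hq hp (le_of_not_ge hpq)
  have s : Icc q p ⊆ Icc x y := Icc_subset_Icc hq.1 hp.2
  have h1 : ‖g p - g q‖ ≤ ∫ r in q..p, ‖g1 r‖ :=
    norm_sub_le_integral_of_norm_deriv_le_of_le hpq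
      (fun r hr => (hg r (s hr)).continuousAt.continuousWithinAt)
      (fun r hr => (hg r (s (Ioo_subset_Icc_self hr))).differentiableAt.differentiableWithinAt)
      (Eventually.of_forall fun r hr => by rw [(hg r (s (Ioo_subset_Icc_self hr))).deriv])
      (((hc.mono s).norm.mono (by rw [uIcc_of_le hpq])).intervalIntegrable)
  have h2 := cs hpq (hc.mono s).norm
  have h3 := int_mono hc hq.1 hpq hp.2
  have h4 := int_nonneg g1 hpq
  have h5 := mul_self_le_mul_self (norm_nonneg _) h1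
  nlinarith [hp.2, hq.1]

theorem osc2 {g g1 : ℝ → E} {x y : ℝ} (hg : ∀ r ∈ Icc x y, HasDerivAt g (g1 r) r)
    (hc : ContinuousOn g1 (Icc x y)) {p q : ℝ} (hp : p ∈ Icc x y) (hq : q ∈ Icc x y) :
    ‖g p‖ ^ 2 ≤ 2 * ‖g q‖ ^ 2 + 2 * (y - x) * ∫ r in x..y, ‖g1 r‖ ^ 2 := by
  have h1 := osc hg hc hp hq
  have h2 : ‖g p‖ ≤ ‖g q‖ + ‖g p - g q‖ := by simpa using norm_add_le (g q) (g p - g q)
  nlinarith [norm_nonneg (g p), norm_nonneg (g q), norm_nonneg (g p - g q),
    sq_nonneg (‖g q‖ - ‖g p - g q‖)]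

theorem cont_of {g g1 : ℝ → E} {x y : ℝ} (hg : ∀ r ∈ Icc x y, HasDerivAt g (g1 r) r) :
    ContinuousOn g (Icc x y) := fun r hr => (hg r hr).continuousAt.continuousWithinAt

/-- The trace inequality. -/
theorem trace {g g1 : ℝ → E} {x y : ℝ} (hxy : x < y) (hg : ∀ r ∈ Icc x y, HasDerivAt g (g1 r) r)
    (hc : ContinuousOn g1 (Icc x y)) {p : ℝ} (hp : p ∈ Icc x y) :
    ‖g p‖ ^ 2 ≤ (2 / (y - x) + 2 * (y - x)) *
      ((∫ r in x..y, ‖g r‖ ^ 2) + ∫ r in x..y, ‖g1 r‖ ^ 2) := by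
  have i1 := ii_sq hxy.le (cont_of hg)
  have h1 := integral_mono_on hxy.le (f := fun _ => ‖g p‖ ^ 2) (by simp)
    ((i1.const_mul 2).add (by simp)) fun q hq => osc2 hg hc hp hq
  rw [integral_add (i1.const_mul 2) (by simp), intervalIntegral.integral_const_mul] at h1
  simp only [intervalIntegral.integral_const, smul_eq_mul] at h1
  have a := int_nonneg g hxy.le
  have b := int_nonneg g1 hxy.le
  have dp : 0 < y - x := by linarith
  refine le_of_mul_le_mul_left ?_ dp
  have e : (y - x) * (2 / (y - x)) = 2 := by field_simp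
  have c := mul_nonneg (mul_pos dp dp).le a
  nlinarith

/-- The L2 norm on the left half of an interval from the L2 norm on the right half. -/
theorem left_le {g g1 : ℝ → E} {x d : ℝ} (hd : 0 ≤ d)
    (hg : ∀ r ∈ Icc x (x + 2 * d), HasDerivAt g (g1 r) r)
    (hc : ContinuousOn g1 (Icc x (x + 2 * d))) :
    ∫ r in x..(x + d), ‖g r‖ ^ 2 ≤ 2 * (∫ r in (x + d)..(x + 2 * d), ‖g r‖ ^ 2) +
      4 * d ^ 2 * ∫ r in x..(x + 2 * d), ‖g1 r‖ ^ 2 := by
  have c := cont_of hg
  have i1 := ii_sq (by linarith) (c.mono (Icc_subset_Icc le_rfl (by linarith : x + d ≤ x + 2 * d)))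
  have c2 : ContinuousOn (fun r => g (r + d)) (Icc x (x + d)) :=
    c.comp (by fun_prop) fun r hr => ⟨by linarith [hr.1], by linarith [hr.2]⟩
  have i2 := ii_sq (by linarith) c2
  have h1 := integral_mono_on (by linarith) i1 ((i2.const_mul 2).add (by simp)) fun p hp =>
    osc2 hg hc (p := p) (q := p + d) ⟨hp.1, by linarith [hp.2]⟩
      ⟨by linarith [hp.1], by linarith [hp.2]⟩
  rw [integral_add (i2.const_mul 2) (by simp), intervalIntegral.integral_const_mul,
    integral_comp_add_right (fun r => ‖g r‖ ^ 2), show x + d + d = x + 2 * d by ring] at h1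
  simp only [intervalIntegral.integral_const, smul_eq_mul] at h1
  linarith

/-- The L2 norm from the values on a grid. -/
theorem grid {g g1 : ℝ → E} {x h : ℝ} (hh : 0 ≤ h) (hg : ∀ r, HasDerivAt g (g1 r) r)
    (hc : Continuous g1) (n : ℕ) :
    ∫ r in x..(x + n * h), ‖g r‖ ^ 2 ≤ 2 * h * ∑ i ∈ Finset.range n, ‖g (x + i * h)‖ ^ 2 +
      2 * h ^ 2 * ∫ r in x..(x + n * h), ‖g1 r‖ ^ 2 := by
  have c : Continuous g := continuous_iff_continuousAt.2 fun r => (hg r).continuousAt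
  have j0 : ∀ a b, IntervalIntegrable (fun r => ‖g r‖ ^ 2) volume a b := fun a b =>
    (c.norm.pow 2).intervalIntegrable _ _
  have j1 : ∀ a b, IntervalIntegrable (fun r => ‖g1 r‖ ^ 2) volume a b := fun a b =>
    (hc.norm.pow 2).intervalIntegrable _ _
  induction n with
  | zero => simp
  | succ n ih =>
    have k : x + n * h ≤ x + (n + 1 : ℕ) * h := by push_cast; linarith
    have h1 := integral_mono_on k (j0 _ _) _root_.intervalIntegrable_const fun p hp =>
      osc2 (fun r _ => hg r) hc.continuousOn hp (left_mem_Icc.2 k)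
    simp only [intervalIntegral.integral_const, smul_eq_mul] at h1
    have e : x + (n + 1 : ℕ) * h - (x + n * h) = h := by push_cast; ring
    rw [e] at h1
    rw [← integral_add_adjacent_intervals (b := x + n * h) (j0 _ _) (j0 _ _),
      ← integral_add_adjacent_intervals (b := x + n * h) (j1 _ _) (j1 _ _), Finset.sum_range_succ]
    linarith

/-- Gronwall inequality in both directions. -/
theorem gron {Y Y1 : ℝ → E} {x y K ε : ℝ} (hK : 0 < K) (hε : 0 ≤ ε)
    (hY : ∀ r ∈ Icc x y, HasDerivAt Y (Y1 r) r) (hb : ∀ r ∈ Icc x y, ‖Y1 r‖ ≤ K * ‖Y r‖ + ε)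
    {q p : ℝ} (hq : q ∈ Icc x y) (hp : p ∈ Icc x y) :
    ‖Y p‖ ≤ (‖Y q‖ + ε / K) * Real.exp (K * (y - x)) := by
  have fin : ∀ t, t ≤ y - x → gronwallBound ‖Y q‖ K ε t ≤
      (‖Y q‖ + ε / K) * Real.exp (K * (y - x)) := fun t ht => by
    rw [gronwallBound_of_K_ne_0 hK.ne']
    have e := Real.exp_le_exp.2 (mul_le_mul_of_nonneg_left ht hK.le)
    have := div_nonneg hε hK.le
    have := norm_nonneg (Y q)
    simp only
    nlinarith
  rcases le_total q p with h | h
  · have s : Icc q p ⊆ Icc x y := Icc_subset_Icc hq.1 hp.2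
    exact (norm_le_gronwallBound_of_norm_deriv_right_le ((cont_of hY).mono s)
      (fun r hr => (hY r (s (Ico_subset_Icc_self hr))).hasDerivWithinAt) le_rfl
      (fun r hr => hb r (s (Ico_subset_Icc_self hr))) p (right_mem_Icc.2 h)).trans
      (fin _ (by linarith [hq.1, hp.2]))
  · have s : ∀ r ∈ Icc (-q) (-p), -r ∈ Icc x y := fun r hr =>
      ⟨by linarith [hr.2, hp.1], by linarith [hr.1, hq.2]⟩
    have d : ∀ r ∈ Icc (-q) (-p), HasDerivAt (fun t => Y (-t)) (-Y1 (-r)) r := fun r hr => by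
      have := (hY _ (s r hr)).scomp r (hasDerivAt_neg r)
      rw [neg_smul, one_smul] at this
      exact this
    have := norm_le_gronwallBound_of_norm_deriv_right_le (δ := ‖Y q‖) (K := K) (ε := ε)
      (cont_of d) (fun r hr => (d r (Ico_subset_Icc_self hr)).hasDerivWithinAt) (by simp)
      (fun r hr => by simpa using hb _ (s r (Ico_subset_Icc_self hr))) (-p)
      (right_mem_Icc.2 (by linarith))
    simp only [neg_neg] at this
    exact this.trans (fin _ (by linarith [hp.1, hq.2]))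

end Vale.Agent.P354BF
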