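import Vale.Agent.P354BF.Gal
import Vale.Agent.P354BF.Fin

open scoped ContDiff InnerProductSpace ComplexConjugate
open Complex (I)
open MeasureTheory intervalIntegral

namespace Vale.Agent.P354BF

variable {S : Type} [NormedAddCommGroup S] [InnerProductSpace ℂ S] {A : Ang S}

/-- The square of the norm of order one. -/
noncomputable def Ang.H1 (A : Ang S) (u : S) : ℝ := ∑ i, ‖A.L i u‖ ^ 2 + ‖u‖ ^ 2

/-- A bound for the part of order zero of the spheroidal operator. -/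
noncomputable def kap (k a : ℝ) (om : ℂ) (m : ℝ) : ℝ :=
  2 * a ^ 2 * ‖om‖ ^ 2 + 2 * |a| * ‖om‖ * |m| + 2 * |k| * |a| * ‖om‖

theorem kap_nonneg (k a : ℝ) (om : ℂ) (m : ℝ) : 0 ≤ kap k a om m := by unfold kap; positivity

theorem three_le {x y z : S} {k a m b : ℝ} {om : ℂ} (hx : ‖x‖ ≤ b) (hy : ‖y‖ ≤ b) (hz : ‖z‖ ≤ b) :
    ‖((a : ℂ) ^ 2 * om ^ 2 - 2 * a * om * m) • x - ((a : ℂ) ^ 2 * om ^ 2) • y +
      (2 * k * a * om) • z‖ ≤ kap k a om m * b := by
  have e := norm_sub_le ((a : ℂ) ^ 2 * om ^ 2) (2 * a * om * m)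
  refine (norm_add_le _ _).trans ((add_le_add (norm_sub_le _ _) le_rfl).trans ?_)
  simp only [norm_smul, norm_mul, norm_pow, Complex.norm_real, Real.norm_eq_abs, sq_abs,
    Complex.norm_ofNat] at e ⊢
  unfold kap
  nlinarith [mul_le_mul e hx (norm_nonneg _) (by positivity),
    mul_le_mul_of_nonneg_left hy (by positivity : 0 ≤ a ^ 2 * ‖om‖ ^ 2),
    mul_le_mul_of_nonneg_left hz (by positivity : 0 ≤ 2 * |k| * |a| * ‖om‖)]

theorem Ang.U_eq (A : Ang S) (k a : ℝ) (om : ℂ) (m : ℝ) (u : S) : A.lop k a om m u - A.cas u =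
    ((a : ℂ) ^ 2 * om ^ 2 - 2 * a * om * m) • u - ((a : ℂ) ^ 2 * om ^ 2) • A.w 2 (A.w 2 u) +
      (2 * k * a * om) • A.w 2 u := by
  rw [A.lop_apply]; abel

namespace Ang.Is

theorem U_le (h : A.Is) (k a : ℝ) (om : ℂ) (m : ℝ) (u : S) :
    ‖A.lop k a om m u - A.cas u‖ ≤ kap k a om m * ‖u‖ := by
  rw [A.U_eq]
  exact three_le le_rfl ((h.w_le _ _).trans (h.w_le _ _)) (h.w_le _ _)

theorem Lw_le (h : A.Is) (i : Fin 3) (u : S) : ‖A.L i (A.w 2 u)‖ ≤ ‖A.L i u‖ + ‖u‖ := by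
  have : (2 : Fin 3) = i ∨ 2 = i + 1 ∨ 2 = i + 2 := by revert i; decide
  have p := norm_nonneg u
  rcases this with e | e | e <;> rw [e]
  · rw [h.Lw0]; linarith [h.w_le i (A.L i u)]
  · rw [h.Lw1]; exact (norm_sub_le _ _).trans (add_le_add (h.w_le _ _) (h.w_le _ _))
  · rw [h.Lw2]; exact (norm_add_le _ _).trans (add_le_add (h.w_le _ _) (h.w_le _ _))

theorem LU_le (h : A.Is) (k a : ℝ) (om : ℂ) (m : ℝ) (u : S) :
    ∑ i, ‖A.L i (A.lop k a om m u - A.cas u)‖ ^ 2 ≤ 24 * kap k a om m ^ 2 * A.H1 u := by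
  have b : ∀ i, ‖A.L i (A.lop k a om m u - A.cas u)‖ ^ 2 ≤
      kap k a om m ^ 2 * (2 * ‖A.L i u‖ ^ 2 + 8 * ‖u‖ ^ 2) := fun i => by
    have p := norm_nonneg u
    have : ‖A.L i (A.lop k a om m u - A.cas u)‖ ≤ kap k a om m * (‖A.L i u‖ + 2 * ‖u‖) := by
      rw [A.U_eq]
      simp only [map_add, map_sub, map_smul]
      exact three_le (by linarith) (by linarith [h.Lw_le i (A.w 2 u), h.Lw_le i u, h.w_le 2 u])
        (by linarith [h.Lw_le i u])
    refine (pow_le_pow_left₀ (norm_nonneg _) this 2).trans ?_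
    rw [mul_pow]
    exact mul_le_mul_of_nonneg_left (by nlinarith [sq_nonneg (‖A.L i u‖ - 2 * ‖u‖)]) (sq_nonneg _)
  have c := Finset.sum_le_sum fun i (_ : i ∈ Finset.univ) => b i
  have p : 0 ≤ ∑ i, ‖A.L i u‖ ^ 2 := by positivity
  rw [← Finset.mul_sum, Finset.sum_add_distrib, ← Finset.mul_sum] at c
  simp only [Finset.sum_const, Finset.card_univ, Fintype.card_fin, nsmul_eq_mul, Nat.cast_ofNat] at c
  unfold Ang.H1
  nlinarith [mul_nonneg (sq_nonneg (kap k a om m)) p]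

theorem tail (h : A.Is) {V : Submodule ℂ S} [V.HasOrthogonalProjection]
    (inv : ∀ i, ∀ u ∈ V, A.L i u ∈ V) {η : ℝ} (hη : 0 ≤ η)
    (gap : ∀ u ∈ Vᗮ, ‖u‖ ^ 2 ≤ η * ∑ i, ‖A.L i u‖ ^ 2) (u : S) :
    ‖u - V.starProjection u‖ ^ 2 ≤ η * ∑ i, ‖A.L i u‖ ^ 2 := by
  refine (gap _ (V.sub_starProjection_mem_orthogonal u)).trans (mul_le_mul_of_nonneg_left
    (Finset.sum_le_sum fun i _ => pow_le_pow_left₀ (norm_nonneg _) ?_ 2) hη)
  rw [map_sub, ← h.L_proj inv, ← V.starProjection_orthogonal_val]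
  exact Vᗮ.norm_starProjection_apply_le _

/-- Compactness with finitely many inner products. -/
theorem cap2 (h : A.Is) (gal : A.Gal) (η : ℝ) (hη : 0 < η) : ∃ (N : ℕ) (φ : Fin N → S), ∀ u,
    ‖u‖ ^ 2 ≤ η * ∑ i, ‖A.L i u‖ ^ 2 + ∑ j, ‖innerSL ℂ (φ j) u‖ ^ 2 := by
  obtain ⟨V, _, inv, gap⟩ := gal η hη
  haveI : CompleteSpace V := FiniteDimensional.complete ℂ V
  refine ⟨_, fun j => (stdOrthonormalBasis ℂ V j : S), fun u => ?_⟩
  have e := (stdOrthonormalBasis ℂ V).sum_sq_norm_inner_right (V.orthogonalProjectionOnto u)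
  simp only [Submodule.inner_orthogonalProjectionOnto_eq_of_mem_left] at e
  rw [V.norm_sq_eq_add_norm_sq_starProjection u, V.starProjection_orthogonal_val, add_comm]
  exact add_le_add (h.tail inv hη.le gap u) (by simpa using e.ge)

/-- Approximate resolvents of the spheroidal operator. -/
theorem res (h : A.Is) (gal : A.Gal) {k a m μ η : ℝ} {om : ℂ} (hμ : kap k a om m + 1 ≤ μ)
    (hη : 0 < η) : ∃ G : S →L[ℂ] S, (∀ u, A.H1 (G u) ≤ ‖u‖ ^ 2) ∧
      (∀ α, ∃ T : S →L[ℂ] S, ∀ u, A.word α (G u) = T u) ∧ (∀ u, A.L 2 (G u) = G (A.L 2 u)) ∧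
      (∀ u, ‖A.lop k a om m (G u) + (μ : ℂ) • G u - u‖ ^ 2 ≤ η * A.H1 u) ∧
      ∀ u, ‖G (A.lop k a om m u) + (μ : ℂ) • G u - u‖ ^ 2 ≤ η * A.H1 u := by
  set κ := kap k a om m with hκ
  have κ0 : 0 ≤ κ := kap_nonneg _ _ _ _
  have c0 : 0 < 48 * κ ^ 2 + 2 + (κ + 1) ^ 2 := by positivity
  obtain ⟨V, _, inv, gap⟩ := gal _ (div_pos hη c0)
  set η' := η / (48 * κ ^ 2 + 2 + (κ + 1) ^ 2) with hη'
  have e0 : η' * (48 * κ ^ 2 + 2 + (κ + 1) ^ 2) = η := div_mul_cancel₀ _ c0.ne'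
  have η0 : 0 < η' := div_pos hη c0
  haveI : CompleteSpace V := FiniteDimensional.complete ℂ V
  set T : S →ₗ[ℂ] S := A.lop k a om m + (μ : ℂ) • LinearMap.id with hT
  have eT : ∀ x, T x = (A.cas x + (μ : ℂ) • x) + (A.lop k a om m x - A.cas x) := fun x => by
    simp only [hT, LinearMap.add_apply, LinearMap.smul_apply, LinearMap.id_apply]; abel
  have co : ∀ x ∈ V, ∀ u, V.starProjection (T x) = V.starProjection u → A.H1 x ≤ ‖u‖ ^ 2 := by
    intro x hx u e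
    have a1 : ⟪x, T x⟫_ℂ = ⟪x, u⟫_ℂ := by
      rw [← V.starProjection_eq_self_iff.2 hx, V.inner_starProjection_left_eq_right,
        V.inner_starProjection_left_eq_right, V.starProjection_eq_self_iff.2 hx, e]
    have a2 := congrArg Complex.re a1
    rw [eT, inner_add_right, inner_add_right, inner_smul_right, h.cas_form, ip_self] at a2
    simp only [Complex.add_re, ← Complex.ofReal_mul, Complex.ofReal_re] at a2
    have a3 := abs_le.1 ((Complex.abs_re_le_norm _).trans ((norm_inner_le_norm (𝕜 := ℂ) x _).trans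
      (mul_le_mul_of_nonneg_left (h.U_le k a om m x) (norm_nonneg _))))
    have a4 := (Complex.re_le_norm _).trans (norm_inner_le_norm (𝕜 := ℂ) x u)
    have p : 0 ≤ ∑ i, ‖A.L i x‖ ^ 2 := by positivity
    have a5 : A.H1 x ≤ ‖x‖ * ‖u‖ := by
      unfold Ang.H1
      nlinarith [a3.1, sq_nonneg ‖x‖]
    have a6 : ‖x‖ ≤ ‖u‖ := by
      unfold Ang.H1 at a5
      by_contra hc
      nlinarith [norm_nonneg u, not_le.1 hc]
    nlinarith [norm_nonneg u]
  have uq : ∀ x ∈ V, V.starProjection (T x) = 0 → x = 0 := fun x hx e => by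
    have := co x hx 0 (by rw [e, map_zero])
    have p : 0 ≤ ∑ i, ‖A.L i x‖ ^ 2 := by positivity
    unfold Ang.H1 at this
    rw [norm_zero] at this
    exact norm_eq_zero.1 (by nlinarith [norm_nonneg x])
  set B : V →ₗ[ℂ] V := (V.orthogonalProjectionOnto : S →ₗ[ℂ] V) ∘ₗ T ∘ₗ V.subtype with hB
  have inj : Function.Injective B := (injective_iff_map_eq_zero B).2 fun x hx =>
    Subtype.ext (uq x x.2 (congrArg Subtype.val hx))
  set E := LinearEquiv.ofInjectiveEndo B inj with hE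
  set G0 : S →L[ℂ] V := (LinearMap.toContinuousLinearMap (E.symm : V →ₗ[ℂ] V)) ∘L
    V.orthogonalProjectionOnto with hG0
  set G : S →L[ℂ] S := V.subtypeL ∘L G0 with hG
  have g1 : ∀ u, G u ∈ V := fun u => (G0 u).2
  have g2 : ∀ u, V.starProjection (T (G u)) = V.starProjection u := fun u =>
    congrArg Subtype.val (E.apply_symm_apply (V.orthogonalProjectionOnto u))
  have g3 : ∀ x ∈ V, ∀ u, V.starProjection (T x) = V.starProjection u → G u = x :=
    fun x hx u e => sub_eq_zero.1 (uq _ (sub_mem (g1 u) hx) (by rw [map_sub, map_sub, g2, e, sub_self]))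
  have g4 := fun u => co _ (g1 u) u (g2 u)
  have g5 : ∀ u, ‖G u‖ ≤ ‖u‖ := fun u => by
    have := g4 u
    have p : 0 ≤ ∑ i, ‖A.L i (G u)‖ ^ 2 := by positivity
    unfold Ang.H1 at this
    exact le_of_sq_le_sq (by linarith) (norm_nonneg _)
  refine ⟨G, g4, fun α => ?_, fun u => ?_, fun u => ?_, fun u => ?_⟩
  · obtain ⟨W, hW⟩ : ∃ W : S →ₗ[ℂ] S, ∀ u, A.word α u = W u :=
      ⟨⟨⟨A.word α, A.word_add α⟩, A.word_smul α⟩, fun _ => rfl⟩
    exact ⟨LinearMap.toContinuousLinearMap (W ∘ₗ V.subtype) ∘L G0, fun u => hW _⟩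
  · refine (g3 _ (inv 2 _ (g1 u)) _ ?_).symm
    rw [h.L_proj inv, ← g2 u, ← h.L_proj inv]
    simp only [hT, LinearMap.add_apply, LinearMap.smul_apply, LinearMap.id_apply, map_add,
      map_smul, h.L2_lop]
  · set y := A.lop k a om m (G u) - A.cas (G u) - u with hy
    have e : A.lop k a om m (G u) + (μ : ℂ) • G u - u = y - V.starProjection y := by
      have a1 := g2 u
      rw [eT, map_add, V.starProjection_eq_self_iff.2
        (add_mem (cas_mem inv (g1 u)) (V.smul_mem _ (g1 u)))] at a1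
      rw [hy, map_sub V.starProjection _ u, ← a1]
      abel
    have b : ∑ i, ‖A.L i y‖ ^ 2 ≤ 2 * ∑ i, ‖A.L i (A.lop k a om m (G u) - A.cas (G u))‖ ^ 2 +
        2 * ∑ i, ‖A.L i u‖ ^ 2 := by
      rw [Finset.mul_sum, Finset.mul_sum, ← Finset.sum_add_distrib]
      refine Finset.sum_le_sum fun i _ => ?_
      rw [hy, map_sub]
      refine (pow_le_pow_left₀ (norm_nonneg _) (norm_sub_le _ _) 2).trans ?_
      nlinarith [sq_nonneg (‖A.L i (A.lop k a om m (G u) - A.cas (G u))‖ - ‖A.L i u‖)]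
    have c := (h.LU_le k a om m (G u)).trans (mul_le_mul_of_nonneg_left (g4 u) (by positivity))
    have p : 0 ≤ ∑ i, ‖A.L i u‖ ^ 2 := by positivity
    rw [e, ← e0, mul_assoc]
    refine (h.tail inv η0.le gap y).trans (mul_le_mul_of_nonneg_left ?_ η0.le)
    unfold Ang.H1
    nlinarith [sq_nonneg ‖u‖, mul_nonneg (sq_nonneg κ) p, mul_nonneg (sq_nonneg (κ + 1)) p,
      mul_nonneg (sq_nonneg (κ + 1)) (sq_nonneg ‖u‖)]
  · set y := u - V.starProjection u with hy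
    have y0 : y ∈ Vᗮ := V.sub_starProjection_mem_orthogonal u
    have c0 : A.cas y ∈ Vᗮ := by
      rw [A.cas_apply]
      exact neg_mem (sum_mem fun i _ => h.L_orth inv i (h.L_orth inv i y0))
    have a1 : G (T (V.starProjection u)) = V.starProjection u :=
      g3 _ (V.starProjection_apply_mem u) _ rfl
    have a2 : G (A.cas y + (μ : ℂ) • y) = 0 := g3 0 (zero_mem _) _ (by
      rw [map_zero, map_zero, (V.starProjection_apply_eq_zero_iff).2 (add_mem c0 (Vᗮ.smul_mem _ y0))])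
    have e : G (A.lop k a om m u) + (μ : ℂ) • G u - u = G (A.lop k a om m y - A.cas y) - y := by
      have a3 : G (T y) = G (A.lop k a om m y - A.cas y) := by rw [eT, map_add, a2, zero_add]
      have a4 : G (A.lop k a om m u) + (μ : ℂ) • G u = G (T u) := by simp [hT]
      rw [a4, ← a3, hy, map_sub T, map_sub G, a1]
      abel
    have b : ‖G (A.lop k a om m y - A.cas y) - y‖ ≤ (κ + 1) * ‖y‖ :=
      (norm_sub_le _ _).trans (by linarith [(g5 _).trans (h.U_le k a om m y)])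
    have p : 0 ≤ ∑ i, ‖A.L i u‖ ^ 2 := by positivity
    rw [e, ← e0]
    refine (pow_le_pow_left₀ (norm_nonneg _) b 2).trans ?_
    rw [mul_pow]
    refine (mul_le_mul_of_nonneg_left (h.tail inv η0.le gap u) (sq_nonneg _)).trans ?_
    unfold Ang.H1
    nlinarith [mul_nonneg η0.le p, mul_nonneg η0.le (sq_nonneg ‖u‖),
      mul_nonneg (sq_nonneg κ) (mul_nonneg η0.le p),
      mul_nonneg (sq_nonneg κ) (mul_nonneg η0.le (sq_nonneg ‖u‖)),
      mul_nonneg (sq_nonneg (κ + 1)) (mul_nonneg η0.le (sq_nonneg ‖u‖))]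

end Ang.Is

end Vale.Agent.P354BF
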