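import Vale.Agent.P354BF.Step

open scoped ContDiff InnerProductSpace ComplexConjugate
open MeasureTheory Set Filter Topology intervalIntegral
open Complex (I)

namespace Vale.Agent.P354BF

variable {S : Type} [NormedAddCommGroup S] [InnerProductSpace ℂ S] {A : Ang S}

/-- The properties of an approximate resolvent. -/
def Ang.Rs (A : Ang S) (k : ℝ) (σ : Fr) (μ η : ℝ) (G : S →L[ℂ] S) : Prop :=
  (∀ u, A.H1 (G u) ≤ ‖u‖ ^ 2) ∧
    (∀ α, ∃ T : S →L[ℂ] S, ∀ u, A.word α (G u) = T u) ∧ (∀ u, A.L 2 (G u) = G (A.L 2 u)) ∧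
    (∀ u, ‖A.lf k σ (G u) + (μ : ℂ) • G u - u‖ ^ 2 ≤ η * A.H1 u) ∧
    ∀ u, ‖G (A.lf k σ u) + (μ : ℂ) • G u - u‖ ^ 2 ≤ η * A.H1 u

theorem iter_clm (G : S →L[ℂ] S) {v : ℝ → S} (hv : ContDiff ℝ ∞ v) (j : ℕ) :
    iteratedDeriv j (fun r => G (v r)) = fun r => G (iteratedDeriv j v r) := by
  induction j with
  | zero => simp
  | succ j ih =>
    rw [iteratedDeriv_succ, ih]
    exact funext fun r =>
      ((G.restrictScalars ℝ).hasFDerivAt.comp_hasDerivAt r (iter_has hv j r)).deriv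

theorem Ang.Is.int_H1 (h : A.Is) {z : ℝ → S} (hz : A.Sm z) (k : ℕ) (x y : ℝ) :
    A.WL k z x y + W k z x y =
      ∑ j ∈ Finset.range (k + 1), ∫ r in x..y, A.H1 (iteratedDeriv j z r) := by
  unfold Ang.WL W Ang.H1
  rw [Finset.sum_comm, ← Finset.sum_add_distrib]
  refine Finset.sum_congr rfl fun j _ => ?_
  have c := fun i => iter_cont (hz.L i).cd j
  have d := iter_cont hz.cd j
  simp only [h.iter_L hz] at c ⊢
  rw [integral_add (Continuous.intervalIntegrable (by fun_prop) _ _)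
    (Continuous.intervalIntegrable (by fun_prop) _ _), integral_finsetSum fun i _ =>
      Continuous.intervalIntegrable (by fun_prop) _ _]

theorem Ang.Is.cont_H1 (h : A.Is) {z : ℝ → S} (hz : A.Sm z) (j : ℕ) :
    Continuous fun r => A.H1 (iteratedDeriv j z r) := by
  have c := fun i => iter_cont (hz.L i).cd j
  have d := iter_cont hz.cd j
  simp only [h.iter_L hz] at c
  unfold Ang.H1
  fun_prop

theorem Ang.Is.W_of (h : A.Is) {f z : ℝ → S} (hf : ContDiff ℝ ∞ f) (hz : A.Sm z) {β : ℝ}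
    (hb : ∀ j r, ‖iteratedDeriv j f r‖ ^ 2 ≤ β * A.H1 (iteratedDeriv j z r)) (k : ℕ) {x y : ℝ}
    (hxy : x ≤ y) : W k f x y ≤ β * (A.WL k z x y + W k z x y) := by
  rw [h.int_H1 hz, Finset.mul_sum]
  refine Finset.sum_le_sum fun j _ => ?_
  rw [← intervalIntegral.integral_const_mul]
  exact integral_mono_on hxy (((iter_cont hf j).norm.pow 2).intervalIntegrable _ _)
    ((continuous_const.mul (h.cont_H1 hz j)).intervalIntegrable _ _) fun r _ => hb j r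

namespace Ang.Rs

variable {k μ η : ℝ} {σ : Fr} {G : S →L[ℂ] S} {v : ℝ → S}

theorem le (g : A.Rs k σ μ η G) (u : S) : ‖G u‖ ≤ ‖u‖ := by
  have := g.1 u
  have p : 0 ≤ ∑ i, ‖A.L i (G u)‖ ^ 2 := by positivity
  unfold Ang.H1 at this
  exact le_of_sq_le_sq (by linarith) (norm_nonneg _)

theorem sm (g : A.Rs k σ μ η G) (hv : A.Sm v) : A.Sm fun r => G (v r) := fun α => by
  obtain ⟨T, hT⟩ := g.2.1 α
  simp only [hT]
  exact (T.restrictScalars ℝ).contDiff.comp hv.cd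

theorem md (g : A.Rs k σ μ η G) {m : ℝ} (hv : A.Md m v) : A.Md m fun r => G (v r) :=
  ⟨g.sm hv.1, fun r => by rw [g.2.2.1, hv.2, map_smul]⟩

theorem W_le (g : A.Rs k σ μ η G) (h : A.Is) (hv : A.Sm v) (n : ℕ) {x y : ℝ} (hxy : x ≤ y) :
    A.WL n (fun r => G (v r)) x y + W n (fun r => G (v r)) x y ≤ W n v x y := by
  rw [h.int_H1 (g.sm hv)]
  refine Finset.sum_le_sum fun j _ => integral_mono_on hxy
    ((h.cont_H1 (g.sm hv) j).intervalIntegrable _ _)
    (((iter_cont hv.cd j).norm.pow 2).intervalIntegrable _ _) fun r _ => ?_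
  rw [iter_clm G hv.cd]
  exact g.1 _

theorem W_one (g : A.Rs k σ μ η G) (h : A.Is) (hv : A.Sm v) (n : ℕ) {x y : ℝ} (hxy : x ≤ y) :
    W n (fun r => A.lf k σ (G (v r)) + (μ : ℂ) • G (v r) - v r) x y ≤
      η * (A.WL n v x y + W n v x y) := by
  have a := h.sm_lop (g.sm hv) k σ.a σ.om σ.m
  have b := a.add ((g.sm hv).cmul μ)
  refine h.W_of (b.sub hv).cd hv (fun j r => ?_) n hxy
  have e1 := iter_lin a.cd (g.sm hv).cd 1 μ j
  have e2 := iter_lin b.cd hv.cd 1 (-1) j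
  simp only [one_smul, neg_smul, ← sub_eq_add_neg] at e1 e2
  simp only [e2, e1, h.iter_lop (g.sm hv), iter_clm G hv.cd]
  exact g.2.2.2.1 _

theorem W_P (g : A.Rs k σ μ η G) (h : A.Is) (hv : A.Sm v) (s : ℝ) (n : ℕ) {x y : ℝ}
    (hxy : x ≤ y) : W n (A.Pf s k σ fun r => G (v r)) x y ≤
      2 * W n (A.Pf s k σ v) x y + 8 * η * (A.WL n v x y + W n v x y) := by
  have a := h.sm_lop (g.sm hv) k σ.a σ.om σ.m
  have b := g.sm (h.sm_lop hv k σ.a σ.om σ.m)
  have c := h.sm_P hv s k σ.M σ.a σ.om σ.m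
  have e : (A.Pf s k σ fun r => G (v r)) = fun r => (1 : ℂ) • G (A.Pf s k σ v r) +
      (1 : ℂ) • (G (A.lf k σ (v r)) - A.lf k σ (G (v r))) := by
    have e1 := iter_clm G hv.cd 1
    have e2 := iter_clm G hv.cd 2
    simp only [iteratedDeriv_one, iter_two] at e1 e2
    ext r
    simp only [Ang.P, e2, map_add, map_sub, map_smul, one_smul]
    rw [e1]
    abel
  have d : W n (fun r => G (A.lf k σ (v r)) - A.lf k σ (G (v r))) x y ≤
      4 * η * (A.WL n v x y + W n v x y) := by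
    refine h.W_of (b.sub a).cd hv (fun j r => ?_) n hxy
    have e2 := iter_lin b.cd a.cd 1 (-1) j
    simp only [one_smul, neg_smul, ← sub_eq_add_neg] at e2
    simp only [e2, h.iter_lop (g.sm hv), iter_clm G hv.cd,
      iter_clm G (h.sm_lop hv k σ.a σ.om σ.m).cd, h.iter_lop hv]
    set u := iteratedDeriv j v r
    have p1 := g.2.2.2.1 u
    have p2 := g.2.2.2.2 u
    have p3 := norm_sub_le (G (A.lf k σ u) + (μ : ℂ) • G u - u) (A.lf k σ (G u) + (μ : ℂ) • G u - u)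
    rw [sub_sub_sub_cancel_right, add_sub_add_right_eq_sub] at p3
    refine (pow_le_pow_left₀ (norm_nonneg _) p3 2).trans ?_
    nlinarith [sq_nonneg (‖G (A.lf k σ u) + (μ : ℂ) • G u - u‖ -
      ‖A.lf k σ (G u) + (μ : ℂ) • G u - u‖)]
  have f := W_lin (g.sm c).cd (b.sub a).cd 1 1 n hxy
  have f' := g.W_le h c n hxy
  have f0 := WL_nonneg (A := A) n (fun r => G (A.Pf s k σ v r)) hxy
  rw [e]
  simp only [norm_one, one_pow, mul_one] at f
  linarith

end Ang.Rs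

/-- The hypotheses on the form of the source and of the bulk term. -/
structure Par.Hyp2 (p : Par S) (A : Ang S) (c : ℝ → ℝ) : Prop extends p.Hyp A where
  r2 : 0 ≤ p.R2
  c0 : ∀ R, 0 ≤ c R
  sd : ∀ R σ v, p.src R σ v = c R * W 2 (A.Pf p.s p.k σ v) p.r0 (2 * R)
  bg : ∀ R, ∀ σ ∈ p.Ω, p.R2 ≤ R → ∀ G : S →L[ℂ] S, (∀ u, ‖G u‖ ≤ ‖u‖) → ∀ v, A.Md σ.m v →
    (A.Md σ.m fun r => G (v r)) → p.Bk R σ (fun r => G (v r)) ≤ p.Bk R σ v

/-- Admissible sequences for which the errors of the approximate resolvents tend to zero. -/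
def Par.Ad (p : Par S) (A : Ang S) (c : ℝ → ℝ) (R : ℕ → ℝ) (σ : ℕ → Fr) (η : ℕ → ℝ)
    (z : ℕ → ℝ → S) : Prop :=
  p.Adm A R σ z ∧ Tendsto (fun n => (c (R n) + 1) * (η n *
    (A.WL 3 (z n) p.r0 (2 * R n) + W 3 (z n) p.r0 (2 * R n)))) atTop (𝓝 0)

namespace Par

variable {p : Par S} {c : ℝ → ℝ} {R η : ℕ → ℝ} {σ : ℕ → Fr} {o : Fr} {z y : ℕ → ℝ → S} {μ : ℝ}
  {G : ℕ → S →L[ℂ] S}

theorem Seq.two (H : p.Hyp2 A c) (q : p.Seq R σ o) (n : ℕ) : p.R2 ≤ 2 * R n := by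
  linarith [q.le n, H.r2]

theorem Seq.two' (H : p.Hyp2 A c) (q : p.Seq R σ o) (n : ℕ) : p.r0 ≤ 2 * R n := by
  linarith [q.two H n, H.h3, H.h2]

theorem Ad.lin (H : p.Hyp2 A c) (q : p.Seq R σ o) (hη : ∀ n, 0 ≤ η n) (hz : p.Ad A c R σ η z)
    (hy : p.Ad A c R σ η y) (a b : ℂ) : p.Ad A c R σ η fun n r => a • z n r + b • y n r := by
  refine ⟨hz.1.lin H.toHyp q hy.1 a b, ?_⟩
  have := (hz.2.const_mul (2 * ‖a‖ ^ 2)).add (hy.2.const_mul (2 * ‖b‖ ^ 2))
  simp only [mul_zero, add_zero] at this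
  refine squeeze_zero (fun n => mul_nonneg (by linarith [H.c0 (R n)]) (mul_nonneg (hη n)
    (add_nonneg (WL_nonneg _ _ (q.two' H n)) (W_nonneg _ _ (q.two' H n))))) (fun n => ?_) this
  have a1 := W_lin (hz.1.1 n).1.cd (hy.1.1 n).1.cd a b 3 (q.two' H n)
  have a2 := Finset.sum_le_sum fun i (_ : i ∈ Finset.univ) =>
    W_lin ((hz.1.1 n).1.L i).cd ((hy.1.1 n).1.L i).cd a b 3 (q.two' H n)
  rw [Finset.sum_add_distrib, ← Finset.mul_sum, ← Finset.mul_sum] at a2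
  have a3 := mul_le_mul_of_nonneg_left (add_le_add a2 a1)
    (mul_nonneg (by linarith [H.c0 (R n)] : 0 ≤ c (R n) + 1) (hη n))
  simp only [Ang.WL, map_add, map_smul]
  linarith

theorem Ad.res (h : A.Is) (H : p.Hyp2 A c) (q : p.Seq R σ o) (hη : ∀ n, 0 ≤ η n)
    (g : ∀ n, A.Rs p.k (σ n) μ (η n) (G n)) (hz : p.Ad A c R σ η z) :
    p.Ad A c R σ η fun n r => G n (z n r) := by
  have md := fun n => (g n).md (hz.1.1 n)
  refine ⟨⟨md, hz.1.2.1.imp fun B hB n => (H.bg _ _ (q.mem n) (q.le n) _ (g n).le _ (hz.1.1 n)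
    (md n)).trans (hB n), ?_⟩, ?_⟩
  · have := (hz.1.2.2.const_mul 2).add (hz.2.const_mul 8)
    simp only [mul_zero, add_zero] at this
    refine squeeze_zero (fun n => (H.qs _ _ (q.mem n) (q.le n)).1 _ (md n)) (fun n => ?_) this
    have a1 := (g n).W_P h (hz.1.1 n).1 p.s 2 (q.two' H n)
    have a2 := mul_le_mul_of_nonneg_left (add_le_add
      (WL_mono (hz.1.1 n).1 (by norm_num : 2 ≤ 3) le_rfl (q.two' H n) le_rfl)
      (W_mono (hz.1.1 n).1.cd (by norm_num : 2 ≤ 3) le_rfl (q.two' H n) le_rfl)) (hη n)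
    have a3 := mul_nonneg (hη n) (add_nonneg (WL_nonneg (A := A) 3 (z n) (q.two' H n))
      (W_nonneg 3 (z n) (q.two' H n)))
    rw [H.sd, H.sd]
    nlinarith [mul_le_mul_of_nonneg_left a1 (H.c0 (R n)), mul_le_mul_of_nonneg_left a2 (H.c0 (R n))]
  · refine squeeze_zero (fun n => mul_nonneg (by linarith [H.c0 (R n)]) (mul_nonneg (hη n)
      (add_nonneg (WL_nonneg _ _ (q.two' H n)) (W_nonneg _ _ (q.two' H n))))) (fun n => ?_) hz.2
    exact mul_le_mul_of_nonneg_left (mul_le_mul_of_nonneg_left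
      (((g n).W_le h (hz.1.1 n).1 3 (q.two' H n)).trans
        (le_add_of_nonneg_left (WL_nonneg _ _ (q.two' H n)))) (hη n)) (by linarith [H.c0 (R n)])

theorem Ad.sml (h : A.Is) (H : p.Hyp2 A c) (q : p.Seq R σ o) (hη : ∀ n, 0 ≤ η n)
    (g : ∀ n, A.Rs p.k (σ n) μ (η n) (G n)) (hz : p.Ad A c R σ η z) :
    p.Sml fun n r => A.lf p.k (σ n) (G n (z n r)) + (μ : ℂ) • G n (z n r) - z n r := by
  have sm := fun n => ((h.sm_lop ((g n).sm (hz.1.1 n).1) p.k (σ n).a (σ n).om (σ n).m).add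
    (((g n).sm (hz.1.1 n).1).cmul μ)).sub (hz.1.1 n).1
  have t : Tendsto (fun n => W 3 (fun r => A.lf p.k (σ n) (G n (z n r)) + (μ : ℂ) • G n (z n r) -
      z n r) p.r0 (2 * R n)) atTop (𝓝 0) := by
    refine squeeze_zero (fun n => W_nonneg _ _ (q.two' H n)) (fun n => ?_) hz.2
    have a3 := mul_nonneg (hη n) (add_nonneg (WL_nonneg (A := A) 3 (z n) (q.two' H n))
      (W_nonneg 3 (z n) (q.two' H n)))
    nlinarith [(g n).W_one h (hz.1.1 n).1 3 (q.two' H n), mul_nonneg (H.c0 (R n)) a3]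
  refine ⟨fun n => (sm n).cd, fun Y hY => ?_, squeeze_zero (fun n => W_nonneg _ _ H.h2.le)
    (fun n => W_mono (sm n).cd le_rfl H.h3 H.h2.le (q.two H n)) t⟩
  refine squeeze_zero' (Eventually.of_forall fun n => W_nonneg _ _ hY) ?_ t
  filter_upwards [q.top.eventually_ge_atTop Y] with n hn
  exact W_mono (sm n).cd (by norm_num) le_rfl hY (by linarith [q.le n, H.r2])

/-- One factor of a polynomial in the approximate resolvent. -/
theorem step1 (h : A.Is) (H : p.Hyp2 A c) (q : p.Seq R σ o) (hη : ∀ n, 0 ≤ η n)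
    (hμ : ∀ n, kap p.k (σ n).a (σ n).om (σ n).m + 1 ≤ μ)
    (g : ∀ n, A.Rs p.k (σ n) μ (η n) (G n)) {ι : Type} {φ : ι → S} {j : ι → ℕ} {ρ : ι → ℝ}
    (hj : ∀ i, j i ≤ 2 ∧ ρ i ∈ Icc p.x0 p.R2) (fin : ∀ z, p.Adm A R σ z →
      (∀ i, Tendsto (fun n => innerSL ℂ (φ i) (iteratedDeriv (j i) (z n) (ρ i))) atTop (𝓝 0)) →
        p.Nul z) {ν : ℂ} (hz : p.Ad A c R σ η z)
    (hy : p.Ad A c R σ η fun n r => G n (z n r) - ν • z n r)
    (ny : p.Nul fun n r => G n (z n r) - ν • z n r) : p.Nul z := by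
  have hu := hz.res h H q hη g
  have d := hz.sml h H q hη g
  have sy := hy.1.sml H.toHyp q ny
  have su := fun n => (hu.1.1 n).1
  have sz := fun n => (hz.1.1 n).1
  rcases eq_or_ne ν 0 with rfl | ν0
  · simp only [zero_smul, sub_zero] at sy
    refine fin z hz.1 fun i => ?_
    have t := ((sy.val H.toHyp (hj i).1 (hj i).2).const_mul (‖A.cas (φ i)‖ + 2 * μ * ‖φ i‖)).add
      ((d.val H.toHyp (hj i).1 (hj i).2).const_mul ‖φ i‖)
    simp only [mul_zero, add_zero] at t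
    refine squeeze_zero_norm (fun n => ?_) t
    have a := h.sm_lop (su n) p.k (σ n).a (σ n).om (σ n).m
    have e1 := iter_lin a.cd (su n).cd 1 μ (j i)
    have e2 := iter_lin (a.add ((su n).cmul μ)).cd (sz n).cd 1 (-1) (j i)
    simp only [one_smul, neg_smul, ← sub_eq_add_neg] at e1 e2
    simp only [e2, e1, h.iter_lop (su n)]
    set x := iteratedDeriv (j i) (z n) (ρ i)
    set u := iteratedDeriv (j i) (fun r => G n (z n r)) (ρ i)
    set e := A.lf p.k (σ n) u + (μ : ℂ) • u - x with he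
    have k0 := kap_nonneg p.k (σ n).a (σ n).om (σ n).m
    have m0 : 0 ≤ μ := by linarith [hμ n]
    have e3 : innerSL ℂ (φ i) x = ⟪A.cas (φ i), u⟫_ℂ + ⟪φ i, A.lf p.k (σ n) u - A.cas u⟫_ℂ +
        μ * ⟪φ i, u⟫_ℂ - ⟪φ i, e⟫_ℂ := by
      simp only [he, innerSL_apply_apply, inner_sub_right, inner_add_right, inner_smul_right,
        h.cas_symm]
      ring
    rw [e3]
    refine (norm_sub_le _ _).trans (add_le_add (norm_add₃_le.trans ?_) (norm_inner_le_norm _ _))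
    rw [norm_mul, Complex.norm_real, Real.norm_of_nonneg m0]
    have b1 := norm_inner_le_norm (𝕜 := ℂ) (A.cas (φ i)) u
    have b2 := (norm_inner_le_norm (𝕜 := ℂ) (φ i) _).trans (mul_le_mul_of_nonneg_left
      (h.U_le p.k (σ n).a (σ n).om (σ n).m u) (norm_nonneg _))
    have b3 := mul_le_mul_of_nonneg_left (norm_inner_le_norm (𝕜 := ℂ) (φ i) u) m0
    nlinarith [mul_nonneg (norm_nonneg (φ i)) (norm_nonneg u), hμ n]
  · have s1 := sy.lin H.toHyp d (-ν⁻¹) 1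
    have e : (fun n r => -ν⁻¹ • (G n (z n r) - ν • z n r) + (1 : ℂ) •
        (A.lf p.k (σ n) (G n (z n r)) + (μ : ℂ) • G n (z n r) - z n r)) = fun n r =>
        A.lf p.k (σ n) (G n (z n r)) - (ν⁻¹ - μ) • G n (z n r) := by
      ext n r
      rw [smul_sub, smul_smul, neg_mul, inv_mul_cancel₀ ν0]
      module
    rw [e] at s1
    have nu := fin _ hu.1 fun i => step0 h H.toHyp q hu.1 s1 _ (hj i).1 (hj i).2
    have t := (nu.const_mul (2 * ‖ν⁻¹‖ ^ 2)).add (ny.const_mul (2 * ‖-ν⁻¹‖ ^ 2))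
    simp only [mul_zero, add_zero] at t
    refine squeeze_zero (fun n => W_nonneg _ _ H.h2.le) (fun n => ?_) t
    refine le_of_eq_of_le ?_ (W_lin (su n).cd (hy.1.1 n).1.cd _ _ 2 H.h2.le)
    refine congrArg (fun f => W 2 f p.x0 p.R2) (funext fun r => ?_)
    rw [smul_sub, smul_smul, neg_mul, inv_mul_cancel₀ ν0]
    module

end Par

end Vale.Agent.P354BF
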