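import Vale.Agent.P354BF.Intp
import Vale.Agent.P354XN.Defs

open scoped ContDiff
open Set Filter Topology
open Complex (I)
open Vale.Agent.P354XN

namespace Vale.Agent.P354BF

/-- Coefficients of radial operators of order at most three. -/
abbrev Row := ℕ → Fr → ℝ → ℂ

/-- The set where the coefficients are smooth. -/
def Uo : Set (Fr × ℝ) := {z | De z.1.M z.1.a z.2 ≠ 0 ∧ 0 < z.2}

/-- Smooth coefficients. -/
def Co (f : Fr → ℝ → ℂ) : Prop := ∀ z ∈ Uo, ContDiffAt ℝ ∞ (fun z : Fr × ℝ => f z.1 z.2) z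

theorem mem_Uo {σ : Fr} {r : ℝ} (ha : |σ.a| < σ.M) (hr : rp σ.M σ.a < r) : (σ, r) ∈ Uo :=
  ⟨(De_pos ha hr).ne', (rp_pos ha).trans hr⟩

theorem Co.mul {f g : Fr → ℝ → ℂ} (hf : Co f) (hg : Co g) : Co fun σ r => f σ r * g σ r :=
  fun z hz => (hf z hz).mul (hg z hz)

theorem co_const (c : ℂ) : Co fun _ _ => c := fun _ _ => contDiffAt_const

theorem Co.der {f : Fr → ℝ → ℂ} (hf : Co f) : Co fun σ r => deriv (f σ) r := fun z hz => by
  have a : ContDiffAt ℝ ∞ (Function.uncurry fun (w : Fr × ℝ) (r : ℝ) => f w.1 r) (z, z.2) :=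
    ContDiffAt.comp (g := fun z : Fr × ℝ => f z.1 z.2)
      (f := fun y : (Fr × ℝ) × ℝ => (y.1.1, y.2)) (z, z.2) (hf z hz) (by fun_prop)
  exact (a.fderiv (m := ∞) contDiffAt_snd le_rfl).clm_apply contDiffAt_const

theorem Co.has {f : Fr → ℝ → ℂ} (hf : Co f) {σ : Fr} {r : ℝ} (hz : (σ, r) ∈ Uo) :
    HasDerivAt (f σ) (deriv (f σ) r) r :=
  (((hf _ hz).comp r (f := fun r => (σ, r)) (by fun_prop)).differentiableAt (by simp)).hasDerivAt

theorem co_re {f : Fr × ℝ → ℝ} (hf : ∀ z ∈ Uo, ContDiffAt ℝ ∞ f z) :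
    Co fun σ r => (f (σ, r) : ℂ) := fun z hz =>
  Complex.ofRealCLM.contDiff.contDiffAt.comp z (hf z hz)

/-- The coefficient 2 i K / Delta. -/
noncomputable def kk (σ : Fr) (r : ℝ) : ℂ := 2 * I * Kf σ.a σ.om σ.m r / De σ.M σ.a r

theorem co_kk : Co kk := fun z hz => by
  have c : ∀ f : Fr × ℝ → ℝ, ContDiff ℝ ∞ f → ContDiffAt ℝ ∞ (fun z => (f z : ℂ)) z := fun f hf =>
    (Complex.ofRealCLM.contDiff.comp hf).contDiffAt
  simp only [kk, Kf, div_eq_mul_inv]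
  refine ContDiffAt.mul (contDiffAt_const.mul (((by fun_prop : ContDiffAt ℝ ∞
    (fun z : Fr × ℝ => z.1.om) z).mul (((c _ contDiff_snd).pow 2).add
      ((c (fun z => z.1.a) (by fun_prop)).pow 2))).sub ((c (fun z => z.1.a) (by fun_prop)).mul
        (c (fun z => z.1.m) (by fun_prop))))) 
    ((c (fun z => De z.1.M z.1.a z.2) (by unfold De; fun_prop)).inv ?_)
  exact_mod_cast hz.1

/-- The weight r^(-n-1/2). -/
noncomputable def wt (n : ℕ) (_ : Fr) (r : ℝ) : ℂ := ((√r * r ^ n)⁻¹ : ℝ)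

theorem co_wt (n : ℕ) : Co (wt n) := co_re (f := fun z => (√z.2 * z.2 ^ n)⁻¹) fun z hz =>
  ((contDiffAt_snd.sqrt hz.2.ne').mul (contDiffAt_snd.pow n)).inv
    (mul_pos (Real.sqrt_pos.2 hz.2) (pow_pos hz.2 n)).ne'

theorem wt_sq (n : ℕ) (σ : Fr) {r : ℝ} (hr : 0 < r) : ‖wt n σ r‖ ^ 2 = (r ^ (2 * n + 1))⁻¹ := by
  rw [wt, Complex.norm_real, Real.norm_eq_abs, sq_abs, inv_pow, mul_pow, Real.sq_sqrt hr.le]
  ring

theorem wt_ne (n : ℕ) (σ : Fr) {r : ℝ} (hr : 0 < r) : wt n σ r ≠ 0 := fun e => by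
  have := wt_sq n σ hr
  rw [e, norm_zero] at this
  exact (by positivity : (0 : ℝ) < (r ^ (2 * n + 1))⁻¹).ne (by simpa using this)

namespace Row

/-- One derivative with a coefficient, the product with a function, and the operator D. -/
def e (i : ℕ) (w : Fr → ℝ → ℂ) : Row := fun j σ r => if j = i then w σ r else 0
def mul (w : Fr → ℝ → ℂ) (t : Row) : Row := fun j σ r => w σ r * t j σ r
def sh (t : Row) : Row
  | 0 => fun _ _ => 0
  | j + 1 => t j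
noncomputable def D (t : Row) : Row := fun j σ r =>
  deriv (t j σ) r - kk σ r * t j σ r + t.sh j σ r

/-- Smooth coefficients, order at most n. -/
def Ok (n : ℕ) (t : Row) : Prop := (∀ j, Co (t j)) ∧ ∀ j, n < j → t j = fun _ _ => 0

theorem ok_e (i : ℕ) {w : Fr → ℝ → ℂ} (hw : Co w) : Ok i (e i w) :=
  ⟨fun j => by
    unfold e
    split_ifs
    exacts [hw, co_const 0], fun j hj => by ext σ r; simp [e, hj.ne']⟩

theorem Ok.mul {n : ℕ} {t : Row} (h : Ok n t) {w : Fr → ℝ → ℂ} (hw : Co w) : Ok n (mul w t) :=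
  ⟨fun j => hw.mul (h.1 j), fun j hj => by ext σ r; simp [Row.mul, h.2 j hj]⟩

theorem Ok.D {n : ℕ} {t : Row} (h : Ok n t) : Ok (n + 1) t.D := by
  refine ⟨fun j z hz => (((h.1 j).der z hz).sub ((co_kk.mul (h.1 j)) z hz)).add ?_, fun j hj => ?_⟩
  · cases j with
    | zero => exact co_const 0 z hz
    | succ j => exact h.1 j z hz
  · obtain ⟨j, rfl⟩ : ∃ i, j = i + 1 := ⟨j - 1, by omega⟩
    ext σ r
    simp [Row.D, sh, h.2 (j + 1) (by omega), h.2 j (by omega)]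

end Row

variable {E : Type} [NormedAddCommGroup E] [InnerProductSpace ℂ E]

/-- The value of a radial operator on a jet. -/
noncomputable def ev (t : Row) (σ : Fr) (g : ℕ → ℝ → E) (r : ℝ) : E :=
  ∑ j ∈ Finset.range 4, t j σ r • g j r

theorem ev_e {i : ℕ} (hi : i < 4) (w : Fr → ℝ → ℂ) (σ : Fr) (g : ℕ → ℝ → E) (r : ℝ) :
    ev (Row.e i w) σ g r = w σ r • g i r := by
  simp [ev, Row.e, hi]

theorem ev_mul (w : Fr → ℝ → ℂ) (t : Row) (σ : Fr) (g : ℕ → ℝ → E) (r : ℝ) :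
    ev (Row.mul w t) σ g r = w σ r • ev t σ g r := by
  simp only [ev, Row.mul, Finset.smul_sum, mul_smul]

/-- Jets on (r+, oo). -/
def Jet (σ : Fr) (g : ℕ → ℝ → E) : Prop :=
  ∀ r, rp σ.M σ.a < r → ∀ j < 3, HasDerivAt (g j) (g (j + 1) r) r

theorem ev_D {σ : Fr} (ha : |σ.a| < σ.M) {g : ℕ → ℝ → E} (hg : Jet σ g) {t : Row} {n : ℕ}
    (ht : t.Ok n) (hn : n < 3) {c : ℝ → E} (hc : ∀ r, rp σ.M σ.a < r → c r = ev t σ g r) {r : ℝ}
    (hr : rp σ.M σ.a < r) : HasDerivAt c (ev t.D σ g r + kk σ r • c r) r := by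
  have d := fun j (hj : j < 3) => ((ht.1 j).has (mem_Uo ha hr)).smul (hg r hr j hj)
  refine ((((d 0 (by norm_num)).add (d 1 (by norm_num))).add (d 2 (by norm_num))).congr_deriv
    ?_).congr_of_eventuallyEq ?_
  · rw [hc r hr]
    simp only [ev, Finset.sum_range_succ, Finset.sum_range_zero, Row.D, Row.sh, ht.2 3 hn,
      deriv_const']
    module
  · filter_upwards [Ioi_mem_nhds hr] with x hx
    rw [hc x hx]
    simp [ev, Finset.sum_range_succ, ht.2 3 hn]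

theorem ev_Dd {σ : Fr} (ha : |σ.a| < σ.M) {g : ℕ → ℝ → E} (hg : Jet σ g) {t : Row} {n : ℕ}
    (ht : t.Ok n) (hn : n < 3) {c : ℝ → E} (hc : ∀ r, rp σ.M σ.a < r → c r = ev t σ g r) {r : ℝ}
    (hr : rp σ.M σ.a < r) : Dd σ.M σ.a σ.om σ.m c r = ev t.D σ g r := by
  rw [Dd, (ev_D ha hg ht hn hc hr).deriv]
  exact add_sub_cancel_right _ _

theorem ev_cont {σ : Fr} (ha : |σ.a| < σ.M) {g : ℕ → ℝ → E} {r : ℝ} (hr : rp σ.M σ.a < r)
    (hg : ∀ j < 4, ContinuousAt (g j) r) {t : Row} (ht : ∀ j, Co (t j)) :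
    ContinuousAt (ev t σ g) r :=
  tendsto_finsetSum _ fun j hj =>
    ((ht j).has (mem_Uo ha hr)).continuousAt.smul (hg j (Finset.mem_range.1 hj))

/-- The chain of spin -2. -/
noncomputable def t0 : Row := Row.e 0 fun σ r => (De σ.M σ.a r : ℂ) ^ 2 / r ^ 3
noncomputable def t1 : Row := Row.mul (fun _ r => (r : ℂ) ^ 2) t0.D
noncomputable def t2 : Row := Row.mul (fun _ r => (r : ℂ) ^ 2) t1.D
noncomputable def t3 : Row := t2.D

theorem co_sq : Co fun _ r => (r : ℂ) ^ 2 := fun z hz =>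
  (co_re (f := fun z => z.2) (fun _ _ => contDiffAt_snd) z hz).pow 2

theorem ok0 : t0.Ok 0 := Row.ok_e 0 fun z hz => by
  simp only [div_eq_mul_inv]
  exact ((co_re (f := fun z => De z.1.M z.1.a z.2)
    (fun _ _ => by unfold De; fun_prop) z hz).pow 2).mul
    (((co_re (f := fun z => z.2) (fun _ _ => contDiffAt_snd) z hz).pow 3).inv
      (pow_ne_zero _ (Complex.ofReal_ne_zero.2 hz.2.ne')))
theorem ok1 : t1.Ok 1 := ok0.D.mul co_sq
theorem ok2 : t2.Ok 2 := ok1.D.mul co_sq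
theorem ok3 : t3.Ok 3 := ok2.D

section
variable {σ : Fr} (ha : |σ.a| < σ.M) {g : ℕ → ℝ → E} (hg : Jet σ g)

theorem ev0 (r : ℝ) (_ : rp σ.M σ.a < r) : c0 σ.M σ.a (g 0) r = ev t0 σ g r :=
  by rw [t0, ev_e (by norm_num)]; rfl

include ha hg

theorem ev1 (r : ℝ) (hr : rp σ.M σ.a < r) : c1 σ.M σ.a σ.om σ.m (g 0) r = ev t1 σ g r := by
  rw [t1, ev_mul, ← ev_Dd ha hg ok0 (by norm_num) ev0 hr]; rfl

theorem ev2 (r : ℝ) (hr : rp σ.M σ.a < r) : c2 σ.M σ.a σ.om σ.m (g 0) r = ev t2 σ g r := by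
  rw [t2, ev_mul, ← ev_Dd ha hg ok1 (by norm_num) (ev1 ha hg) hr]; rfl

theorem ev3 (r : ℝ) (hr : rp σ.M σ.a < r) : c3 σ.M σ.a σ.om σ.m (g 0) r = ev t3 σ g r :=
  ev_Dd ha hg ok2 (by norm_num) (ev2 ha hg) hr

end

/-- The rows of the far densities and of the layers. -/
noncomputable def Tp : Fin 2 → Row := ![Row.e 0 (wt 3), Row.e 1 (wt 3)]
noncomputable def Lp : Fin 2 → Row := ![Row.mul (wt 2) (Row.e 0 fun _ _ => 1).D, Row.e 0 (wt 3)]
noncomputable def Tm : Fin 4 → Row :=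
  ![Row.mul (wt 2) t0, Row.mul (wt 2) t1, Row.mul (wt 2) t2, Row.mul (wt 0) t3]
noncomputable def Lm : Fin 1 → Row := ![Row.mul (wt 0) t3]

theorem co_Tp (i : Fin 2) : ∀ j, Co (Tp i j) := by
  fin_cases i
  exacts [(Row.ok_e 0 (co_wt 3)).1, (Row.ok_e 1 (co_wt 3)).1]

theorem co_Lp (i : Fin 2) : ∀ j, Co (Lp i j) := by
  fin_cases i
  exacts [((Row.ok_e 0 (co_const 1)).D.mul (co_wt 2)).1, (Row.ok_e 0 (co_wt 3)).1]

theorem co_Tm (i : Fin 4) : ∀ j, Co (Tm i j) := by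
  fin_cases i
  exacts [(ok0.mul (co_wt 2)).1, (ok1.mul (co_wt 2)).1, (ok2.mul (co_wt 2)).1,
    (ok3.mul (co_wt 0)).1]

theorem co_Lm (i : Fin 1) : ∀ j, Co (Lm i j) := by
  fin_cases i
  exact (ok3.mul (co_wt 0)).1

section
variable {σ : Fr} (ha : |σ.a| < σ.M) {g : ℕ → ℝ → E} (hg : Jet σ g) {r : ℝ} (hr : rp σ.M σ.a < r)
include ha hg hr

theorem fp_eq : fp (g 0) r = ∑ i, ‖ev (Tp i) σ g r‖ ^ 2 := by
  have r0 := (rp_pos ha).trans hr
  simp only [Fin.sum_univ_two, Tp, Matrix.cons_val_zero, Matrix.cons_val_one,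
    ev_e (show 0 < 4 by norm_num), ev_e (show 1 < 4 by norm_num), norm_smul, mul_pow,
    wt_sq _ _ r0, fp, (hg r hr 0 (by norm_num)).deriv]
  field_simp

theorem lp_eq (p : ℝ) :
    lp p σ.M σ.a σ.om σ.m (g 0) r = r ^ p * ∑ i, ‖ev (Lp i) σ g r‖ ^ 2 := by
  have r0 := (rp_pos ha).trans hr
  have e := ev_Dd ha hg (Row.ok_e 0 (co_const 1)) (by norm_num) (c := g 0)
    (fun r _ => by rw [ev_e (by norm_num), one_smul]) hr
  simp only [Fin.sum_univ_two, Lp, Matrix.cons_val_zero, Matrix.cons_val_one, ev_mul,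
    ev_e (show 0 < 4 by norm_num), norm_smul, mul_pow, wt_sq _ _ r0, P354XN.lp, e]
  field_simp
  ring

theorem fm_eq : fm σ.M σ.a σ.om σ.m (g 0) r = ∑ i, ‖ev (Tm i) σ g r‖ ^ 2 := by
  have r0 := (rp_pos ha).trans hr
  simp only [Fin.sum_univ_four, Tm, Matrix.cons_val_zero, Matrix.cons_val_one, Matrix.cons_val,
    ev_mul, norm_smul, mul_pow, wt_sq _ _ r0, fm, ev0 r hr, ev1 ha hg r hr, ev2 ha hg r hr,
    ev3 ha hg r hr]
  field_simp
  ring

theorem lm_eq (p : ℝ) :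
    lm p σ.M σ.a σ.om σ.m (g 0) r = r ^ p * ∑ i, ‖ev (Lm i) σ g r‖ ^ 2 := by
  have r0 := (rp_pos ha).trans hr
  simp only [Fin.sum_univ_one, Lm, Matrix.cons_val_zero, ev_mul, norm_smul, mul_pow,
    wt_sq _ _ r0, lm, ev3 ha hg r hr]
  field_simp
  ring

end

end Vale.Agent.P354BF
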