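import Vale.Agent.P354BF.One

open scoped ContDiff
open MeasureTheory Set Filter Topology intervalIntegral

namespace Vale.Agent.P354BF

theorem tlu_congr {X : Type} [PseudoMetricSpace X] {F : ℕ → ℝ → X} {f : ℝ → X} {K : Set ℝ}
    (h : ∀ ε > 0, ∀ᶠ n in atTop, ∀ r ∈ K, dist (f r) (F n r) < ε) :
    TendstoUniformlyOn F f atTop K := Metric.tendstoUniformlyOn_iff.2 h

/-- Uniform convergence of coefficients which depend continuously on a parameter. -/
theorem coef_unif {X : Type} [PseudoMetricSpace X] {p : X → ℝ → ℂ} {om : ℕ → X} {o : X}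
    {x y : ℝ} (hp : ∀ r ∈ Icc x y, ContinuousAt (fun z : X × ℝ => p z.1 z.2) (o, r))
    (ho : Tendsto om atTop (𝓝 o)) :
    TendstoUniformlyOn (fun n => p (om n)) (p o) atTop (Icc x y) := by
  have hc : IsCompact (({o} : Set X) ×ˢ Icc x y) := isCompact_singleton.prod isCompact_Icc
  refine tlu_congr fun ε hε => ?_
  obtain ⟨δ, hδ, h⟩ := Metric.mem_uniformity_dist.1 (hc.uniformContinuousAt_of_continuousAt
    (fun z : X × ℝ => p z.1 z.2) (fun z hz => by
      have e : z = (o, z.2) := Prod.ext hz.1 rfl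
      rw [e]; exact hp _ hz.2) (Metric.dist_mem_uniformity hε))
  filter_upwards [Metric.tendsto_nhds.1 ho δ hδ] with n hn r hr
  refine h (a := (o, r)) (b := (om n, r)) ?_ ⟨rfl, hr⟩
  rw [Prod.dist_eq, dist_self, dist_comm]
  exact max_lt hn hδ

theorem bd_of_unif {F : ℕ → ℝ → ℂ} {f : ℝ → ℂ} {x y : ℝ}
    (h : TendstoUniformlyOn F f atTop (Icc x y)) (hf : ContinuousOn f (Icc x y)) :
    ∃ B, 0 < B ∧ (∀ r ∈ Icc x y, ‖f r‖ ≤ B) ∧ ∀ᶠ n in atTop, ∀ r ∈ Icc x y, ‖F n r‖ ≤ B := by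
  obtain ⟨B, hB⟩ := isCompact_Icc.exists_bound_of_continuousOn hf
  refine ⟨|B| + 1, by positivity, fun r hr => by linarith [hB r hr, le_abs_self B], ?_⟩
  filter_upwards [Metric.tendstoUniformlyOn_iff.1 h 1 one_pos] with n hn r hr
  have := norm_sub_norm_le (F n r) (f r)
  have e := hn r hr
  rw [dist_comm, dist_eq_norm] at e
  linarith [hB r hr, le_abs_self B]

theorem mul_unif {F G : ℕ → ℝ → ℂ} {f g : ℝ → ℂ} {x y : ℝ}
    (h : TendstoUniformlyOn F f atTop (Icc x y)) (hf : ContinuousOn f (Icc x y))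
    (h' : TendstoUniformlyOn G g atTop (Icc x y)) (hg : ContinuousOn g (Icc x y)) :
    TendstoUniformlyOn (fun n r => F n r * G n r) (fun r => f r * g r) atTop (Icc x y) := by
  obtain ⟨B, B0, -, hB⟩ := bd_of_unif h hf
  obtain ⟨C, C0, hC, -⟩ := bd_of_unif h' hg
  refine tlu_congr fun ε hε => ?_
  filter_upwards [hB, Metric.tendstoUniformlyOn_iff.1 h (ε / (2 * C)) (by positivity),
    Metric.tendstoUniformlyOn_iff.1 h' (ε / (2 * B)) (by positivity)] with n a b c r hr
  have b' := b r hr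
  have c' := c r hr
  rw [dist_eq_norm] at b' c' ⊢
  have e : f r * g r - F n r * G n r = (f r - F n r) * g r + F n r * (g r - G n r) := by ring
  rw [e]
  refine (norm_add_le _ _).trans_lt ?_
  rw [norm_mul, norm_mul]
  rw [lt_div_iff₀ (by positivity)] at b' c'
  nlinarith [mul_le_mul_of_nonneg_left (hC r hr) (norm_nonneg (f r - F n r)),
    mul_le_mul_of_nonneg_right (a r hr) (norm_nonneg (g r - G n r))]

/-- A sequence which tends to zero in H1 tends to zero uniformly. -/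
theorem unif_of_h1 {e e1 : ℕ → ℝ → ℂ} {x y : ℝ} (hxy : x < y)
    (hd : ∀ n, ∀ r ∈ Icc x y, HasDerivAt (e n) (e1 n r) r) (hc : ∀ n, ContinuousOn (e1 n) (Icc x y))
    (h0 : Tendsto (fun n => ∫ r in x..y, ‖e n r‖ ^ 2) atTop (𝓝 0))
    (h1 : Tendsto (fun n => ∫ r in x..y, ‖e1 n r‖ ^ 2) atTop (𝓝 0)) :
    TendstoUniformlyOn e (fun _ => 0) atTop (Icc x y) := by
  refine tlu_congr fun ε hε => ?_
  have := (h0.add h1).const_mul (2 / (y - x) + 2 * (y - x))
  rw [add_zero, mul_zero] at this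
  filter_upwards [this.eventually (gt_mem_nhds (by positivity : (0 : ℝ) < ε ^ 2))] with n hn r hr
  rw [dist_comm, dist_zero_right]
  exact lt_of_pow_lt_pow_left₀ 2 hε.le ((trace hxy (hd n) (hc n) hr).trans_lt hn)

/-- Locally uniform convergence on (x0, oo) to a continuous function. -/
def Cv (x0 : ℝ) (F : ℕ → ℝ → ℂ) (G : ℝ → ℂ) : Prop :=
  ContinuousOn G (Ioi x0) ∧ ∀ x y, x0 < x → x < y → TendstoUniformlyOn F G atTop (Icc x y)

/-- Approximate solutions of a linear second order equation with converging initial values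
converge to a solution. -/
theorem ode_lim {x0 r1 : ℝ} (hr1 : x0 < r1) {P Q : ℕ → ℝ → ℂ} {p q : ℝ → ℂ} (hp : Cv x0 P p)
    (hq : Cv x0 Q q) {f f1 e : ℕ → ℝ → ℂ}
    (d0 : ∀ n r, x0 < r → HasDerivAt (f n) (f1 n r) r)
    (d1 : ∀ n r, x0 < r → HasDerivAt (f1 n) (P n r * f1 n r + Q n r * f n r + e n r) r)
    (he : ∀ x y, x0 < x → x < y → TendstoUniformlyOn e (fun _ => 0) atTop (Icc x y))
    {a b : ℂ} (ha : Tendsto (fun n => f n r1) atTop (𝓝 a))
    (hb : Tendsto (fun n => f1 n r1) atTop (𝓝 b)) :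
    ∃ g g1 : ℝ → ℂ, (∀ r, x0 < r → HasDerivAt g (g1 r) r ∧
      HasDerivAt g1 (p r * g1 r + q r * g r) r) ∧ ∀ x y, x0 < x → x < y →
      TendstoUniformlyOn f g atTop (Icc x y) ∧ TendstoUniformlyOn f1 g1 atTop (Icc x y) := by
  set Y : ℕ → ℝ → ℂ × ℂ := fun n r => (f n r, f1 n r) with hY
  have cp : ∀ {P : ℕ → ℝ → ℂ} {p : ℝ → ℂ}, Cv x0 P p →
      ∀ {x y}, x0 < x → ContinuousOn p (Icc x y) := fun hp x y hx =>
    hp.1.mono fun r hr => hx.trans_le hr.1
  have cau : ∀ x y, x0 < x → x < y → r1 ∈ Icc x y → UniformCauchySeqOn Y atTop (Icc x y) := by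
    intro x y hx hxy h1
    have sU : Icc x y ⊆ Ioi x0 := fun r hr => hx.trans_le hr.1
    have up := hp.2 x y hx hxy
    have uq := hq.2 x y hx hxy
    obtain ⟨Bp, p0, -, hBp⟩ := bd_of_unif up (cp hp hx)
    obtain ⟨Bq, q0, -, hBq⟩ := bd_of_unif uq (cp hq hx)
    obtain ⟨Be, e0, -, hBe⟩ := bd_of_unif (he x y hx hxy) continuousOn_const
    set K := Bp + Bq + 1 with hK
    have K0 : 0 < K := by positivity
    have dY : ∀ n, ∀ r ∈ Icc x y, HasDerivAt (Y n)
        (f1 n r, P n r * f1 n r + Q n r * f n r + e n r) r := fun n r hr =>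
      (d0 n r (sU hr)).prodMk (d1 n r (sU hr))
    have lin : ∀ (α β ε : ℂ) (u v : ℂ), ‖α‖ ≤ Bp → ‖β‖ ≤ Bq →
        ‖(v, α * v + β * u + ε)‖ ≤ K * ‖(u, v)‖ + ‖ε‖ := fun α β ε u v h1 h2 => by
      have a1 : ‖u‖ ≤ ‖(u, v)‖ := norm_fst_le (u, v)
      have a2 : ‖v‖ ≤ ‖(u, v)‖ := norm_snd_le (u, v)
      have a3 := norm_nonneg (u, v)
      refine max_le (by nlinarith [norm_nonneg ε]) ((norm_add₃_le).trans ?_)
      rw [norm_mul, norm_mul]
      nlinarith [mul_le_mul h1 a2 (norm_nonneg _) p0.le, mul_le_mul h2 a1 (norm_nonneg _) q0.le]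
    have hY1 : Tendsto (fun n => Y n r1) atTop (𝓝 (a, b)) := ha.prodMk_nhds hb
    set T := Real.exp (K * (y - x))
    have T0 : 0 < T := Real.exp_pos _
    set D := (‖(a, b)‖ + 1 + Be / K) * T with hD
    have D0 : 0 < D := by positivity
    have bY : ∀ᶠ n in atTop, ∀ r ∈ Icc x y, ‖Y n r‖ ≤ D := by
      filter_upwards [hBp, hBq, hBe, hY1.norm.eventually (gt_mem_nhds (lt_add_one _))]
        with n a1 a2 a3 a4 r hr
      refine (gron K0 e0.le (dY n) (fun r hr => (lin _ _ _ _ _ (a1 r hr) (a2 r hr)).trans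
        (by linarith [a3 r hr])) h1 hr).trans ?_
      exact mul_le_mul_of_nonneg_right (by linarith) T0.le
    rw [Metric.uniformCauchySeqOn_iff]
    intro ε hε
    set η := ε / (4 * T) with hη
    have η0 : 0 < η := by positivity
    set θ := η * K / (4 * D + 2) with hθ
    have θ0 : 0 < θ := by positivity
    obtain ⟨N, hN⟩ := eventually_atTop.1 (hBp.and (hBq.and (bY.and
      ((Metric.tendstoUniformlyOn_iff.1 up θ θ0).and ((Metric.tendstoUniformlyOn_iff.1 uq θ θ0).and
      ((Metric.tendstoUniformlyOn_iff.1 (he x y hx hxy) θ θ0).and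
      (Metric.tendsto_nhds.1 hY1 (η / 2) (by positivity))))))))
    refine ⟨N, fun m hm n hn r hr => ?_⟩
    obtain ⟨a1, a2, -, a4, a5, a6, a7⟩ := hN m hm
    obtain ⟨-, -, b3, b4, b5, b6, b7⟩ := hN n hn
    have g := gron (Y := fun r => Y m r - Y n r) (ε := η * K) K0 (by positivity)
      (fun r hr => (dY m r hr).sub (dY n r hr)) (fun r hr => by
        have e1 : ((f1 m r, P m r * f1 m r + Q m r * f m r + e m r) -
            (f1 n r, P n r * f1 n r + Q n r * f n r + e n r) : ℂ × ℂ) =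
            (f1 m r - f1 n r, P m r * (f1 m r - f1 n r) + Q m r * (f m r - f n r) +
              ((P m r - P n r) * f1 n r + (Q m r - Q n r) * f n r +
                (e m r - e n r))) := by
          ext
          · simp
          · simp only [Prod.snd_sub]; ring
        rw [e1]
        refine (lin _ _ _ _ _ (a1 r hr) (a2 r hr)).trans (add_le_add le_rfl ?_)
        have c1 : ‖P m r - P n r‖ ≤ 2 * θ := by
          rw [← dist_eq_norm]
          linarith [dist_triangle_left (P m r) (P n r) (p r), a4 r hr, b4 r hr]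
        have c2 : ‖Q m r - Q n r‖ ≤ 2 * θ := by
          rw [← dist_eq_norm]
          linarith [dist_triangle_left (Q m r) (Q n r) (q r), a5 r hr, b5 r hr]
        have c3 : ‖e m r - e n r‖ ≤ 2 * θ := by
          rw [← dist_eq_norm]
          linarith [dist_triangle_left (e m r) (e n r) 0, a6 r hr, b6 r hr]
        have c4 : ‖f n r‖ ≤ D := (norm_fst_le (Y n r)).trans (b3 r hr)
        have c5 : ‖f1 n r‖ ≤ D := (norm_snd_le (Y n r)).trans (b3 r hr)
        refine norm_add₃_le.trans ?_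
        rw [norm_mul, norm_mul]
        have c6 : θ * (4 * D + 2) = η * K := by rw [hθ]; field_simp
        nlinarith [mul_le_mul c1 c5 (norm_nonneg _) (by positivity),
          mul_le_mul c2 c4 (norm_nonneg _) (by positivity)]) h1 hr
    have c7 : ‖Y m r1 - Y n r1‖ ≤ η := by
      rw [← dist_eq_norm]
      linarith [dist_triangle_right (Y m r1) (Y n r1) (a, b)]
    rw [dist_eq_norm]
    have c8 : η * K / K = η := by field_simp
    have c9 : η * (4 * T) = ε := by rw [hη]; field_simp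
    rw [c8] at g
    nlinarith [mul_le_mul_of_nonneg_right c7 T0.le, mul_pos η0 T0]
  have big : ∀ x y, x0 < x → x < y → UniformCauchySeqOn Y atTop (Icc x y) := fun x y hx hxy =>
    (cau (min x r1) (max y r1) (lt_min hx hr1) ((min_le_left _ _).trans_lt
      (hxy.trans_le (le_max_left _ _))) ⟨min_le_right _ _, le_max_right _ _⟩).mono
      (Icc_subset_Icc (min_le_left _ _) (le_max_left _ _))
  set G : ℝ → ℂ × ℂ := fun r => limUnder atTop fun n => Y n r
  have un : ∀ x y, x0 < x → x < y → TendstoUniformlyOn Y G atTop (Icc x y) := fun x y hx hxy =>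
    (big x y hx hxy).tendstoUniformlyOn_of_tendsto fun r hr =>
      ((big x y hx hxy).cauchySeq hr).tendsto_limUnder
  have u0 : ∀ x y, x0 < x → x < y → TendstoUniformlyOn f (fun r => (G r).1) atTop (Icc x y) :=
    fun x y hx hxy => uniformContinuous_fst.comp_tendstoUniformlyOn (un x y hx hxy)
  have u1 : ∀ x y, x0 < x → x < y → TendstoUniformlyOn f1 (fun r => (G r).2) atTop (Icc x y) :=
    fun x y hx hxy => uniformContinuous_snd.comp_tendstoUniformlyOn (un x y hx hxy)
  refine ⟨fun r => (G r).1, fun r => (G r).2, fun r hr => ?_, fun x y hx hxy =>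
    ⟨u0 x y hx hxy, u1 x y hx hxy⟩⟩
  have hx : x0 < (x0 + r) / 2 := by linarith
  have hxy : (x0 + r) / 2 < r + 1 := by linarith
  have sU : Icc ((x0 + r) / 2) (r + 1) ⊆ Ioi x0 := fun r hr => hx.trans_le hr.1
  have hm : r ∈ Ioo ((x0 + r) / 2) (r + 1) := ⟨by linarith, by linarith⟩
  have k0 := (u0 _ _ hx hxy).continuousOn (Frequently.of_forall fun n =>
    cont_of fun r hr => d0 n r (sU hr))
  have k1 := (u1 _ _ hx hxy).continuousOn (Frequently.of_forall fun n =>
    cont_of fun r hr => d1 n r (sU hr))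
  refine ⟨hasDerivAt_of_tendstoUniformlyOn isOpen_Ioo ((u1 _ _ hx hxy).mono Ioo_subset_Icc_self)
    (Eventually.of_forall fun n r hr => d0 n r (sU (Ioo_subset_Icc_self hr)))
    (fun r hr => (u0 _ _ hx hxy).tendsto_at (Ioo_subset_Icc_self hr)) hm, ?_⟩
  have w := ((mul_unif (hp.2 _ _ hx hxy) (cp hp hx) (u1 _ _ hx hxy) k1).add
    (mul_unif (hq.2 _ _ hx hxy) (cp hq hx) (u0 _ _ hx hxy) k0)).add (he _ _ hx hxy)
  have := hasDerivAt_of_tendstoUniformlyOn isOpen_Ioo (w.mono Ioo_subset_Icc_self)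
    (Eventually.of_forall fun n r hr => d1 n r (sU (Ioo_subset_Icc_self hr)))
    (fun r hr => (u1 _ _ hx hxy).tendsto_at (Ioo_subset_Icc_self hr)) hm
  simpa using this

end Vale.Agent.P354BF
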