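import Vale.Agent.P354BF.Hyp
import Vale.Agent.P354BF.Res

open scoped ContDiff InnerProductSpace
open MeasureTheory Set Filter Topology intervalIntegral
open Complex (I)

namespace Vale.Agent.P354BF

variable {S : Type} [NormedAddCommGroup S] [InnerProductSpace ℂ S] {A : Ang S}

/-- Sequences of curves which tend to zero on bounded intervals. -/
def Par.Sml (p : Par S) (y : ℕ → ℝ → S) : Prop :=
  (∀ n, ContDiff ℝ ∞ (y n)) ∧
    (∀ Y, p.r0 ≤ Y → Tendsto (fun n => W 2 (y n) p.r0 Y) atTop (𝓝 0)) ∧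
    Tendsto (fun n => W 3 (y n) p.x0 p.R2) atTop (𝓝 0)

namespace Par

variable {p : Par S} {R : ℕ → ℝ} {σ : ℕ → Fr} {o : Fr} {z y : ℕ → ℝ → S}

theorem Adm.sml (H : p.Hyp A) (q : p.Seq R σ o) (hy : p.Adm A R σ y) (ny : p.Nul y) : p.Sml y := by
  refine ⟨fun n => (hy.1 n).1.cd, fun Y hY => ?_, ?_⟩
  · obtain ⟨C, hC⟩ := H.g2 Y hY
    refine squeeze_zero' (Eventually.of_forall fun n => W_nonneg _ _ hY) ?_ (hy.nul H q ny C)
    filter_upwards [q.top.eventually hC] with n hn using hn _ (q.mem n) _ (hy.1 n)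
  · obtain ⟨C, hC⟩ := H.g1
    refine squeeze_zero' (Eventually.of_forall fun n => W_nonneg _ _ H.h2.le) ?_ (hy.nul H q ny C)
    filter_upwards [q.top.eventually hC] with n hn
    linarith [(hn _ (q.mem n) _ (hy.1 n)).1, WL_nonneg (A := A) 2 (y n) H.h2.le,
      W_mono (hy.1 n).1.cd (le_refl 3) H.h3 H.h2.le le_rfl]

theorem Sml.lin (H : p.Hyp A) (hz : p.Sml z) (hy : p.Sml y) (c d : ℂ) :
    p.Sml fun n r => c • z n r + d • y n r := by
  refine ⟨fun n => ((hz.1 n).const_smul c).add ((hy.1 n).const_smul d), fun Y hY => ?_, ?_⟩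
  · have := ((hz.2.1 Y hY).const_mul (2 * ‖c‖ ^ 2)).add ((hy.2.1 Y hY).const_mul (2 * ‖d‖ ^ 2))
    simp only [mul_zero, add_zero] at this
    exact squeeze_zero (fun n => W_nonneg _ _ hY) (fun n => W_lin (hz.1 n) (hy.1 n) c d 2 hY) this
  · have := (hz.2.2.const_mul (2 * ‖c‖ ^ 2)).add (hy.2.2.const_mul (2 * ‖d‖ ^ 2))
    simp only [mul_zero, add_zero] at this
    exact squeeze_zero (fun n => W_nonneg _ _ H.h2.le)
      (fun n => W_lin (hz.1 n) (hy.1 n) c d 3 H.h2.le) this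

theorem Sml.val (H : p.Hyp A) (hy : p.Sml y) {j : ℕ} (hj : j ≤ 2) {ρ : ℝ}
    (hρ : ρ ∈ Icc p.x0 p.R2) : Tendsto (fun n => ‖iteratedDeriv j (y n) ρ‖) atTop (𝓝 0) := by
  have t := (hy.2.2.const_mul (2 * (2 / (p.R2 - p.x0) + 2 * (p.R2 - p.x0)))).sqrt
  rw [mul_zero, Real.sqrt_zero] at t
  exact squeeze_zero (fun n => norm_nonneg _) (fun n => Real.le_sqrt_of_sq_le
    (W_trace (hy.1 n) (show j < 3 by omega) H.h2 hρ)) t

/-- One factor: the values of an approximate eigenfunction tend to zero. -/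
theorem step0 (h : A.Is) (H : p.Hyp A) (q : p.Seq R σ o) {lam : ℂ} (hz : p.Adm A R σ z)
    (hy : p.Sml fun n r => A.lf p.k (σ n) (z n r) - lam • z n r) (l : S →L[ℂ] ℂ)
    {j : ℕ} (hj : j ≤ 2) {ρ : ℝ} (hρ : ρ ∈ Icc p.x0 p.R2) :
    Tendsto (fun n => l (iteratedDeriv j (z n) ρ)) atTop (𝓝 0) := by
  by_contra hc
  rw [Metric.tendsto_nhds] at hc
  push Not at hc
  obtain ⟨ε, hε, hf⟩ := hc
  simp only [dist_zero_right] at hf
  obtain ⟨B, hB⟩ := hz.2.1
  set c := 2 * (2 / (p.R2 - p.x0) + 2 * (p.R2 - p.x0)) with hc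
  have c0 : 0 ≤ c := by
    have : 0 < p.R2 - p.x0 := by linarith [H.h2]
    positivity
  have bd : ∀ i < 2, ∀ n, l (iteratedDeriv i (z n) p.x0) ∈
      Metric.closedBall (0 : ℂ) (‖l‖ * √(c * B)) := fun i hi n => by
    rw [mem_closedBall_zero_iff]
    refine (l.le_opNorm _).trans (mul_le_mul_of_nonneg_left (Real.le_sqrt_of_sq_le ?_)
      (norm_nonneg _))
    exact (W_trace (hz.1 n).1.cd hi H.h2 ⟨le_rfl, H.h2.le⟩).trans (mul_le_mul_of_nonneg_left
      ((H.bk _ _ (q.mem n) _ (q.le n) (hz.1 n)).trans (hB n)) c0)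
  obtain ⟨φ0, hφ0, hb0⟩ := extraction_of_frequently_atTop hf
  obtain ⟨x, -, φ1, hφ1, lim⟩ := ((isCompact_closedBall (0 : ℂ) (‖l‖ * √(c * B))).prod
    (isCompact_closedBall (0 : ℂ) (‖l‖ * √(c * B)))).tendsto_subseq
    (x := fun n => (l (iteratedDeriv 0 (z (φ0 n)) p.x0), l (iteratedDeriv 1 (z (φ0 n)) p.x0)))
    fun n => ⟨bd 0 (by norm_num) _, bd 1 (by norm_num) _⟩
  have hφ : Tendsto (fun n => φ0 (φ1 n)) atTop atTop := hφ0.tendsto_atTop.comp hφ1.tendsto_atTop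
  have hb : ∀ n, ε ≤ ‖l (iteratedDeriv j (z (φ0 (φ1 n))) ρ)‖ := fun n => hb0 _
  have hα := (continuous_fst.tendsto _).comp lim
  have hβ := (continuous_snd.tendsto _).comp lim
  simp only [Function.comp_def] at hα hβ
  replace q := q.sub hφ
  replace hz := hz.sub hφ
  replace hy : p.Sml fun n r => A.lf p.k (σ (φ0 (φ1 n))) (z (φ0 (φ1 n)) r) -
    lam • z (φ0 (φ1 n)) r := ⟨fun _ => hy.1 _, fun Y hY => (hy.2.1 Y hY).comp hφ, hy.2.2.comp hφ⟩
  generalize (fun n => R (φ0 (φ1 n))) = R at q hz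
  obtain ⟨σ, eσ⟩ : ∃ τ : ℕ → Fr, ∀ n, σ (φ0 (φ1 n)) = τ n := ⟨_, fun _ => rfl⟩
  obtain ⟨z, ez⟩ : ∃ τ : ℕ → ℝ → S, ∀ n, z (φ0 (φ1 n)) = τ n := ⟨_, fun _ => rfl⟩
  simp only [eσ, ez] at q hz hy hb hα hβ
  have r0 : p.r0 ≤ p.x0 := H.h3
  have h1 := H.h1 o q.mo
  obtain ⟨g, ode, cv⟩ := scal_lim h (fun n => H.ha _ (q.mem n)) (H.ha o q.mo) (H.h0 o q.mo) h1
    q.lim (fun n => (hz.1 n).1) (lam := lam) (s := p.s) (k := p.k) hy.2.1
    (fun y hy' => by
      obtain ⟨C, hC⟩ := H.sr y hy'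
      have := hz.2.2.const_mul C
      rw [mul_zero] at this
      refine squeeze_zero' (Eventually.of_forall fun n => W_nonneg _ _ hy') ?_ this
      filter_upwards [q.top.eventually hC] with n hn using hn _ (q.mem n) _ (hz.1 n)) l hα hβ
  obtain ⟨C, hC⟩ := H.g1
  obtain ⟨B1, hB1⟩ := hz.bd H q C
  have cf : ∀ i n, Continuous fun r => l (iteratedDeriv i (z n) r) := fun i n =>
    l.continuous.comp (iter_cont (hz.1 n).1.cd i)
  have l0 : 0 < ‖l‖ := by
    have := (hb 0).trans (l.le_opNorm _)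
    rcases (norm_nonneg l).eq_or_lt with e | e
    · rw [← e] at this; linarith
    · exact e
  have rg : A.Rng p.k o.a o.om o.m lam := by
    refine h.rng (div_pos hε l0) q.lim (u := fun n => iteratedDeriv j (z n) ρ)
      (fun n => (div_le_iff₀' l0).2 ((hb n).trans (l.le_opNorm _))) ?_
    refine (hy.val H hj hρ).congr fun n => ?_
    have e := iter_lin (h.sm_lop (hz.1 n).1 p.k (σ n).a (σ n).om (σ n).m).cd (hz.1 n).1.cd 1 (-lam) j
    simp only [one_smul, neg_smul, ← sub_eq_add_neg, h.iter_lop (hz.1 n).1] at e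
    rw [e]
  have z0 := H.ms o q.mo lam rg g ode ⟨‖l‖ ^ 2 * B1, fun x hx => by
      refine le_of_tendsto ((cv 3 le_rfl).int (fun n => (cf 3 n).continuousOn) hx.1 hx.2) ?_
      filter_upwards [q.top.eventually hC, hB1] with n hn hn'
      have a1 := (hn _ (q.mem n) _ (hz.1 n)).1
      have a2 := le_W (le_refl 3) (z n) hx.2.le
      have a3 := W_mono (hz.1 n).1.cd (le_refl 3) ((H.h0 o q.mo).trans hx.1.le) hx.2.le le_rfl
      have a4 := WL_nonneg (A := A) 2 (z n) H.h2.le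
      exact (l_int l (iter_cont (hz.1 n).1.cd 3) hx.2.le).trans
        (mul_le_mul_of_nonneg_left (by linarith) (sq_nonneg _))⟩
    fun i => ⟨‖l‖ ^ 2 * B1, fun y hy' => by
      have cT : ∀ j n, ContinuousOn (p.T i j (σ n)) (Icc p.R2 y) := fun j n r hr =>
        ((H.cT i j _ (q.mem n) r (((H.h1 _ (q.mem n)).trans H.h2).trans_le hr.1)).comp
          (f := fun r => (σ n, r)) (by fun_prop)).continuousWithinAt
      have v : Cv (rp o.M o.a) (fun n r => ∑ j ∈ Finset.range 4,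
          p.T i j (σ n) r * l (iteratedDeriv j (z n) r)) fun r => ∑ j ∈ Finset.range 4,
          p.T i j o r * g j r := by
        simp only [Finset.sum_range]
        exact Cv.sum _ fun j : Fin 4 =>
          (Cv.coef (H.cT i j o q.mo) q.lim).mul (cv j (Nat.lt_succ_iff.1 j.2))
      refine le_of_tendsto (v.int (fun n => continuousOn_finsetSum _ fun j _ =>
        (cT j n).mul (cf j n).continuousOn) (h1.trans H.h2) hy') ?_
      filter_upwards [q.top.eventually hC, hB1, q.top.eventually_ge_atTop y] with n hn hn' hy2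
      have a1 := (hn _ (q.mem n) _ (hz.1 n)).2 i y ⟨hy'.le, hy2⟩
      refine le_trans ?_ (mul_le_mul_of_nonneg_left (a1.trans hn') (sq_nonneg _))
      rw [← intervalIntegral.integral_const_mul]
      refine integral_mono_on hy'.le (ii_sq hy'.le (continuousOn_finsetSum _ fun j _ =>
        (cT j n).mul (cf j n).continuousOn)) ((ii_sq hy'.le
          (continuousOn_finsetSum _ fun j _ => (cT j n).smul
            (iter_cont (hz.1 n).1.cd j).continuousOn)).const_mul _) fun r _ => ?_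
      rw [← mul_pow]
      refine pow_le_pow_left₀ (norm_nonneg _) (le_trans (le_of_eq ?_) (l.le_opNorm _)) 2
      simp only [map_sum, map_smul, smul_eq_mul]⟩
  have zs : ∀ i < 2, (∀ r, rp o.M o.a < r → g i r = 0) → ∀ r, rp o.M o.a < r → g (i + 1) r = 0 :=
    fun i hi hg r hr => ((ode r hr).1 i (by omega)).unique
      ((hasDerivAt_const r (0 : ℂ)).congr_of_eventuallyEq (by filter_upwards [Ioi_mem_nhds hr] with x hx using hg x hx))
  have z1 := zs 0 (by norm_num) z0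
  have z2 := zs 1 (by norm_num) z1
  have hr := h1.trans_le hρ.1
  have t := ((cv j (by omega)).pt hr).norm
  have : g j ρ = 0 := by
    interval_cases j
    exacts [z0 ρ hr, z1 ρ hr, z2 ρ hr]
  rw [this, norm_zero] at t
  linarith [ge_of_tendsto' t hb]

/-- Finitely many values decide whether the low order term tends to zero. -/
theorem fin (h : A.Is) (gal : A.Gal) (H : p.Hyp A) :
    ∃ (ι : Type) (_ : Fintype ι) (φ : ι → S) (j : ι → ℕ) (ρ : ι → ℝ),
      (∀ i, j i ≤ 2 ∧ ρ i ∈ Icc p.x0 p.R2) ∧ ∀ R σ o z, p.Seq R σ o → p.Adm A R σ z →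
        (∀ i, Tendsto (fun n => innerSL ℂ (φ i) (iteratedDeriv (j i) (z n) (ρ i))) atTop (𝓝 0)) →
          p.Nul z := by
  obtain ⟨C, hC⟩ := H.g1
  have η0 : 0 < 1 / (2 * (|C| + 1)) := by positivity
  obtain ⟨N, φ, hφ⟩ := h.cap2 gal _ η0
  obtain ⟨ι, _, l, j, ρ, D, -, hj, hW⟩ := W_fin h H.h2 η0 hφ
  refine ⟨ι, inferInstance, fun i => φ (l i), j, ρ, hj, fun R σ o z q hz hl => ?_⟩
  have t := (hz.err H q).norm.add ((tendsto_finsetSum Finset.univ
    fun i _ => (hl i).norm.pow 2).const_mul (2 * D))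
  simp only [norm_zero, ne_eq, OfNat.ofNat_ne_zero, not_false_eq_true, zero_pow,
    Finset.sum_const_zero, mul_zero, add_zero] at t
  refine squeeze_zero' (Eventually.of_forall fun n => W_nonneg _ _ H.h2.le) ?_ t
  filter_upwards [q.top.eventually hC] with n hn
  have a1 := (hn _ (q.mem n) _ (hz.1 n)).1
  have a2 := hW _ (hz.1 n).1
  have a3 := W_mono (hz.1 n).1.cd (le_refl 3) H.h3 H.h2.le le_rfl
  have a4 := W_nonneg 2 (z n) H.h2.le
  unfold Q at a1
  set e := p.src (R n) (σ n) (z n) + p.θ (R n) * p.Bk (R n) (σ n) (z n)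
  set w := W 2 (z n) p.x0 p.R2
  have b1 : C * (e + w) ≤ (|C| + 1) * (‖e‖ + w) := by
    refine (le_abs_self _).trans ?_
    rw [abs_mul]
    refine mul_le_mul (by linarith) ((abs_add_le _ _).trans ?_) (abs_nonneg _) (by positivity)
    rw [abs_of_nonneg a4, Real.norm_eq_abs]
  have b2 : 1 / (2 * (|C| + 1)) * ((|C| + 1) * (‖e‖ + w)) = (‖e‖ + w) / 2 := by field_simp
  have b3 := mul_le_mul_of_nonneg_left (show W 3 (z n) p.x0 p.R2 + A.WL 2 (z n) p.x0 p.R2 ≤
    (|C| + 1) * (‖e‖ + w) by linarith) η0.le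
  linarith

end Par

end Vale.Agent.P354BF
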